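import Vale.Agent.P106.U.H20.Defs
import Vale.Agent.P106.W.Const

/-! # P106 / U / H513 : change of the level of a label, geometry (helper513)

`dn w τ l` : the ray in the block of length `2^w`, `τ` = position of the small block. `ext_geo` : the rays of a label of shape
`(b, R)` of a small block are covered by `≤ N0 2^(3 w)` labels of shape `(min (b + d) R + w, R + w)` of the large block, the
class of boxes `c` being replaced by any class `c₁`. -/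

set_option autoImplicit false

namespace Vale.Agent.P106.U.H513

open Vale.Agent.P127 Vale.Agent.P127.Stk Vale.Agent.P127.U Vale.Agent.P106.W Vale.Agent.P106.K
open Vale.Agent.P122.C2 (fn)

/-- the ray in the large block -/
noncomputable def dn (w : ℕ) (τ : ℝ) (l : Ry) : Ry :=
  ⟨fun k => l.y k / 2 ^ w - τ * l.s k, l.s, l.z / 2 ^ w + τ * (∑ k, l.s k ^ 2) / 2⟩

/-- position of the small block in the large block -/
noncomputable def tau (a w : ℕ) (t : ℝ) : ℝ := 2 ^ a * (qa (a + w) t - qa a t)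

theorem bl_dn (a w : ℕ) (l : Ry) (t : ℝ) : bl a l t = dn w (tau a w t) (bl (a + w) l t) := by
  have h2 : (2 : ℝ) ^ w ≠ 0 := by positivity
  have h3 : (2 : ℝ) ^ (a + w) = 2 ^ a * 2 ^ w := pow_add _ _ _
  unfold bl dn tau Ry.pos
  simp only [Ry.mk.injEq, true_and]
  refine ⟨?_, ?_⟩
  · funext k
    rw [h3]
    field_simp
    ring
  · rw [h3]
    field_simp
    ring

theorem tau_nonneg (a w : ℕ) (t : ℝ) : 0 ≤ tau a w t := by
  unfold tau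
  have h1 : ((fl1 a t : ℤ) : ℝ) * 2 ^ w ≤ ((fl1 (a + w) t : ℤ) : ℝ) := by
    have h2 : fl1 a t * 2 ^ w ≤ fl1 (a + w) t := by
      unfold fl1
      rw [Int.le_floor]
      push_cast
      rw [pow_add]
      have := Int.floor_le ((2 : ℝ) ^ a * t)
      have h3 : (0 : ℝ) < 2 ^ w := by positivity
      nlinarith
    exact_mod_cast h2
  unfold qa
  have h4 : (0 : ℝ) < 2 ^ a := by positivity
  have h5 : (0 : ℝ) < 2 ^ w := by positivity
  have h6 : (fl1 a t : ℝ) / 2 ^ a ≤ (fl1 (a + w) t : ℝ) / 2 ^ (a + w) := by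
    rw [pow_add, div_le_div_iff₀ h4 (by positivity)]
    nlinarith
  exact mul_nonneg h4.le (by linarith)

theorem tau_le (a w : ℕ) (t : ℝ) : tau a w t ≤ 1 := by
  unfold tau
  have h4 : (0 : ℝ) < 2 ^ a := by positivity
  have h5 : (0 : ℝ) < 2 ^ (a + w) := by positivity
  have h1 : qa (a + w) t ≤ t := by
    unfold qa fl1
    rw [div_le_iff₀ h5]
    have := Int.floor_le ((2 : ℝ) ^ (a + w) * t)
    linarith
  have h2 : t ≤ qa a t + 1 / 2 ^ a := by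
    unfold qa fl1
    rw [← add_div, le_div_iff₀ h4]
    have := Int.lt_floor_add_one ((2 : ℝ) ^ a * t)
    linarith
  have h3 : (2 : ℝ) ^ a * (qa (a + w) t - qa a t) ≤ 2 ^ a * (1 / 2 ^ a) :=
    mul_le_mul_of_nonneg_left (by linarith) h4.le
  rwa [mul_one_div_cancel h4.ne'] at h3

theorem tau_fn (a w : ℕ) (t t' : ℝ) (h : fl1 (a + w) t = fl1 (a + w) t') : tau a w t = tau a w t' := by
  have h1 : fl1 a t = fl1 a t' := by
    have h2 := floor_pow_aux (Nat.le_add_right a w) t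
    have h3 := floor_pow_aux (Nat.le_add_right a w) t'
    have e : ⌊(2 : ℝ) ^ (a + w) * t⌋ = ⌊(2 : ℝ) ^ (a + w) * t'⌋ := h
    show ⌊(2 : ℝ) ^ a * t⌋ = ⌊(2 : ℝ) ^ a * t'⌋
    rw [h2, h3, e]
  unfold tau qa
  rw [h, h1]

/-- the box in the coordinates of the large block -/
noncomputable def dnB (w : ℕ) (τ : ℝ) (B : Cbx) : Cbx :=
  ⟨B.θ, B.u1 / 2 ^ w, B.u2 / 2 ^ w, B.κ - 2 * τ * 2 ^ w * B.α, 2 ^ w * B.α, (dn w τ ⟨B.p, B.v, B.ω⟩).y, B.v,
    (dn w τ ⟨B.p, B.v, B.ω⟩).z⟩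

theorem g0_dn (w : ℕ) (τ : ℝ) (B : Cbx) (l : Ry) :
    (dnB w τ B).g0 (dn w τ l).y (dn w τ l).s (dn w τ l).z = B.g0 l.y l.s l.z / 2 ^ w - τ * B.g1 l.y l.s l.z := by
  have h2 : (2 : ℝ) ^ w ≠ 0 := by positivity
  simp only [Cbx.g0, Cbx.g1, dnB, dn, fn, Fin.sum_univ_two, Pi.sub_apply]
  field_simp
  ring

theorem g1_dn (w : ℕ) (τ : ℝ) (B : Cbx) (l : Ry) :
    (dnB w τ B).g1 (dn w τ l).y (dn w τ l).s (dn w τ l).z = B.g1 l.y l.s l.z := by
  have h2 : (2 : ℝ) ^ w ≠ 0 := by positivity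
  simp only [Cbx.g1, dnB, dn, fn, Fin.sum_univ_two, Pi.sub_apply]
  field_simp
  ring

theorem nn_dn (w : ℕ) (τ : ℝ) (B : Cbx) (l : Ry) :
    (dnB w τ B).nn (dn w τ l).y (dn w τ l).s = B.nn l.y l.s := by
  have h2 : (2 : ℝ) ^ w ≠ 0 := by positivity
  simp only [Cbx.nn, dnB, dn]
  congr 1
  · field_simp
    ring
  · congr 1
    field_simp
    ring

theorem null_dn (w : ℕ) (τ : ℝ) (l l0 : Ry) :
    (dn w τ l).z + ∑ k, (dn w τ l).y k * ((dn w τ l).s k - (dn w τ l0).s k) - (dn w τ l0).z =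
      (l.z + ∑ k, l.y k * (l.s k - l0.s k) - l0.z) / 2 ^ w - τ * (∑ k, (l.s k - l0.s k) ^ 2) / 2 := by
  have h2 : (2 : ℝ) ^ w ≠ 0 := by positivity
  simp only [dn, Fin.sum_univ_two]
  field_simp
  ring

/-! ### the linear algebra of one cell -/

/-- the component of the slope which is not recorded -/
theorem solve {c M u δ n1 n2 d1 d2 κ α Z e1 e2 G : ℝ} (hc : 1 ≤ c) (hu : 0 < u) (hδ : 0 ≤ δ) (hδu : δ ≤ u)
    (hM : 30 * c ≤ M) (hG : |G| ≤ δ) (h1 : |d1| ≤ δ) (h2 : |d2| ≤ u / M) (hZ : |Z| ≤ δ * u) (he1 : |e1| ≤ u / M)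
    (he2 : |e2| ≤ u / M) (hκ : |κ| * u ≤ c) (hα : |α| * u ≤ c) (hn1 : |n1| ≤ 4 * c ^ 2) (hn2 : 1 / 3 ≤ |n2|)
    (heq : G = n1 * d1 + n2 * d2 + κ * (d1 ^ 2 + d2 ^ 2) / 2 + 2 * α * (Z + (e1 * d1 + e2 * d2))) :
    |d2| ≤ 40 * c ^ 2 * δ := by
  have hM0 : 0 < M := by linarith
  have hM1 : 30 ≤ M := by linarith
  have hcM : c / M ≤ 1 / 30 := by rw [div_le_iff₀ hM0]; linarith
  have hc0 : 0 < c := by linarith
  have hc2 : c ≤ c ^ 2 := by nlinarith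
  have huM : u / M ≤ u / 30 := div_le_div_of_nonneg_left hu.le (by norm_num) hM1
  -- the coefficient
  have a1 : |2 * α * e2| ≤ 1 / 15 := by
    rw [abs_mul, abs_mul, abs_two]
    have : |α| * |e2| ≤ |α| * (u / M) := mul_le_mul_of_nonneg_left he2 (abs_nonneg _)
    have h3 : |α| * (u / M) = (|α| * u) / M := by ring
    have h4 : (|α| * u) / M ≤ c / M := div_le_div_of_nonneg_right hα hM0.le
    linarith
  have a2 : |κ * d2 / 2| ≤ 1 / 60 := by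
    rw [abs_div, abs_mul, abs_two]
    have : |κ| * |d2| ≤ |κ| * (u / M) := mul_le_mul_of_nonneg_left h2 (abs_nonneg _)
    have h3 : |κ| * (u / M) = (|κ| * u) / M := by ring
    have h4 : (|κ| * u) / M ≤ c / M := div_le_div_of_nonneg_right hκ hM0.le
    linarith
  have hco : 1 / 4 ≤ |n2 + 2 * α * e2 + κ * d2 / 2| := by
    have h5 : |n2| ≤ |n2 + 2 * α * e2 + κ * d2 / 2| + |2 * α * e2| + |κ * d2 / 2| := by
      have e : n2 = (n2 + 2 * α * e2 + κ * d2 / 2) + (-(2 * α * e2)) + (-(κ * d2 / 2)) := by ring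
      calc |n2| = |(n2 + 2 * α * e2 + κ * d2 / 2) + (-(2 * α * e2)) + (-(κ * d2 / 2))| := by rw [← e]
        _ ≤ |(n2 + 2 * α * e2 + κ * d2 / 2) + (-(2 * α * e2))| + |-(κ * d2 / 2)| := abs_add_le _ _
        _ ≤ |n2 + 2 * α * e2 + κ * d2 / 2| + |-(2 * α * e2)| + |-(κ * d2 / 2)| := by
            linarith [abs_add_le (n2 + 2 * α * e2 + κ * d2 / 2) (-(2 * α * e2))]
        _ = _ := by rw [abs_neg, abs_neg]
    linarith
  -- the right hand side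
  have b1 : |n1 * d1| ≤ 4 * c ^ 2 * δ := by
    rw [abs_mul]; exact mul_le_mul hn1 h1 (abs_nonneg _) (by positivity)
  have b2 : |κ * d1 ^ 2 / 2| ≤ c ^ 2 * δ := by
    rw [abs_div, abs_mul, abs_two, abs_of_nonneg (sq_nonneg d1)]
    have h3 : d1 ^ 2 ≤ δ * u := by
      rw [← sq_abs]
      nlinarith [abs_nonneg d1]
    have h4 : |κ| * d1 ^ 2 ≤ |κ| * (δ * u) := mul_le_mul_of_nonneg_left h3 (abs_nonneg _)
    have h5 : |κ| * (δ * u) = (|κ| * u) * δ := by ring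
    have h6 : (|κ| * u) * δ ≤ c * δ := mul_le_mul_of_nonneg_right hκ hδ
    have h7 : c * δ ≤ c ^ 2 * δ := mul_le_mul_of_nonneg_right hc2 hδ
    have h8 : 0 ≤ c ^ 2 * δ := by positivity
    linarith
  have b3 : |2 * α * Z| ≤ 2 * (c ^ 2 * δ) := by
    rw [abs_mul, abs_mul, abs_two]
    have h4 : |α| * |Z| ≤ |α| * (δ * u) := mul_le_mul_of_nonneg_left hZ (abs_nonneg _)
    have h5 : |α| * (δ * u) = (|α| * u) * δ := by ring
    have h6 : (|α| * u) * δ ≤ c * δ := mul_le_mul_of_nonneg_right hα hδ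
    have h7 : c * δ ≤ c ^ 2 * δ := mul_le_mul_of_nonneg_right hc2 hδ
    linarith
  have b4 : |2 * α * e1 * d1| ≤ c ^ 2 * δ := by
    rw [abs_mul, abs_mul, abs_mul, abs_two]
    have h3 : |α| * |e1| ≤ |α| * (u / M) := mul_le_mul_of_nonneg_left he1 (abs_nonneg _)
    have h4 : |α| * (u / M) = (|α| * u) / M := by ring
    have h5 : (|α| * u) / M ≤ c / M := div_le_div_of_nonneg_right hα hM0.le
    have h6 : 2 * |α| * |e1| ≤ c ^ 2 := by nlinarith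
    exact mul_le_mul h6 h1 (abs_nonneg _) (by positivity)
  have hfin : (n2 + 2 * α * e2 + κ * d2 / 2) * d2 =
      G + (-(n1 * d1)) + (-(κ * d1 ^ 2 / 2)) + (-(2 * α * Z)) + (-(2 * α * e1 * d1)) := by
    rw [heq]; ring
  have hle : |n2 + 2 * α * e2 + κ * d2 / 2| * |d2| ≤ δ + 8 * (c ^ 2 * δ) := by
    rw [← abs_mul, hfin]
    have s1 := abs_add_le (G + (-(n1 * d1)) + (-(κ * d1 ^ 2 / 2)) + (-(2 * α * Z))) (-(2 * α * e1 * d1))
    have s2 := abs_add_le (G + (-(n1 * d1)) + (-(κ * d1 ^ 2 / 2))) (-(2 * α * Z))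
    have s3 := abs_add_le (G + (-(n1 * d1))) (-(κ * d1 ^ 2 / 2))
    have s4 := abs_add_le G (-(n1 * d1))
    rw [abs_neg] at s1 s2 s3 s4
    linarith
  have h9 : δ ≤ c ^ 2 * δ := by nlinarith
  have h10 : 1 / 4 * |d2| ≤ |n2 + 2 * α * e2 + κ * d2 / 2| * |d2| := mul_le_mul_of_nonneg_right hco (abs_nonneg _)
  linarith

/-! ### keys of cells -/

/-- the type of the keys -/
abbrev KT := ((Fin 2 → ℤ) × (Fin 2 → ℤ)) × (ℤ × Fin 2) × (ℤ × ℤ × ℤ)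

/-- the rounded position -/
noncomputable def yh (M : ℕ) (B : Cbx) (l : Ry) (k : Fin 2) : ℝ :=
  B.p k + B.u2 / M * (⌊(M : ℝ) * (l.y k - B.p k) / B.u2⌋ : ℝ)

/-- the null coordinate with respect to the rounded position -/
noncomputable def zh (M : ℕ) (B : Cbx) (l : Ry) : ℝ := l.z + ∑ k, yh M B l k * (l.s k - B.v k) - B.ω

/-- the recorded component of the slope -/
noncomputable def ic (B : Cbx) (l : Ry) : Fin 2 :=
  if |B.nn l.y l.s 0| ≤ |B.nn l.y l.s 1| then 0 else 1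

/-- key, slab case -/
noncomputable def keyS (M w : ℕ) (B : Cbx) (l : Ry) : KT :=
  ((fun k => ⌊(M : ℝ) * (l.y k - B.p k) / B.u2⌋, fun k => ⌊(M : ℝ) * (l.s k - B.v k) / B.u2⌋),
    (⌊(M : ℝ) * B.g0 l.y l.s l.z / B.u1⌋, ic B l),
    (⌊((M : ℝ) * 2 ^ w) * (l.s (ic B l) - B.v (ic B l)) / B.u2⌋, ⌊((M : ℝ) * 2 ^ w) * zh M B l / B.u2 ^ 2⌋,
      ⌊((M : ℝ) * 2 ^ w) * B.g1 l.y l.s l.z / B.u1⌋))

/-- key, ball case -/
noncomputable def keyB (M w : ℕ) (B : Cbx) (l : Ry) : KT :=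
  ((fun k => ⌊(M : ℝ) * (l.y k - B.p k) / B.u2⌋, fun k => ⌊(M : ℝ) * (l.s k - B.v k) / B.u2⌋), (0, 0),
    (⌊((M : ℝ) * 2 ^ w) * (l.s 0 - B.v 0) / B.u2⌋, ⌊((M : ℝ) * 2 ^ w) * zh M B l / B.u2 ^ 2⌋,
      ⌊((M : ℝ) * 2 ^ w) * (l.s 1 - B.v 1) / B.u2⌋))

theorem yh_close {M : ℕ} {B : Cbx} (hM : (0 : ℝ) < M) (hu : 0 < B.u2) (l : Ry) (k : Fin 2) :
    |l.y k - yh M B l k| ≤ B.u2 / M := by
  unfold yh
  set x := (M : ℝ) * (l.y k - B.p k) / B.u2 with hx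
  have h1 := Int.floor_le x
  have h2 := Int.lt_floor_add_one x
  have e : l.y k - (B.p k + B.u2 / M * (⌊x⌋ : ℝ)) = B.u2 / M * (x - ⌊x⌋) := by
    rw [hx]
    field_simp
    ring
  rw [e, abs_mul, abs_of_pos (div_pos hu hM), abs_of_nonneg (by linarith)]
  have : B.u2 / M * (x - ⌊x⌋) ≤ B.u2 / M * 1 := mul_le_mul_of_nonneg_left (by linarith) (div_pos hu hM).le
  linarith

theorem yh_eq {M : ℕ} {B : Cbx} {l l0 : Ry}
    (h : (fun k => ⌊(M : ℝ) * (l.y k - B.p k) / B.u2⌋) = fun k => ⌊(M : ℝ) * (l0.y k - B.p k) / B.u2⌋) (k : Fin 2) :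
    yh M B l k = yh M B l0 k := by
  unfold yh
  rw [congrFun h k]

theorem zh_sub {M : ℕ} {B : Cbx} {l l0 : Ry}
    (h : (fun k => ⌊(M : ℝ) * (l.y k - B.p k) / B.u2⌋) = fun k => ⌊(M : ℝ) * (l0.y k - B.p k) / B.u2⌋) :
    zh M B l - zh M B l0 = l.z - l0.z + ∑ k, yh M B l0 k * (l.s k - l0.s k) := by
  unfold zh
  simp only [yh_eq h, Fin.sum_univ_two]
  ring

theorem nn_le {c : ℝ} (hc : 1 ≤ c) {B : Cbx} {l : Ry} (hα : |B.α| * B.u2 ≤ c) (hκ : |B.κ| * B.u2 ≤ c)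
    (hin : Bin c B 0 l) (k : Fin 2) : |B.nn l.y l.s k| ≤ 4 * c ^ 2 := by
  have hc0 : 0 < c := by linarith
  have h1 : ∀ k, |B.κ * (l.s k - B.v k)| ≤ c ^ 2 := fun k => by
    rw [abs_mul]
    calc |B.κ| * |l.s k - B.v k| ≤ |B.κ| * (c * B.u2) := mul_le_mul_of_nonneg_left (hin.2.1 k) (abs_nonneg _)
      _ = (|B.κ| * B.u2) * c := by ring
      _ ≤ c * c := mul_le_mul_of_nonneg_right hκ hc0.le
      _ = c ^ 2 := by ring
  have h2 : ∀ k, |2 * B.α * (l.y k - B.p k)| ≤ 2 * c ^ 2 := fun k => by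
    rw [abs_mul, abs_mul, abs_two]
    calc 2 * |B.α| * |l.y k - B.p k| ≤ 2 * |B.α| * (c * B.u2) := mul_le_mul_of_nonneg_left (hin.1 k) (by positivity)
      _ = 2 * ((|B.α| * B.u2) * c) := by ring
      _ ≤ 2 * (c * c) := by
        have := mul_le_mul_of_nonneg_right hα hc0.le
        linarith
      _ = 2 * c ^ 2 := by ring
  have hc2 : 1 ≤ c ^ 2 := one_le_pow₀ hc
  have key : ∀ x : ℝ, |x| ≤ 1 → ∀ k, |x + B.κ * (l.s k - B.v k) - 2 * B.α * (l.y k - B.p k)| ≤ 4 * c ^ 2 := by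
    intro x hx k
    have t1 := abs_sub (x + B.κ * (l.s k - B.v k)) (2 * B.α * (l.y k - B.p k))
    have t2 := abs_add_le x (B.κ * (l.s k - B.v k))
    linarith [h1 k, h2 k]
  fin_cases k
  · simp only [Cbx.nn, Fin.zero_eta, Matrix.cons_val_zero]
    exact key _ (by rw [abs_neg]; exact Real.abs_sin_le_one _) 0
  · simp only [Cbx.nn, Fin.mk_one, Matrix.cons_val_one, Matrix.cons_val_zero]
    exact key _ (Real.abs_cos_le_one _) 1

/-- distances in a cell -/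
structure Cl (c : ℝ) (M w : ℕ) (B : Cbx) (l l0 : Ry) : Prop where
  y : ∀ k, |l.y k - l0.y k| ≤ B.u2 / M
  s : ∀ k, |l.s k - l0.s k| ≤ 40 * c ^ 2 * (B.u2 / (M * 2 ^ w))
  z : |l.z + ∑ k, l.y k * (l.s k - l0.s k) - l0.z| ≤ 2 * (B.u2 / (M * 2 ^ w)) * B.u2

theorem null_le {c M u δ Z x1 x2 d1 d2 : ℝ} (hM0 : 0 < M) (hM : 80 * c ^ 2 ≤ M) (hδ : 0 ≤ δ) (hu : 0 < u)
    (hZ : |Z| ≤ δ * u) (h1 : |x1| ≤ u / M) (h2 : |x2| ≤ u / M) (h3 : |d1| ≤ 40 * c ^ 2 * δ) (h4 : |d2| ≤ 40 * c ^ 2 * δ) :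
    |Z + (x1 * d1 + x2 * d2)| ≤ 2 * δ * u := by
  have hq : u / M * (40 * c ^ 2 * δ) ≤ δ * u / 2 := by
    have e : u / M * (40 * c ^ 2 * δ) = δ * u / 2 * ((80 * c ^ 2) / M) := by field_simp; ring
    rw [e]
    have : (80 * c ^ 2) / M ≤ 1 := by rw [div_le_one hM0]; exact hM
    have h5 : 0 ≤ δ * u / 2 := by positivity
    nlinarith
  have a1 : |x1 * d1| ≤ δ * u / 2 := by
    rw [abs_mul]
    exact (mul_le_mul h1 h3 (abs_nonneg _) (by positivity)).trans hq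
  have a2 : |x2 * d2| ≤ δ * u / 2 := by
    rw [abs_mul]
    exact (mul_le_mul h2 h4 (abs_nonneg _) (by positivity)).trans hq
  have t1 := abs_add_le Z (x1 * d1 + x2 * d2)
  have t2 := abs_add_le (x1 * d1) (x2 * d2)
  linarith

theorem null_eq {M : ℕ} {B : Cbx} {l l0 : Ry}
    (h : (fun k => ⌊(M : ℝ) * (l.y k - B.p k) / B.u2⌋) = fun k => ⌊(M : ℝ) * (l0.y k - B.p k) / B.u2⌋) (x : Fin 2 → ℝ) :
    l.z + ∑ k, x k * (l.s k - l0.s k) - l0.z = (zh M B l - zh M B l0) +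
      ((x 0 - yh M B l0 0) * (l.s 0 - l0.s 0) + (x 1 - yh M B l0 1) * (l.s 1 - l0.s 1)) := by
  rw [zh_sub h]
  simp only [Fin.sum_univ_two]
  ring

theorem closeS {c : ℝ} {M w : ℕ} {B : Cbx} {l l0 : Ry} (hc : 1 ≤ c) (hM : 80 * c ^ 2 ≤ M) (hu2 : 0 < B.u2)
    (hu1 : 0 < B.u1) (h12 : B.u1 ≤ B.u2) (hα : |B.α| * B.u2 ≤ c) (hκ : |B.κ| * B.u2 ≤ c)
    (hin0 : Bin c B 0 l0) (hn : 1 / 4 ≤ B.nn l0.y l0.s 0 ^ 2 + B.nn l0.y l0.s 1 ^ 2)
    (hk : keyS M w B l = keyS M w B l0) :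
    Cl c M w B l l0 ∧ |B.g0 l.y l.s l.z - B.g0 l0.y l0.s l0.z| ≤ B.u1 / M ∧
      |B.g1 l.y l.s l.z - B.g1 l0.y l0.s l0.z| ≤ B.u1 / (M * 2 ^ w) := by
  have hc2 : 1 ≤ c ^ 2 := one_le_pow₀ hc
  have hM1 : (80 : ℝ) ≤ M := by linarith
  have hM0 : (0 : ℝ) < M := by linarith
  have hw : (0 : ℝ) < 2 ^ w := by positivity
  have hw1 : (1 : ℝ) ≤ 2 ^ w := one_le_pow₀ (by norm_num)
  have hMw : (0 : ℝ) < M * 2 ^ w := by positivity
  unfold keyS at hk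
  simp only [Prod.mk.injEq] at hk
  obtain ⟨⟨k1, k2⟩, ⟨k3, k4⟩, k5, k6, k7⟩ := hk
  rw [k4] at k5
  set δ := B.u2 / (M * 2 ^ w) with hδ
  have hδ0 : 0 < δ := div_pos hu2 hMw
  have hδu : δ ≤ B.u2 := div_le_self hu2.le (by nlinarith)
  have c1 : ∀ k, |l.y k - l0.y k| ≤ B.u2 / M := fun k => by
    have := floor_close hu2 hM0 (congrFun k1 k)
    rwa [sub_sub_sub_cancel_right] at this
  have c2 : ∀ k, |l.s k - l0.s k| ≤ B.u2 / M := fun k => by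
    have := floor_close hu2 hM0 (congrFun k2 k)
    rwa [sub_sub_sub_cancel_right] at this
  have c3 := floor_close hu1 hM0 k3
  have c5 : |l.s (ic B l0) - l0.s (ic B l0)| ≤ δ := by
    have := floor_close hu2 hMw k5
    rwa [sub_sub_sub_cancel_right] at this
  have c6 : |zh M B l - zh M B l0| ≤ δ * B.u2 := by
    have := floor_close (by positivity : 0 < B.u2 ^ 2) hMw k6
    refine this.trans (le_of_eq ?_)
    rw [hδ]; ring
  have c7 := floor_close hu1 hMw k7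
  have c7' : |B.g1 l.y l.s l.z - B.g1 l0.y l0.s l0.z| ≤ δ := c7.trans (div_le_div_of_nonneg_right h12 hMw.le)
  have hyh : ∀ k, |l0.y k - yh M B l0 k| ≤ B.u2 / M := yh_close hM0 hu2 l0
  have hyh' : ∀ k, |l.y k - yh M B l0 k| ≤ B.u2 / M := fun k => by
    rw [← yh_eq k1 k]; exact yh_close hM0 hu2 l k
  have hg : B.g1 l.y l.s l.z - B.g1 l0.y l0.s l0.z = (∑ k, B.nn l0.y l0.s k * (l.s k - l0.s k)) +
      B.κ * (∑ k, (l.s k - l0.s k) ^ 2) / 2 + 2 * B.α * (l.z + ∑ k, l0.y k * (l.s k - l0.s k) - l0.z) := by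
    rw [B.g1_rec l0.y l0.s l.y l.s l0.z l.z]; ring
  rw [null_eq k1 l0.y] at hg
  have hnn := nn_le hc hα hκ hin0
  have h30 : 30 * c ≤ (M : ℝ) := by nlinarith
  have c8 : ∀ k, |l.s k - l0.s k| ≤ 40 * c ^ 2 * δ := by
    have hle : δ ≤ 40 * c ^ 2 * δ := by nlinarith
    by_cases hcase : |B.nn l0.y l0.s 0| ≤ |B.nn l0.y l0.s 1|
    · have hi : ic B l0 = 0 := if_pos hcase
      rw [hi] at c5
      have hn2 : 1 / 3 ≤ |B.nn l0.y l0.s 1| := by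
        have h3 : B.nn l0.y l0.s 0 ^ 2 ≤ B.nn l0.y l0.s 1 ^ 2 := sq_le_sq.2 hcase
        rw [← Real.sqrt_sq_eq_abs]
        exact Real.le_sqrt_of_sq_le (by norm_num; linarith)
      have hs := solve (G := B.g1 l.y l.s l.z - B.g1 l0.y l0.s l0.z) (n1 := B.nn l0.y l0.s 0) (n2 := B.nn l0.y l0.s 1)
        (d1 := l.s 0 - l0.s 0) (d2 := l.s 1 - l0.s 1) (Z := zh M B l - zh M B l0) (e1 := l0.y 0 - yh M B l0 0)
        (e2 := l0.y 1 - yh M B l0 1) hc hu2 hδ0.le hδu h30 c7' c5 (c2 1) c6 (hyh 0) (hyh 1) hκ hα (hnn 0) hn2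
        (by rw [hg]; simp only [Fin.sum_univ_two])
      intro k
      fin_cases k
      · exact c5.trans hle
      · exact hs
    · have hi : ic B l0 = 1 := if_neg hcase
      rw [hi] at c5
      push Not at hcase
      have hn2 : 1 / 3 ≤ |B.nn l0.y l0.s 0| := by
        have h3 : B.nn l0.y l0.s 1 ^ 2 ≤ B.nn l0.y l0.s 0 ^ 2 := sq_le_sq.2 hcase.le
        rw [← Real.sqrt_sq_eq_abs]
        exact Real.le_sqrt_of_sq_le (by norm_num; linarith)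
      have hs := solve (G := B.g1 l.y l.s l.z - B.g1 l0.y l0.s l0.z) (n1 := B.nn l0.y l0.s 1) (n2 := B.nn l0.y l0.s 0)
        (d1 := l.s 1 - l0.s 1) (d2 := l.s 0 - l0.s 0) (Z := zh M B l - zh M B l0) (e1 := l0.y 1 - yh M B l0 1)
        (e2 := l0.y 0 - yh M B l0 0) hc hu2 hδ0.le hδu h30 c7' c5 (c2 0) c6 (hyh 1) (hyh 0) hκ hα (hnn 1) hn2
        (by rw [hg]; simp only [Fin.sum_univ_two]; ring)
      intro k
      fin_cases k
      · exact hs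
      · exact c5.trans hle
  refine ⟨⟨c1, c8, ?_⟩, c3, c7⟩
  rw [null_eq k1 l.y]
  exact null_le hM0 hM hδ0.le hu2 c6 (hyh' 0) (hyh' 1) (c8 0) (c8 1)

theorem closeB {c : ℝ} {M w : ℕ} {B : Cbx} {l l0 : Ry} (hc : 1 ≤ c) (hM : 80 * c ^ 2 ≤ M) (hu2 : 0 < B.u2)
    (hk : keyB M w B l = keyB M w B l0) : Cl c M w B l l0 := by
  have hc2 : 1 ≤ c ^ 2 := one_le_pow₀ hc
  have hM1 : (80 : ℝ) ≤ M := by linarith
  have hM0 : (0 : ℝ) < M := by linarith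
  have hw : (0 : ℝ) < 2 ^ w := by positivity
  have hMw : (0 : ℝ) < M * 2 ^ w := by positivity
  unfold keyB at hk
  simp only [Prod.mk.injEq] at hk
  obtain ⟨⟨k1, k2⟩, -, k5, k6, k7⟩ := hk
  set δ := B.u2 / (M * 2 ^ w) with hδ
  have hδ0 : 0 < δ := div_pos hu2 hMw
  have c1 : ∀ k, |l.y k - l0.y k| ≤ B.u2 / M := fun k => by
    have := floor_close hu2 hM0 (congrFun k1 k)
    rwa [sub_sub_sub_cancel_right] at this
  have c5 : |l.s 0 - l0.s 0| ≤ δ := by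
    have := floor_close hu2 hMw k5
    rwa [sub_sub_sub_cancel_right] at this
  have c7 : |l.s 1 - l0.s 1| ≤ δ := by
    have := floor_close hu2 hMw k7
    rwa [sub_sub_sub_cancel_right] at this
  have c6 : |zh M B l - zh M B l0| ≤ δ * B.u2 := by
    have := floor_close (by positivity : 0 < B.u2 ^ 2) hMw k6
    refine this.trans (le_of_eq ?_)
    rw [hδ]; ring
  have hyh' : ∀ k, |l.y k - yh M B l0 k| ≤ B.u2 / M := fun k => by
    rw [← yh_eq k1 k]; exact yh_close hM0 hu2 l k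
  have hle : δ ≤ 40 * c ^ 2 * δ := by nlinarith
  have c8 : ∀ k, |l.s k - l0.s k| ≤ 40 * c ^ 2 * δ := by
    intro k
    fin_cases k
    · exact c5.trans hle
    · exact c7.trans hle
  refine ⟨c1, c8, ?_⟩
  rw [null_eq k1 l.y]
  exact null_le hM0 hM hδ0.le hu2 c6 (hyh' 0) (hyh' 1) (c8 0) (c8 1)

end Vale.Agent.P106.U.H513
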