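import Vale.Agent.P106.U.H513.DifM
import Vale.Agent.P106.U.S3.F2
import Vale.Agent.P106.U.H785.MtrFz

/-!
# P106 / U / H513 : the strip hypothesis over the cells `mtr` of the record (helper513)

* `OfRun R μ o D k` : the data `D` (helper785's `Mtd`) of a run at the step `k` (true numbers, any precision `rk ≤ R.C.rk`).
* `hy_of` : `D.Hy (4 K) {k}` on the support; `agr_of` : its functional and the one of the cell, outside `Bal`.
* **`ymod_of`** : `YMod (low R μ o) (32 K) b z k (D.mtr k b) c'`; `ymod_mt`, `ymod_mt0` : for 712's `mt`, `mt0`.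
-/

set_option autoImplicit false

namespace Vale.Agent.P106.U.H513

open Finset Vale.Agent.P127 Vale.Agent.P127.Stk
open Vale.Agent.P127.U.CellD (q2 rd Nb rd_err rd_sub q2_pos q2_add q2_le q2_mul_pow)
open Vale.Agent.P106.U.Cell Vale.Agent.P106.U.S3
open Vale.Agent.P106.U.H101 (lc low)
open Vale.Agent.P106.U.H785.Mtr (Mtd)

variable {Ω : Type} [Fintype Ω] {τ υ π : Type} {R : Run Ω τ υ}

/-- the data of a run at the step `k` -/
structure OfRun (R : Run Ω τ υ) (K : ℝ) (μ : ℕ) (o : Fin 7 → ℝ) (D : Mtd Ω π) (k : ℕ) : Prop where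
  a : D.a = R.C.a
  rf : D.rf = R.C.rf
  rk : D.rk k ≤ R.C.rk k
  μ : D.μ = μ
  o : D.o = o
  l : D.l = R.C.l
  t : D.t = R.C.t
  p : D.p = R.C.p
  un : D.un = unL R
  κ : D.κ k = kaL R k
  al : D.al k = R.al k
  ap : ∀ ω, 0 < R.Q.w ω → |D.al k ω - D.g k ω| * q2 (R.C.a k) ≤ K * q2 (D.rk k)

/-- the N-coefficient of the functional of `W` and of the cell -/
lemma un_near {p : Run.Num} {K c' g' gU : ℝ} (h : R.Ok p K c' g' gU) {k : ℕ} (hk : k ≤ R.n) {ω : Ω}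
    (hω : 0 < R.Q.w ω) : |unL R ω - (R.C.F k ω).cN (R.C.l ω) (R.C.s k ω)| ≤ K * q2 (R.C.rk k) := by
  have h1 := (h.agW ω hω k hk).cN
  have e := Fu.cN_sh (R.C.F k ω) (R.C.l ω) (R.C.s k ω) (R.tW ω - R.C.s k ω)
  rw [show R.C.s k ω + (R.tW ω - R.C.s k ω) = R.tW ω by ring] at e
  rwa [e] at h1

lemma tW_near {p : Run.Num} {K c' g' gU : ℝ} (h : R.Ok p K c' g' gU) {k : ℕ} (hk : k ≤ R.n + p.J) (ω : Ω) :
    |R.tW ω - R.C.s k ω| ≤ q2 (R.C.a k) := by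
  unfold Run.tW Pth.s
  rw [h.Ct]
  exact rd_sub ((R.C.ha hk).trans h.pth.rA) _

/-- **hypotheses of the frozen path** -/
theorem hy_of {p : Run.Num} {K c' g' gU : ℝ} (h : R.Ok p K c' g' gU) (hK : 1 ≤ K) {k μ : ℕ} {o : Fin 7 → ℝ}
    {D : Mtd Ω π} (hD : OfRun R K μ o D k) (hk : k ≤ R.n) (hμ : μ ≤ R.C.μ)
    (hr : 192 * K ^ 2 * q2 (D.rr k) ≤ 1) {ω : Ω} (hω : 0 < R.Q.w ω) : D.Hy (4 * K) {k} ω := by
  have hK0 : 0 < K := by linarith
  have ok := h.ok ω hω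
  have hun := un_near h hk hω
  have n1 := ok.n1 k
  have n2 := ok.n2 k
  have hq := q2_pos (R.C.rk k)
  have hrr : q2 (R.C.rk k) ≤ q2 (D.rr k) := q2_le (by
    have := hD.rk
    unfold Mtd.rr
    omega)
  have hq1 : K * q2 (R.C.rk k) ≤ K * q2 (D.rr k) := mul_le_mul_of_nonneg_left hrr hK0.le
  have hs : K * (K * q2 (D.rr k)) ≤ 1 / 192 := by nlinarith
  have hs1 : K * q2 (D.rr k) ≤ K * (K * q2 (D.rr k)) := by
    have := mul_pos hK0 (q2_pos (D.rr k))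
    nlinarith
  have htW := tW_near h (k := k) (by omega) ω
  have haB := h.alB k (by omega) ω hω
  have key : ∀ x : ℝ, |x| * q2 (R.C.a k) ≤ K → |x * (R.tW ω - R.C.s k ω)| ≤ K := by
    intro x hx
    rw [abs_mul]
    exact (mul_le_mul_of_nonneg_left htW (abs_nonneg _)).trans hx
  refine ⟨?_, ?_, ?_, ?_, ?_, ?_, ?_, ?_, ?_, ?_, ?_⟩
  · rw [hD.l]; exact ok.v1
  · rw [hD.l]; exact ok.w1
  · rw [hD.p, hD.μ]
    exact ok.p1.trans (q2_le (by omega))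
  · rw [hD.un]
    have h1 := (abs_le.1 hun).1
    have h2 : K * ((R.C.F k ω).cN (R.C.l ω) (R.C.s k ω) - unL R ω) ≤ K * (K * q2 (D.rr k)) :=
      mul_le_mul_of_nonneg_left (by linarith) hK0.le
    have h3 : 0 < K * unL R ω := by nlinarith
    nlinarith
  · rw [hD.un]
    have h1 := (abs_le.1 hun).2
    linarith
  · intro i hi
    rw [Set.mem_singleton_iff] at hi
    subst hi
    rw [hD.κ]
    have h1 := (h.agW ω hω i hk).ka
    have e1 : (R.FW ω).ka - ((R.C.F i ω).sh (R.tW ω - R.C.s i ω)).ka =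
        R.κ ω - ((R.C.F i ω).ka - (R.tW ω - R.C.s i ω) * (R.C.F i ω).al) := rfl
    rw [e1] at h1
    have h2 := ok.k1 i
    have h3 := key _ (ok.a1 i)
    have h4 := key _ haB
    have h5 : K * q2 (R.C.rk i) ≤ K := by linarith
    unfold kaL
    rw [abs_le] at h1 h2 h3 h4 ⊢
    constructor <;> linarith [h1.1, h1.2, h2.1, h2.2, h3.1, h3.2, h4.1, h4.2]
  · intro i hi
    rw [Set.mem_singleton_iff] at hi
    subst hi
    rw [hD.al, hD.a]
    linarith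
  · intro i hi
    rw [Set.mem_singleton_iff] at hi
    subst hi
    rw [hD.a]
    refine (hD.ap ω hω).trans (mul_le_mul_of_nonneg_right (by linarith) (q2_pos _).le)
  · intro i hi j hj _
    rw [Set.mem_singleton_iff] at hi hj
    subst hi
    subst hj
    rw [sub_self, sub_self, zero_mul, sub_self, abs_zero]
    have := q2_pos (D.rk j)
    positivity
  · intro i hi j hj _
    rw [Set.mem_singleton_iff] at hi hj
    subst hi
    subst hj
    rw [sub_self, abs_zero, zero_mul]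
    have := q2_pos (D.rk j)
    positivity
  · intro i hi
    rw [Set.mem_singleton_iff] at hi
    subst hi
    calc 12 * (4 * K) ^ 2 * q2 (D.rr i) = 192 * K ^ 2 * q2 (D.rr i) := by ring
      _ ≤ 1 := hr

/-- the functional of the frozen path and the functional of the cell, outside `Bal` -/
theorem agr_of {p : Run.Num} {K c' g' gU : ℝ} (h : R.Ok p K c' g' gU) (hK : 1 ≤ K) {k μ : ℕ} {o : Fin 7 → ℝ}
    {D : Mtd Ω π} (hD : OfRun R K μ o D k) (hk : k ≤ R.n) (hμ : μ ≤ R.C.μ)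
    (hr : 192 * K ^ 2 * q2 (D.rr k) ≤ 1) {ω : Ω} (hω : 0 < R.Q.w ω) (hB : ¬ R.Bal K k ω) :
    Pth.Agr (32 * K) (D.rr k) (R.C.a k) ((D.fz k k).F k ω) (R.C.F k ω) (R.C.l ω) (R.C.s k ω) := by
  have hK0 : 0 < K := by linarith
  have ok := h.ok ω hω
  have hy := hy_of h hK hD hk hμ hr hω
  have hun := un_near h hk hω
  have hq := q2_pos (D.rr k)
  have hrr : q2 (R.C.rk k) ≤ q2 (D.rr k) := q2_le (by
    have := hD.rk
    unfold Mtd.rr
    omega)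
  have hrr' : q2 (D.rk k) ≤ q2 (D.rr k) := q2_le (Nat.sub_le _ _)
  have hq1 : K * q2 (R.C.rk k) ≤ K * q2 (D.rr k) := mul_le_mul_of_nonneg_left hrr hK0.le
  have hq2 : K * q2 (D.rk k) ≤ K * q2 (D.rr k) := mul_le_mul_of_nonneg_left hrr' hK0.le
  have hq3 : q2 (D.rr k) ≤ K * q2 (D.rr k) := by nlinarith
  have hs : D.s k ω = R.C.s k ω := by
    unfold Mtd.s Pth.s
    rw [hD.a, hD.t]
  unfold Run.Bal at hB
  push Not at hB
  have htW := tW_near h (k := k) (by omega) ω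
  have eL : D.l ω = R.C.l ω := by rw [hD.l]
  have e1 : ((D.fz k k).F k ω).ka = D.kaL k (D.lt k ω) := by
    rw [Mtd.fz_Fk D le_rfl, Mtd.p1_F]
  have e2 : ((D.fz k k).F k ω).al = D.g k ω := by
    rw [Mtd.fz_Fk D le_rfl, Mtd.p1_F]
  have e3 : ((D.fz k k).F k ω).cN (R.C.l ω) (R.C.s k ω) = D.cNL k ω := by
    have := Mtd.fz_cN D k k k ω
    rwa [Mtd.fz_s D le_rfl, hs, show (D.fz k k).l ω = R.C.l ω from eL] at this
  refine ⟨?_, ?_, ?_⟩
  · rw [e3]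
    have g1 := Mtd.cN_near (by linarith) hy (Set.mem_singleton k)
    rw [hD.un] at g1
    rw [abs_le] at g1 hun ⊢
    constructor <;> linarith [g1.1, g1.2, hun.1, hun.2]
  · rw [e1]
    have g1 := Mtd.ka_near D k ω
    rw [hD.κ] at g1
    have h1 := (h.agW ω hω k hk).ka
    have e4 : (R.FW ω).ka - ((R.C.F k ω).sh (R.tW ω - R.C.s k ω)).ka =
        R.κ ω - ((R.C.F k ω).ka - (R.tW ω - R.C.s k ω) * (R.C.F k ω).al) := rfl
    rw [e4] at h1
    have h2 : |((R.C.F k ω).al - R.al k ω) * (R.tW ω - R.C.s k ω)| ≤ K * q2 (R.C.rk k) := by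
      rw [abs_mul]
      exact (mul_le_mul_of_nonneg_left htW (abs_nonneg _)).trans hB
    unfold kaL at g1
    rw [abs_le] at g1 h1 h2 ⊢
    constructor <;> linarith [g1.1, g1.2, h1.1, h1.2, h2.1, h2.2]
  · rw [e2]
    have g1 := hD.ap ω hω
    rw [hD.al] at g1
    have g2 : |(R.C.F k ω).al - D.g k ω| ≤ |(R.C.F k ω).al - R.al k ω| + |R.al k ω - D.g k ω| :=
      abs_sub_le _ _ _
    have g3 := mul_le_mul_of_nonneg_right g2 (q2_pos (R.C.a k)).le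
    linarith

/-- **the letter `mtr k b`** -/
theorem ymod_of {p : Run.Num} {K c' g' gU : ℝ} (h : R.Ok p K c' g' gU) (hK : 1 ≤ K) {k μ : ℕ} {o : Fin 7 → ℝ}
    {D : Mtd Ω π} (hD : OfRun R K μ o D k) (hk : k ≤ R.n) (hμ : μ ≤ R.C.μ)
    (hr : 192 * K ^ 2 * q2 (D.rr k) ≤ 1) {b z : ℕ}
    (hz : R.C.rk k ≤ D.rr k + μ ∨ R.C.rf k + z ≤ D.rr k + b) :
    YMod (low R μ o) (32 * K) b z k (D.mtr k b) c' := by
  refine ⟨_, D.fz k k, k, R.Bal K k, ⟨?_, ?_, ?_, ?_, ?_⟩, ?_, ?_, ?_, ?_, ?_, ?_⟩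
  · exact hD.l
  · exact hD.t
  · exact hD.μ
  · show D.o 1 = o 1
    rw [hD.o]
  · rw [Mtd.fz_a D le_rfl, hD.a]
    rfl
  · exact hD.p
  · rw [Mtd.fz_rk D le_rfl le_rfl]
    exact hz
  · rw [Mtd.fz_rf D le_rfl, hD.rf]
    exact le_rfl
  · exact h.kno k (by omega)
  · intro ω hω hB
    have hω' : 0 < R.Q.w ω := hω
    refine ⟨?_, ?_⟩
    · have := Mtd.fzk_ok (by linarith) (hy_of h hK hD hk hμ hr hω') (Set.mem_singleton k)
      rwa [show 8 * (4 * K) = 32 * K by ring] at this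
    · have := agr_of h hK hD hk hμ hr hω' hB
      rw [Mtd.fz_rk D le_rfl le_rfl]
      show Pth.Agr (32 * K) (D.rr k) (R.C.a k) ((D.fz k k).F k ω) ((lc R.C μ o).F k ω) (R.C.l ω)
        ((lc R.C μ o).s k ω)
      rw [H101.lc_F, H101.lc_s]
      exact this
  · intro ω ω' _ _ e
    exact (Mtd.fz_cell_iff D le_rfl b ω ω').2 e

/-- 712's data, kappa regime -/
theorem ymod_mt {p : Run.Num} {K c' g' gU : ℝ} (h : R.Ok p K c' g' gU) (hK : 1 ≤ K) {B bS bV : ℕ} {F : Pf R π}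
    {Vs Xs : Finset ℕ} (h2 : F2 R p K B bS bV F Vs Xs) {k μ : ℕ} (o : Fin 7 → ℝ) (o' : ℕ → ℝ) (hk : k ≤ R.n)
    (hμ : μ ≤ R.C.μ) (hr : 192 * K ^ 2 * q2 (R.C.rk k - μ / 2) ≤ 1) {b z : ℕ} :
    YMod (low R μ o) (32 * K) b z k ((mt R F μ o o').mtr k b) c' := by
  refine ymod_of h hK (D := mt R F μ o o') ⟨rfl, rfl, le_rfl, rfl, rfl, rfl, rfl, rfl, rfl, rfl, rfl, ?_⟩ hk hμ hr
    (Or.inl ?_)
  · intro ω hω
    exact h2.gvA k (by omega) ω hω
  · show R.C.rk k ≤ (R.C.rk k - μ / 2) + μ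
    omega

/-- 712's data, deep own-slope regime -/
theorem ymod_mt0 {p : Run.Num} {K c' g' gU : ℝ} (h : R.Ok p K c' g' gU) (hK : 1 ≤ K) {B bS bV : ℕ} {F : Pf R π}
    {Vs Xs : Finset ℕ} (h2 : F2 R p K B bS bV F Vs Xs) {k μ : ℕ} (o : Fin 7 → ℝ) (o' : ℕ → ℝ) (hk : k ≤ R.n)
    (hμ : μ ≤ R.C.μ) (hr : 192 * K ^ 2 * q2 (F.rk0 k - μ / 2) ≤ 1) {b z : ℕ}
    (hz : R.C.rf k + z + μ / 2 ≤ F.rk0 k + b) :
    YMod (low R μ o) (32 * K) b z k ((mt0 R F μ o o').mtr k b) c' := by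
  refine ymod_of h hK (D := mt0 R F μ o o') ⟨rfl, rfl, F.l0 k, rfl, rfl, rfl, rfl, rfl, rfl, rfl, rfl, ?_⟩ hk hμ hr
    (Or.inr ?_)
  · intro ω hω
    exact h2.gv0A k (by omega) ω hω
  · show R.C.rf k + z ≤ (F.rk0 k - μ / 2) + b
    omega

end Vale.Agent.P106.U.H513
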