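import Vale.Agent.P106.U.H513.DifRun

/-!
# P106 / U / H513 : first half of `hpair` of `heavy_cap` (helper118) for a run (helper513)

* `two_congr5` : two copies given equivalent letters.
* `difR_kapT5` : as `difR_kapT`, any bound for the difference of the alphas.
* `hb_run2` : as `hb_run`, the alphas of the copies agree to `rI i` digits (`alD` + `kno`), so the number of levels lost
  does not depend on `rI i - rk i`; probability `3 ε + 2 c'`.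
* `depth5` : `rI i ≤ rk i + 3 (a j - a i) + (s + 1) m` or `rk j ≤ rk i + 3 (a j - a i)`.
* `hpair_dig`, `hpair_run`, `hpair_re` : the first half of `hpair` (digits, levels, re-indexed path).
-/

set_option autoImplicit false

namespace Vale.Agent.P106.U.Cell

open Finset Vale.Agent.P127 Vale.Agent.P127.Stk Vale.Agent.P127.U.Mic Vale.Agent.P127.U.Pin
open Vale.Agent.P127.U.CellD (q2 rd Nb rd_err rd_sub q2_pos q2_add q2_le q2_mul_pow)
open Vale.Agent.P106.U.H118 (two)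

/-- two copies given equivalent letters -/
theorem two_congr5 {Ω : Type} [Fintype Ω] {S T : Type*} (Q : Law Ω) (X : Ω → S) (Y : Ω → T)
    (h1 : Fn Q X Y) (h2 : Fn Q Y X) (E : Ω → Ω → Prop) :
    prE (two Q X) (fun p => E p.fst p.snd) = prE (two Q Y) (fun p => E p.fst p.snd) := by
  classical
  rw [prE_ex5, prE_ex5, two_ex5 Q X (fun a b => Law.ind (E a b)),
    two_ex5 Q Y (fun a b => Law.ind (E a b))]
  refine Q.ex_congr fun a ha => ?_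
  have hX := Q.pr_pos X ha
  have hY := Q.pr_pos Y ha
  have hpr : Q.pr X (X a) = Q.pr Y (Y a) := by
    unfold Law.pr
    rw [Finset.sum_filter, Finset.sum_filter]
    refine Finset.sum_congr rfl fun b _ => ?_
    rcases (Q.nn b).eq_or_lt with h0 | h0
    · simp [← h0]
    · by_cases hb : X b = X a
      · rw [if_pos hb, if_pos (h2 b a h0 ha hb)]
      · rw [if_neg hb, if_neg fun hc => hb (h1 b a h0 ha hc)]
  unfold Law.ex
  refine Finset.sum_congr rfl fun b _ => ?_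
  rw [Q.cond_w X (X a) hX, Q.cond_w Y (Y a) hY, hpr]
  rcases (Q.nn b).eq_or_lt with h0 | h0
  · simp [← h0]
  · by_cases hb : X b = X a
    · rw [if_pos hb, if_pos (h2 b a h0 ha hb)]
    · rw [if_neg hb, if_neg fun hc => hb (h1 b a h0 ha hc)]

namespace Pth

variable {Ω τ : Type} (C : Pth Ω τ)

/-- normalised kappa at any time `θ` close to the time of the count -/
theorem difR_kapT5 {K : ℝ} (hK : 1 ≤ K) {i1 k b m1 e x y : ℕ} {w0 w1 : Ω} {θ Ka : ℝ}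
    (h0 : C.Ok K w0) (h1 : C.Ok K w1) (hl : C.l w0 = C.l w1)
    (hal : q2 (C.a i1) * |(C.F i1 w1).al / (C.F i1 w1).cN (C.l w1) (C.s i1 w1) -
      (C.F i1 w0).al / (C.F i1 w0).cN (C.l w0) (C.s i1 w0)| ≤ Ka)
    (hk : i1 ≤ k) (hθ : |C.s (k + 1) w0 - θ| ≤ q2 (C.a i1) * q2 y)
    (hx : e + x ≤ C.rk i1) (hyy : q2 y * Ka ≤ 4 * K ^ 4 * (q2 e * q2 x))
    (hm : K * q2 m1 + 8 * K ^ 4 * q2 x ≤ 1)
    (hD : q2 e ≤ |C.nk i1 w1 θ - C.nk i1 w0 θ|) :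
    C.DifR (e + b + m1) i1 k b w0 w1 := by
  have hK0 : 0 < K := by linarith
  have hn0 := h0.n1 k
  have hn1 := h1.n1 i1
  have hcG0 := cN_pos5 hK0 hn1
  have hcF0 := cN_pos5 hK0 hn0
  have eG : (C.Fs i1 b (C.s (k + 1) w0) w1).cN (C.l w0) (C.s (k + 1) w0) =
      (C.F i1 w1).cN (C.l w1) (C.s i1 w1) := by
    rw [Fs_cN5, hl]
  have eF : (C.Fs k b (C.s (k + 1) w0) w0).cN (C.l w0) (C.s (k + 1) w0) =
      (C.F k w0).cN (C.l w0) (C.s k w0) := Fs_cN5 _ _ _ _ _ _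
  right
  rw [eG, eF, show e + b + m1 = (e + m1) + b by ring, q2_add]
  refine mul_le_mul_of_nonneg_right ?_ (q2_pos b).le
  rw [Fs_ka5, Fs_ka5]
  have hqr : q2 (C.rk i1) ≤ q2 e * q2 x := by
    rw [← q2_add]
    exact q2_le hx
  have A4 := (C.nk_step5 hK h0 hk).trans (mul_le_mul_of_nonneg_left hqr
    (by positivity : 0 ≤ 4 * K ^ 4))
  have hq0 := q2_pos e
  have hq1 := q2_pos y
  have B5 : |(C.s (k + 1) w0 - θ) * ((C.F i1 w1).al / (C.F i1 w1).cN (C.l w1) (C.s i1 w1) -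
      (C.F i1 w0).al / (C.F i1 w0).cN (C.l w0) (C.s i1 w0))| ≤
      4 * K ^ 4 * (q2 e * q2 x) := by
    rw [abs_mul]
    calc |C.s (k + 1) w0 - θ| * |(C.F i1 w1).al / (C.F i1 w1).cN (C.l w1) (C.s i1 w1) -
      (C.F i1 w0).al / (C.F i1 w0).cN (C.l w0) (C.s i1 w0)|
        ≤ (q2 (C.a i1) * q2 y) * |(C.F i1 w1).al / (C.F i1 w1).cN (C.l w1) (C.s i1 w1) -
      (C.F i1 w0).al / (C.F i1 w0).cN (C.l w0) (C.s i1 w0)| := by gcongr
      _ = q2 y * (q2 (C.a i1) * |(C.F i1 w1).al / (C.F i1 w1).cN (C.l w1) (C.s i1 w1) -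
      (C.F i1 w0).al / (C.F i1 w0).cN (C.l w0) (C.s i1 w0)|) := by ring
      _ ≤ q2 y * Ka := by gcongr
      _ ≤ _ := hyy
  have D1 : C.nk i1 w1 (C.s (k + 1) w0) - C.nk k w0 (C.s (k + 1) w0) =
      (C.nk i1 w1 θ - C.nk i1 w0 θ) -
      (C.s (k + 1) w0 - θ) * ((C.F i1 w1).al / (C.F i1 w1).cN (C.l w1) (C.s i1 w1) -
        (C.F i1 w0).al / (C.F i1 w0).cN (C.l w0) (C.s i1 w0)) -
      (C.nk k w0 (C.s (k + 1) w0) - C.nk i1 w0 (C.s (k + 1) w0)) := by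
    unfold nk Fu.nk
    ring
  have D1' : C.nk i1 w1 (C.s (k + 1) w0) - C.nk k w0 (C.s (k + 1) w0) =
      ((C.F i1 w1).ka - (C.s (k + 1) w0 - C.s i1 w1) * (C.F i1 w1).al) /
        (C.F i1 w1).cN (C.l w1) (C.s i1 w1) -
      ((C.F k w0).ka - (C.s (k + 1) w0 - C.s k w0) * (C.F k w0).al) /
        (C.F k w0).cN (C.l w0) (C.s k w0) := rfl
  rw [D1'] at D1
  have hD' : q2 e * 1 ≤ |C.nk i1 w1 θ - C.nk i1 w0 θ| := by
    rw [mul_one]; exact hD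
  rw [q2_add]
  exact real_kap5 hK hq0 (q2_pos m1) hcG0 hn1 hcF0 hm hD' A4 B5 D1

end Pth

end Vale.Agent.P106.U.Cell

namespace Vale.Agent.P106.U.S3

open Finset Vale.Agent.P127 Vale.Agent.P127.Stk Vale.Agent.P127.U.Mic Vale.Agent.P127.U.Pin
open Vale.Agent.P127.U.CellD (q2 rd Nb rd_err rd_sub q2_pos q2_add q2_le q2_mul_pow)
open Vale.Agent.P106.U.H118 (two)
open Vale.Agent.P106.U.Cell (Pth Ray Fu cN_close5 quot_ge5 two_line5 prE_mono5' prE_ex5 two_congr5 prE_or5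
  prE_fst5 prE_snd5)

namespace Run

variable {Ω : Type} [Fintype Ω] {τ υ : Type} {R : Run Ω τ υ}

/-- arithmetic of `nk_copies` -/
lemma real_nk {K Q0 u v r1 r2 Z0 : ℝ} (hK : 1 ≤ K) (hQ : 0 < Q0) (hu : 0 < u)
    (hc : 2 * K * v ≤ 1) (hx : 40 * K ^ 6 * u ≤ 1) (g1 : r1 ≤ Q0 * u) (g2 : r2 ≤ Q0 * u)
    (p1 : 0 ≤ r1) (p2 : 0 ≤ r2)
    (h : Q0 - K * r1 - 2 * K ^ 4 * (6 * K ^ 2 * r2 + 2 * K * r1) ≤ K * Z0) : Q0 * v ≤ Z0 := by
  have hK0 : 0 < K := by linarith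
  have hpw : ∀ j ≤ 6, K ^ j ≤ K ^ 6 := fun j hj => pow_le_pow_right₀ hK hj
  have g3 : K * r1 + 2 * K ^ 4 * (6 * K ^ 2 * r2 + 2 * K * r1) ≤ 17 * K ^ 6 * (Q0 * u) := by
    have k1 := hpw 1 (by norm_num)
    have k5 := hpw 5 (by norm_num)
    rw [pow_one] at k1
    have hQx : 0 ≤ Q0 * u := by positivity
    calc K * r1 + 2 * K ^ 4 * (6 * K ^ 2 * r2 + 2 * K * r1)
        ≤ K * (Q0 * u) + 2 * K ^ 4 * (6 * K ^ 2 * (Q0 * u) + 2 * K * (Q0 * u)) := by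
          gcongr
      _ = (K + 12 * K ^ 6 + 4 * K ^ 5) * (Q0 * u) := by ring
      _ ≤ 17 * K ^ 6 * (Q0 * u) := by
          refine mul_le_mul_of_nonneg_right ?_ hQx
          linarith
  have g4 : 17 * K ^ 6 * (Q0 * u) ≤ Q0 / 2 := by
    have : 40 * K ^ 6 * u * Q0 ≤ 1 * Q0 := mul_le_mul_of_nonneg_right hx hQ.le
    have h5 : 0 ≤ K ^ 6 * (Q0 * u) := by positivity
    nlinarith
  have g5 : Q0 / 2 ≤ K * Z0 := by linarith
  have g6 : K * (Q0 * v) ≤ Q0 / 2 := by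
    have : 2 * K * v * Q0 ≤ 1 * Q0 := mul_le_mul_of_nonneg_right hc hQ.le
    nlinarith
  exact le_of_mul_le_mul_left (g6.trans g5) hK0

/-- arithmetic of the time shift -/
lemma real_yy {K : ℝ} (hK : 1 ≤ K) {m c x r : ℕ} (hc : 2 * K * q2 c ≤ 1) :
    q2 (m + 2 * c + 1 + x) * (12 * K ^ 5 * q2 r) ≤ 4 * K ^ 4 * (q2 (r + m + c) * q2 x) := by
  have hK0 : 0 < K := by linarith
  have e5 : q2 (m + 2 * c + 1 + x) = q2 m * (q2 c * q2 c) * q2 1 * q2 x := by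
    rw [q2_add, q2_add, q2_add, show 2 * c = c + c by ring, q2_add]
  have e6 : q2 (r + m + c) = q2 r * q2 m * q2 c := by
    rw [q2_add, q2_add]
  have e7 : q2 1 = 1 / 2 := by unfold q2; norm_num
  rw [e5, e6, e7]
  have p1 := q2_pos r
  have p2 := q2_pos m
  have p3 := q2_pos c
  have p4 := q2_pos x
  have e8 : q2 m * (q2 c * q2 c) * (1 / 2) * q2 x * (12 * K ^ 5 * q2 r) =
      (3 * (2 * K * q2 c)) * (K ^ 4 * (q2 r * q2 m * q2 c * q2 x)) := by ring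
  have e9 : 4 * K ^ 4 * (q2 r * q2 m * q2 c * q2 x) =
      4 * (K ^ 4 * (q2 r * q2 m * q2 c * q2 x)) := by ring
  rw [e8, e9]
  refine mul_le_mul_of_nonneg_right ?_ (by positivity)
  linarith

/-- the slope of the cell is not the slope of the ray side -/
def Bal (R : Run Ω τ υ) (K : ℝ) (i : ℕ) (ω : Ω) : Prop :=
  K * q2 (R.C.rk i) < |(R.C.F i ω).al - R.al i ω| * q2 (R.C.a i)

/-- the alphas of the slabs of the step `i1` of two copies, outside `Bal` -/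
lemma al_copies {p : Num} {K c' g' gU : ℝ} (h : R.Ok p K c' g' gU) (hK : 1 ≤ K) {i i1 x : ℕ}
    (hi : i ≤ i1) (hi1 : i1 ≤ R.n) (hq : K * q2 R.q ≤ 1)
    (hx : 2 * K ^ 2 * q2 x ≤ 1) (hxk : x ≤ R.C.rk i1) (hIk : R.rI i ≤ R.C.rk i1)
    (hIf : R.rI i ≤ R.C.rf i) {w0 w1 : Ω}
    (s0 : 0 < R.Q.w w0) (s1 : 0 < R.Q.w w1) (hZ : R.Z i w0 = R.Z i w1)
    (b0 : ¬ R.Bal K i1 w0) (b1 : ¬ R.Bal K i1 w1) :
    q2 (R.C.a i1 + R.m) * |(R.C.F i1 w1).al / (R.C.F i1 w1).cN (R.C.l w1) (R.C.s i1 w1) -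
      (R.C.F i1 w0).al / (R.C.F i1 w0).cN (R.C.l w0) (R.C.s i1 w0)| ≤
      12 * K ^ 5 * q2 (R.rI i) := by
  have hK0 : 0 < K := by linarith
  unfold Bal at b0 b1
  push Not at b0 b1
  have o0 := h.ok _ s0
  have o1 := h.ok _ s1
  have hcN := cN_copies h hK hi hi1 hq hx hxk s0 s1 hZ
  have a0 := h.alD i i1 hi (by omega) w0 s0
  have a1 := h.alD i i1 hi (by omega) w1 s1
  have hqm : q2 (R.C.a i1 + R.m) ≤ q2 (R.C.a i1) := q2_le (by omega)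
  have b0' : |(R.C.F i1 w0).al - R.al i1 w0| * q2 (R.C.a i1 + R.m) ≤ K * q2 (R.C.rk i1) :=
    (mul_le_mul_of_nonneg_left hqm (abs_nonneg _)).trans b0
  have b1' : |(R.C.F i1 w1).al - R.al i1 w1| * q2 (R.C.a i1 + R.m) ≤ K * q2 (R.C.rk i1) :=
    (mul_le_mul_of_nonneg_left hqm (abs_nonneg _)).trans b1
  have e := h.Ua i (by omega) w0 w1 s0 s1 hZ
  have hqk : K * q2 (R.C.rk i1) ≤ K * q2 (R.rI i) :=
    mul_le_mul_of_nonneg_left (q2_le hIk) hK0.le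
  have hqa := q2_pos (R.C.a i1 + R.m)
  have hqI := q2_pos (R.rI i)
  have B3 : |(R.C.F i1 w1).al - (R.C.F i1 w0).al| * q2 (R.C.a i1 + R.m) ≤
      4 * K * q2 (R.rI i) := by
    have e1 : (R.C.F i1 w1).al - (R.C.F i1 w0).al =
        (((R.C.F i1 w1).al - R.al i1 w1) + (R.al i1 w1 - R.al i w1)) -
          (((R.C.F i1 w0).al - R.al i1 w0) + (R.al i1 w0 - R.al i w0)) := by
      rw [e]
      ring
    have e2 : |(R.C.F i1 w1).al - (R.C.F i1 w0).al| ≤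
        (|(R.C.F i1 w1).al - R.al i1 w1| + |R.al i1 w1 - R.al i w1|) +
          (|(R.C.F i1 w0).al - R.al i1 w0| + |R.al i1 w0 - R.al i w0|) := by
      rw [e1]
      exact (abs_sub _ _).trans (add_le_add (abs_add_le _ _) (abs_add_le _ _))
    have e3 := mul_le_mul_of_nonneg_right e2 hqa.le
    linarith
  have hx1 : |(R.C.F i1 w1).al * q2 (R.C.a i1 + R.m) -
      (R.C.F i1 w0).al * q2 (R.C.a i1 + R.m)| ≤ 4 * K * q2 (R.rI i) := by
    rw [← sub_mul, abs_mul, abs_of_pos hqa]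
    exact B3
  have hM : |(R.C.F i1 w0).al * q2 (R.C.a i1 + R.m)| ≤ K := by
    rw [abs_mul, abs_of_pos hqa]
    exact (mul_le_mul_of_nonneg_left hqm (abs_nonneg _)).trans (o0.a1 i1)
  have hd : |(R.C.F i1 w1).cN (R.C.l w1) (R.C.s i1 w1) -
      (R.C.F i1 w0).cN (R.C.l w0) (R.C.s i1 w0)| ≤ 8 * K ^ 2 * q2 (R.rI i) := by
    rw [abs_sub_comm]
    refine hcN.trans ?_
    have g1 : q2 (R.C.rf i) ≤ q2 (R.rI i) := q2_le hIf
    have g2 : q2 (R.C.rk i1) ≤ q2 (R.rI i) := q2_le hIk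
    have g3 : 2 * K * q2 (R.C.rk i1) ≤ 2 * K ^ 2 * q2 (R.rI i) := by
      have : K ≤ K ^ 2 := by nlinarith
      have := q2_pos (R.C.rk i1)
      gcongr
    have g4 : 6 * K ^ 2 * q2 (R.C.rf i) ≤ 6 * K ^ 2 * q2 (R.rI i) := by gcongr
    linarith
  have e4 : q2 (R.C.a i1 + R.m) *
      |(R.C.F i1 w1).al / (R.C.F i1 w1).cN (R.C.l w1) (R.C.s i1 w1) -
      (R.C.F i1 w0).al / (R.C.F i1 w0).cN (R.C.l w0) (R.C.s i1 w0)| =
      |(R.C.F i1 w1).al * q2 (R.C.a i1 + R.m) / (R.C.F i1 w1).cN (R.C.l w1) (R.C.s i1 w1) -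
      (R.C.F i1 w0).al * q2 (R.C.a i1 + R.m) / (R.C.F i1 w0).cN (R.C.l w0) (R.C.s i1 w0)| := by
    rw [show (R.C.F i1 w1).al * q2 (R.C.a i1 + R.m) / (R.C.F i1 w1).cN (R.C.l w1) (R.C.s i1 w1) -
        (R.C.F i1 w0).al * q2 (R.C.a i1 + R.m) / (R.C.F i1 w0).cN (R.C.l w0) (R.C.s i1 w0) =
      q2 (R.C.a i1 + R.m) * ((R.C.F i1 w1).al / (R.C.F i1 w1).cN (R.C.l w1) (R.C.s i1 w1) -
        (R.C.F i1 w0).al / (R.C.F i1 w0).cN (R.C.l w0) (R.C.s i1 w0)) by ring, abs_mul,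
      abs_of_pos hqa]
  rw [e4]
  refine (Pth.quot_sub_le5 hK0 (o1.n1 i1) (o0.n1 i1) hd hx1 hM).trans ?_
  have g5 : K ^ 2 ≤ K ^ 5 := pow_le_pow_right₀ hK (by norm_num)
  calc K * (4 * K * q2 (R.rI i)) + K * (K ^ 2 * (8 * K ^ 2 * q2 (R.rI i)))
      = (4 * K ^ 2 + 8 * K ^ 5) * q2 (R.rI i) := by ring
    _ ≤ 12 * K ^ 5 * q2 (R.rI i) := by
        refine mul_le_mul_of_nonneg_right ?_ hqI.le
        linarith

/-- the normalised kappas of the two copies at the time of the first copy -/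
lemma nk_copies {p : Num} {K c' g' gU : ℝ} (h : R.Ok p K c' g' gU) (hK : 1 ≤ K) {b i i1 c x : ℕ}
    (hi : i ≤ i1) (hi1 : i1 ≤ R.n) (hbx : R.m + x ≤ b) (hc : 2 * K * q2 c ≤ 1)
    (hx : 40 * K ^ 6 * q2 x ≤ 1) (hq : K * q2 R.q ≤ 1) (hxk : R.rI i + R.m + c + x ≤ R.C.rk i1)
    (hreg : R.rI i + b < R.C.rf i) (ha1 : R.C.a i1 ≤ R.h)
    {w0 w1 : Ω} (s0 : 0 < R.Q.w w0) (s1 : 0 < R.Q.w w1) (hZ : R.Z i w0 = R.Z i w1)
    (hcon : q2 (R.rI i + R.m) < |R.κ w0 - (((R.C.F i1 w1).ka + R.C.s i1 w1 * (R.C.F i1 w1).al) +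
          (-(R.C.F i1 w1).al) * R.tW w0)|) :
    q2 (R.rI i + R.m + c) ≤ |R.C.nk i1 w1 (R.tW w0) - R.C.nk i1 w0 (R.tW w0)| := by
  have hK0 : 0 < K := by linarith
  have hpw : ∀ j ≤ 6, K ^ j ≤ K ^ 6 := fun j hj => pow_le_pow_right₀ hK hj
  have hq0 := q2_pos x
  have o0 := h.ok _ s0
  have o1 := h.ok _ s1
  have hx2 : 2 * K ^ 2 * q2 x ≤ 1 := by
    have := hpw 2 (by norm_num)
    nlinarith
  have hcN := cN_copies h hK hi hi1 hq hx2 (by omega : x ≤ R.C.rk i1) s0 s1 hZ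
  have hkW : |R.κ w0 - R.kL i1 w0 (R.tW w0)| ≤ K * q2 (R.C.rk i1) :=
    (h.agW _ s0 i1 hi1).ka
  have hkk : q2 (R.rI i + R.m) - K * q2 (R.C.rk i1) ≤
      |R.kL i1 w1 (R.tW w0) - R.kL i1 w0 (R.tW w0)| := by
    have e1 : ((R.C.F i1 w1).ka + R.C.s i1 w1 * (R.C.F i1 w1).al) +
        (-(R.C.F i1 w1).al) * R.tW w0 = R.kL i1 w1 (R.tW w0) := by
      unfold kL
      ring
    rw [e1] at hcon
    have e2 := abs_sub_abs_le_abs_sub (R.κ w0 - R.kL i1 w1 (R.tW w0))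
      (R.κ w0 - R.kL i1 w0 (R.tW w0))
    rw [show (R.κ w0 - R.kL i1 w1 (R.tW w0)) -
      (R.κ w0 - R.kL i1 w0 (R.tW w0)) =
      -(R.kL i1 w1 (R.tW w0) - R.kL i1 w0 (R.tW w0)) by ring, abs_neg] at e2
    linarith
  have htW : |R.tW w0 - R.C.s i1 w0| ≤ q2 (R.C.a i1) := by
    unfold tW Pth.s
    rw [h.Ct]
    exact rd_sub ha1 _
  have hk0 : |R.kL i1 w0 (R.tW w0)| ≤ 2 * K := by
    have g2 := o0.k1 i1
    have g3 := o0.a1 i1
    have g4 : |(R.tW w0 - R.C.s i1 w0) * (R.C.F i1 w0).al| ≤ K := by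
      rw [abs_mul]
      have g5 : |R.tW w0 - R.C.s i1 w0| * |(R.C.F i1 w0).al| ≤
          q2 (R.C.a i1) * |(R.C.F i1 w0).al| := by gcongr
      have g6 : q2 (R.C.a i1) * |(R.C.F i1 w0).al| ≤ K := by
        rw [mul_comm]
        exact g3
      exact g5.trans g6
    unfold kL
    rw [abs_le] at g2 g4 ⊢
    constructor <;> linarith
  have hquot := quot_ge5 hK (o0.n1 i1) (o1.n1 i1) (o1.n2 i1) hk0 hkk hcN
  have hQ := q2_pos (R.rI i + R.m)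
  have e3 : R.kL i1 w1 (R.tW w0) / (R.C.F i1 w1).cN (R.C.l w1) (R.C.s i1 w1) -
      R.kL i1 w0 (R.tW w0) / (R.C.F i1 w0).cN (R.C.l w0) (R.C.s i1 w0) =
      R.C.nk i1 w1 (R.tW w0) - R.C.nk i1 w0 (R.tW w0) := rfl
  rw [e3] at hquot
  have g1 : q2 (R.C.rk i1) ≤ q2 (R.rI i + R.m) * q2 x := by
    rw [← q2_add]
    exact q2_le (by omega)
  have g2 : q2 (R.C.rf i) ≤ q2 (R.rI i + R.m) * q2 x := by
    rw [← q2_add]
    exact q2_le (by omega)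
  rw [q2_add]
  exact real_nk hK hQ hq0 hc hx g1 g2 (q2_pos _).le (q2_pos _).le hquot

/-- **DIF for a run**, constant number of lost levels -/
theorem hb_run2 {p : Num} {K c' g' gU : ℝ} (h : R.Ok p K c' g' gU) (hK : 1 ≤ K) {ε : ℝ}
    {b i i1 k c x m' : ℕ} (hg : R.Good p ε b i) (hi : i ≤ i1) (hi1 : i1 ≤ R.n)
    (hk : i1 ≤ k) (hbB : b < p.B₁) (hbx : R.m + x ≤ b) (hc : 2 * K * q2 c ≤ 1)
    (hx : 40 * K ^ 6 * q2 x ≤ 1) (hq : K * q2 R.q ≤ 1)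
    (h1 : min (R.C.rf i) (R.rI i + b) + R.m + c + x + 3 * R.C.μ ≤ R.C.R i1 b)
    (ha : R.C.a i1 + (2 * R.m + 2 * c + 1 + x) ≤ R.C.a (k + 1)) (hh : R.C.a (k + 1) ≤ R.h)
    (hm' : min (R.C.rf i) (R.rI i + b) + R.m + 2 * c ≤ R.C.R i b + m') :
    prE (two R.Q (R.XZ i b)) (H118.sbad R.C K i i1 k b m') ≤ 3 * ε + 2 * c' := by
  have hK0 : 0 < K := by linarith
  have hpw : ∀ j ≤ 6, K ^ j ≤ K ^ 6 := fun j hj => pow_le_pow_right₀ hK hj
  have hq0 := q2_pos x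
  have hε : 0 ≤ ε := (colp_nonneg R.Q _ _).trans hg.time
  have hkno := h.kno i1 (by omega)
  have hc'0 : 0 ≤ c' := (prE_nonneg _ _).trans hkno
  have hn := R.C.R_le_rf5 i1 b
  have hn' := R.C.R_le_rk5 i1 b
  have hQF := h.pth.leF i1 (by omega)
  rcases Nat.lt_or_ge (R.rI i + b) (R.C.rf i) with hreg | hreg
  · -- the line
    rw [Nat.min_eq_right hreg.le] at h1 hm'
    have hline := hg.line (by omega)
    have hL : prE (two R.Q (R.XZ i b)) (fun q =>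
        |R.κ q.fst - (((R.C.F i1 q.snd).ka + R.C.s i1 q.snd * (R.C.F i1 q.snd).al) +
          (-(R.C.F i1 q.snd).al) * R.tW q.fst)| ≤ q2 (R.rI i + R.m)) ≤ ε :=
      two_line5 R.Q (R.XZ i b) (fun (u : ℝ × ℝ) (v : ℝ × ℝ) => |v.2 - (u.1 + u.2 * v.1)| ≤
        q2 (R.rI i + R.m)) (fun ω => (R.tW ω, R.κ ω))
        (fun ω => ((R.C.F i1 ω).ka + R.C.s i1 ω * (R.C.F i1 ω).al, -(R.C.F i1 ω).al))
        (fun s => hline s)
    have hB0 : prE (two R.Q (R.XZ i b)) (fun q => R.Bal K i1 q.fst) ≤ c' := by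
      rw [prE_fst5 R.Q (R.XZ i b) (R.Bal K i1)]
      exact hkno
    have hB1 : prE (two R.Q (R.XZ i b)) (fun q => R.Bal K i1 q.snd) ≤ c' := by
      rw [prE_snd5 R.Q (R.XZ i b) (R.Bal K i1)]
      exact hkno
    have hBB := prE_or5 (two R.Q (R.XZ i b)) (fun q => R.Bal K i1 q.fst)
      (fun q => R.Bal K i1 q.snd)
    have hAll := prE_or5 (two R.Q (R.XZ i b)) (fun q =>
        |R.κ q.fst - (((R.C.F i1 q.snd).ka + R.C.s i1 q.snd * (R.C.F i1 q.snd).al) +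
          (-(R.C.F i1 q.snd).al) * R.tW q.fst)| ≤ q2 (R.rI i + R.m))
      (fun q => R.Bal K i1 q.fst ∨ R.Bal K i1 q.snd)
    refine (prE_mono5' _ fun q hq' hbad => ?_).trans (hAll.trans (by linarith))
    obtain ⟨s0, s1⟩ := H118.two_supp hq'
    by_contra hcon
    rw [not_or, not_or, not_le] at hcon
    obtain ⟨hcon, nb0, nb1⟩ := hcon
    refine hbad ⟨h.ok _ s0, h.ok _ s1, ?_⟩
    have hX : R.XZ i b q.fst = R.XZ i b q.snd := q.eq
    obtain ⟨hl, hT⟩ := XZ_l h hX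
    have hZ : R.Z i q.fst = R.Z i q.snd := (Prod.mk.inj hX).1
    have o0 := h.ok _ s0
    have o1 := h.ok _ s1
    have hxk : R.rI i + R.m + c + x ≤ R.C.rk i1 := by omega
    have hx2 : 2 * K ^ 2 * q2 x ≤ 1 := by
      have := hpw 2 (by norm_num)
      nlinarith
    have hal0 := al_copies h hK hi hi1 hq hx2 (by omega : x ≤ R.C.rk i1)
      (by omega : R.rI i ≤ R.C.rk i1) (by omega : R.rI i ≤ R.C.rf i) s0 s1 hZ nb0 nb1
    have hqm := q2_pos R.m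
    have hal : q2 (R.C.a i1) *
        |(R.C.F i1 q.snd).al / (R.C.F i1 q.snd).cN (R.C.l q.snd) (R.C.s i1 q.snd) -
        (R.C.F i1 q.fst).al / (R.C.F i1 q.fst).cN (R.C.l q.fst) (R.C.s i1 q.fst)| ≤
        12 * K ^ 5 * q2 (R.rI i) / q2 R.m := by
      rw [le_div_iff₀ hqm]
      rw [q2_add] at hal0
      linarith
    have hD := nk_copies h hK hi hi1 hbx hc hx hq hxk hreg (by omega) s0 s1 hZ hcon
    have hθ : |R.C.s (k + 1) q.fst - R.tW q.fst| ≤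
        q2 (R.C.a i1) * q2 (2 * R.m + 2 * c + 1 + x) := by
      rw [← q2_add]
      have g1 : |R.tW q.fst - R.C.s (k + 1) q.fst| ≤ q2 (R.C.a (k + 1)) := by
        unfold tW Pth.s
        rw [h.Ct]
        exact rd_sub hh _
      rw [abs_sub_comm]
      exact g1.trans (q2_le ha)
    have hyy0 := real_yy (m := R.m) (x := x) (r := R.rI i) hK hc
    have hyy : q2 (2 * R.m + 2 * c + 1 + x) * (12 * K ^ 5 * q2 (R.rI i) / q2 R.m) ≤
        4 * K ^ 4 * (q2 (R.rI i + R.m + c) * q2 x) := by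
      rw [show 2 * R.m + 2 * c + 1 + x = R.m + (R.m + 2 * c + 1 + x) by ring, q2_add R.m]
      rw [show q2 R.m * q2 (R.m + 2 * c + 1 + x) * (12 * K ^ 5 * q2 (R.rI i) / q2 R.m) =
        q2 (R.m + 2 * c + 1 + x) * (12 * K ^ 5 * q2 (R.rI i)) by field_simp]
      exact hyy0
    have hmm : K * q2 c + 8 * K ^ 4 * q2 x ≤ 1 := by
      have := hpw 4 (by norm_num)
      nlinarith
    have hfin := R.C.difR_kapT5 (b := b) hK o0 o1 hl hal hk hθ hxk hyy hmm hD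
    exact (R.C.difK_iff (i := i) (m1 := m')).2 (R.C.difR_mono5 (by omega) hfin)
  · -- the own slope
    rw [Nat.min_eq_left hreg] at h1 hm'
    have hphi := hg.phi (by have := h.pth.m1; omega) (by omega)
    have hL := (R.C.pr_phi R.Q (R.XZ i b) (R.C.rf i + R.m)).trans
      (mul_le_mul_of_nonneg_left hphi (by norm_num : (0:ℝ) ≤ 3))
    refine (prE_mono5' _ fun q hq' hbad => ?_).trans (hL.trans (by linarith))
    obtain ⟨s0, s1⟩ := H118.two_supp hq'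
    by_contra hcon
    refine hbad ⟨h.ok _ s0, h.ok _ s1, ?_⟩
    obtain ⟨hl, hT⟩ := XZ_l h q.eq
    have hmm : K * q2 c + 8 * K ^ 4 * q2 x ≤ 1 := by
      have := hpw 4 (by norm_num)
      nlinarith
    have hfin := R.C.difR_phi (b := b) (k := k) hK (h.ok _ s0) (h.ok _ s1) hl hk
      (by omega : R.C.rf i + R.m + x + 3 * R.C.μ ≤ R.C.R i1 b) hmm hcon
    exact (R.C.difK_iff (i := i) (m1 := m')).2 (R.C.difR_mono5 (by omega) hfin)

/-- the last time step before `j` -/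
lemma last_step {p : Num} (hP : R.Path p) {i : ℕ} (hi : R.IsA i) :
    ∀ j, i < j → j ≤ R.n → ∃ j0, i ≤ j0 ∧ j0 < j ∧ R.IsA j0 ∧ R.C.a j = R.C.a j0 + R.m := by
  intro j hj
  induction j, hj using Nat.le_induction with
  | base => intro _; exact ⟨i, le_rfl, Nat.lt_succ_self i, hi, hi⟩
  | succ j hj ih =>
    intro hjn
    rcases hP.stp j (by omega) with h1 | h1 | h1
    · exact ⟨j, by omega, Nat.lt_succ_self j, h1.1, h1.1⟩
    · obtain ⟨j0, g1, g2, g3, g4⟩ := ih (by omega)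
      exact ⟨j0, g1, by omega, g3, by rw [h1.1]; exact g4⟩
    · obtain ⟨j0, g1, g2, g3, g4⟩ := ih (by omega)
      exact ⟨j0, g1, by omega, g3, by rw [h1.1]; exact g4⟩

/-- **depth** -/
theorem depth5 {p : Num} (hP : R.Path p) {i : ℕ} (hi : R.IsA i) :
    ∀ j, i < j → j ≤ R.n →
      R.rI i ≤ R.C.rk i + 3 * (R.C.a j - R.C.a i) + (p.s + 1) * R.m ∨
        R.C.rk j ≤ R.C.rk i + 3 * (R.C.a j - R.C.a i) := by
  intro j
  induction j using Nat.strong_induction_on with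
  | _ j ih =>
    intro hj hjn
    obtain ⟨j0, g1, g2, g3, g4⟩ := last_step hP hi j hj hjn
    have ham := R.C.ha g1
    rcases Nat.eq_or_lt_of_le g1 with h0 | h0
    · subst h0
      by_cases hc : R.C.rk i + 3 * R.m ≤ R.C.rk j
      · left
        have := hP.jump i j hj hjn hi g4 hc
        omega
      · right
        omega
    · rcases ih j0 g2 h0 (by omega) with h1 | h1
      · left
        omega
      · by_cases hc : R.C.rk j0 + 3 * R.m ≤ R.C.rk j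
        · left
          have h2 := hP.jump j0 j g2 hjn g3 g4 hc
          have h3 := hP.mI g1
          omega
        · right
          omega

/-- **first half of `hpair`**, in digits -/
theorem hpair_dig {p : Num} {K c' g' gU : ℝ} (h : R.Ok p K c' g' gU) (hK : 1 ≤ K) {ε : ℝ}
    {b c x D3 : ℕ} (hbB : b < p.B₁) (hbx : R.m + x ≤ b) (hc : 2 * K * q2 c ≤ 1)
    (hx : 40 * K ^ 6 * q2 x ≤ 1) (hq : K * q2 R.q ≤ 1)
    (h3a : (p.s + 1) * R.m + R.m + c + x + 3 * R.C.μ ≤ D3)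
    (h3b : (p.s + 1) * R.m + 3 * R.m + 2 * c + 8 * R.C.μ ≤ D3)
    {i i1 : ℕ} (hg : R.Good p ε b i) (hi : i < i1) (hi1 : i1 ≤ R.n)
    (hr' : R.C.R i b + 3 * (R.C.a i1 - R.C.a i) + D3 < R.C.R i1 b) :
    ∃ m' : ℕ, m' + 2 * R.m + 8 * R.C.μ ≤ 3 * (R.C.a i1 - R.C.a i) + D3 ∧
      ∀ k, i1 ≤ k → k < R.n → R.C.a i1 + (2 * R.m + 2 * c + 1 + x) ≤ R.C.a (k + 1) →
        prE (two R.Q (R.XZ i b)) (H118.sbad R.C K i i1 k b m') ≤ 3 * ε + 2 * c' := by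
  have hP := h.pth
  have hm1 := hP.m1
  have ham : R.C.a i ≤ R.C.a i1 := R.C.ha hi.le
  -- the depth
  have hleI := hP.leI i (by omega) hg.isA
  have hd : min (R.C.rf i) (R.rI i + b) ≤
      R.C.R i b + 3 * (R.C.a i1 - R.C.a i) + (p.s + 1) * R.m := by
    have e1 : R.C.R i b = min (R.C.rf i) (R.C.rk i + b) := by
      have := R.C.hkf i
      unfold Pth.R Pth.bs
      omega
    rcases depth5 hP hg.isA i1 hi hi1 with h1 | h1
    · rw [e1]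
      omega
    · have h2 := R.C.R_le_rk5 i1 b
      rw [e1] at hr' ⊢
      omega
  have hle : R.C.R i b ≤ min (R.C.rf i) (R.rI i + b) := by
    have e1 := R.C.R_le_rf5 i b
    have e2 := R.C.R_le_rk5 i b
    omega
  refine ⟨min (R.C.rf i) (R.rI i + b) + R.m + 2 * c - R.C.R i b, by omega, ?_⟩
  intro k hk hkn hak'
  have hh : R.C.a (k + 1) ≤ R.h := (R.C.ha (by omega : k + 1 ≤ R.n + p.J)).trans hP.rA
  exact hb_run2 h hK (b := b) (c := c) (x := x)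
    (m' := min (R.C.rf i) (R.rI i + b) + R.m + 2 * c - R.C.R i b) hg hi.le hi1 hk hbB hbx hc hx hq
    (by omega) hak' hh (by omega)

/-- **first half of `hpair`** of `H118.heavy_cap` -/
theorem hpair_run {p : Num} {K c' g' gU : ℝ} (h : R.Ok p K c' g' gU) (hK : 1 ≤ K)
    {ε : ℝ} {b c x c3 Kμ A0 R0 : ℕ} {a r : ℕ → ℕ}
    (hA : ∀ k ≤ R.n, R.C.a k = A0 + R.m * a k) (hR : ∀ k ≤ R.n, R.C.R k b = R0 + R.m * r k)
    (hbB : b < p.B₁) (hbx : R.m + x ≤ b) (hc : 2 * K * q2 c ≤ 1) (hx : 40 * K ^ 6 * q2 x ≤ 1)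
    (hq : K * q2 R.q ≤ 1) (hKμ : 2 * R.m + 2 * c + 1 + x ≤ R.m * Kμ)
    (h3a : (p.s + 1) * R.m + R.m + c + x + 3 * R.C.μ ≤ R.m * c3)
    (h3b : (p.s + 1) * R.m + 3 * R.m + 2 * c + 8 * R.C.μ ≤ R.m * c3)
    {χ : Type} (X : ℕ → Ω → χ) (hX1 : ∀ i ≤ R.n, Fn R.Q (X i) (R.XZ i b))
    (hX2 : ∀ i ≤ R.n, Fn R.Q (R.XZ i b) (X i)) :
    ∀ i i1, R.Good p ε b i → i < i1 → i1 ≤ R.n → r i + 3 * (a i1 - a i) + (c3 + Kμ) < r i1 →
      ∃ m' Kc : ℕ, m' + 2 * R.m + 8 * R.C.μ ≤ R.m * Kc ∧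
        Kμ + Kc ≤ 3 * (a i1 - a i) + (c3 + Kμ) ∧
        ∀ k, i1 ≤ k → k < R.n → a i1 + Kμ ≤ a k →
          prE (two R.Q (X i)) (H118.sbad R.C K i i1 k b m') ≤ 3 * ε + 2 * c' := by
  intro i i1 hg hi hi1 hr
  have hP := h.pth
  have hm1 := hP.m1
  have ham : R.C.a i ≤ R.C.a i1 := R.C.ha hi.le
  have hai := hA i (by omega)
  have hai1 := hA i1 hi1
  have hRi := hR i (by omega)
  have hRi1 := hR i1 hi1
  have haa : a i ≤ a i1 := by
    by_contra hcon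
    push Not at hcon
    have := Nat.mul_lt_mul_of_pos_left hcon hm1
    omega
  have hsub : R.C.a i1 - R.C.a i = R.m * (a i1 - a i) := by
    rw [Nat.mul_sub]
    omega
  have e : R.m * (3 * (a i1 - a i)) = 3 * (R.m * (a i1 - a i)) := by ring
  have hr' : R.C.R i b + 3 * (R.C.a i1 - R.C.a i) + R.m * c3 < R.C.R i1 b := by
    rw [hsub, hRi, hRi1]
    have := Nat.mul_lt_mul_of_pos_left (show r i + 3 * (a i1 - a i) + c3 < r i1 by omega) hm1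
    rw [Nat.mul_add, Nat.mul_add] at this
    omega
  obtain ⟨m', g1, g2⟩ := hpair_dig h hK hbB hbx hc hx hq h3a h3b hg hi hi1 hr'
  refine ⟨m', 3 * (a i1 - a i) + c3, ?_, by omega, ?_⟩
  · rw [Nat.mul_add, e]
    omega
  · intro k hk hkn hak
    have hak' : R.C.a i1 + (2 * R.m + 2 * c + 1 + x) ≤ R.C.a (k + 1) := by
      have e1 := R.C.ha (Nat.le_succ k)
      have e2 := hA k hkn.le
      have e3 : R.m * (a i1 + Kμ) ≤ R.m * a k := Nat.mul_le_mul_left _ hak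
      rw [Nat.mul_add] at e3
      have e4 : R.C.a k ≤ R.C.a (k + 1) := e1
      omega
    refine le_trans (le_of_eq ?_) (g2 k hk hkn hak')
    exact two_congr5 R.Q (X i) (R.XZ i b) (hX1 i (by omega)) (hX2 i (by omega))
      (fun w0 w1 => ¬ (R.C.Ok K w0 ∧ R.C.Ok K w1 ∧ H118.DifK R.C i i1 k b m' w0 w1))

/-- **first half of `hpair`** for a re-indexed path `C'` (step `k` of `C'` = step `f k` of `R.C`) -/
theorem hpair_re {p : Num} {K c' g' gU : ℝ} (h : R.Ok p K c' g' gU) (hK : 1 ≤ K)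
    {ε : ℝ} {b c x c3 Kμ A0 R0 : ℕ} {a r : ℕ → ℕ} {τ' : Type} (C' : Pth Ω τ') {f : ℕ → ℕ} {n : ℕ}
    (hμ : C'.μ = R.C.μ) (hl : C'.l = R.C.l) (ht : C'.t = R.C.t)
    (ha' : ∀ k ≤ n, C'.a k = R.C.a (f k)) (hR' : ∀ k ≤ n, C'.R k b = R.C.R (f k) b)
    (hF' : ∀ k ≤ n, ∀ s ω, C'.Fs k b s ω = R.C.Fs (f k) b s ω)
    (hOk : ∀ ω, R.C.Ok K ω → C'.Ok K ω)
    (hf : ∀ i k, i < k → k ≤ n → f i < f k) (hfn : ∀ k ≤ n, f k ≤ R.n)
    (hf1 : ∀ k < n, a (k + 1) = a k + 1 → R.C.a (f (k + 1)) = R.C.a (f k + 1))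
    (hA : ∀ k ≤ n, C'.a k = A0 + R.m * a k) (hR : ∀ k ≤ n, C'.R k b = R0 + R.m * r k)
    (hbB : b < p.B₁) (hbx : R.m + x ≤ b) (hc : 2 * K * q2 c ≤ 1) (hx : 40 * K ^ 6 * q2 x ≤ 1)
    (hq : K * q2 R.q ≤ 1) (hKμ : 2 * R.m + 2 * c + 1 + x ≤ R.m * Kμ)
    (h3a : (p.s + 1) * R.m + R.m + c + x + 3 * R.C.μ ≤ R.m * c3)
    (h3b : (p.s + 1) * R.m + 3 * R.m + 2 * c + 8 * R.C.μ ≤ R.m * c3)
    {χ : Type} (X : ℕ → Ω → χ) (hX1 : ∀ i ≤ n, Fn R.Q (X i) (R.XZ (f i) b))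
    (hX2 : ∀ i ≤ n, Fn R.Q (R.XZ (f i) b) (X i)) :
    ∀ i i1, R.Good p ε b (f i) → i < i1 → i1 ≤ n → r i + 3 * (a i1 - a i) + (c3 + Kμ) < r i1 →
      ∃ m' Kc : ℕ, m' + 2 * R.m + 8 * C'.μ ≤ R.m * Kc ∧
        Kμ + Kc ≤ 3 * (a i1 - a i) + (c3 + Kμ) ∧
        ∀ k, i1 ≤ k → k < n → a (k + 1) = a k + 1 → a i1 + Kμ ≤ a k →
          prE (two R.Q (X i)) (H118.sbad C' K i i1 k b m') ≤ 3 * ε + 2 * c' := by
  intro i i1 hg hi hi1 hr
  have hP := h.pth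
  have hm1 := hP.m1
  have hfi : f i < f i1 := hf i i1 hi hi1
  have ham : R.C.a (f i) ≤ R.C.a (f i1) := R.C.ha hfi.le
  have hai := hA i (by omega)
  have hai1 := hA i1 hi1
  have hRi := hR i (by omega)
  have hRi1 := hR i1 hi1
  rw [ha' i (by omega)] at hai
  rw [ha' i1 hi1] at hai1
  rw [hR' i (by omega)] at hRi
  rw [hR' i1 hi1] at hRi1
  have haa : a i ≤ a i1 := by
    by_contra hcon
    push Not at hcon
    have := Nat.mul_lt_mul_of_pos_left hcon hm1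
    omega
  have hsub : R.C.a (f i1) - R.C.a (f i) = R.m * (a i1 - a i) := by
    rw [Nat.mul_sub]
    omega
  have e : R.m * (3 * (a i1 - a i)) = 3 * (R.m * (a i1 - a i)) := by ring
  have hr' : R.C.R (f i) b + 3 * (R.C.a (f i1) - R.C.a (f i)) + R.m * c3 < R.C.R (f i1) b := by
    rw [hsub, hRi, hRi1]
    have := Nat.mul_lt_mul_of_pos_left (show r i + 3 * (a i1 - a i) + c3 < r i1 by omega) hm1
    rw [Nat.mul_add, Nat.mul_add] at this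
    omega
  obtain ⟨m', g1, g2⟩ := hpair_dig h hK hbB hbx hc hx hq h3a h3b hg hfi (hfn i1 hi1) hr'
  refine ⟨m', 3 * (a i1 - a i) + c3, ?_, by omega, ?_⟩
  · rw [Nat.mul_add, e, hμ]
    omega
  · intro k hk hkn hk1 hak
    have hfk : f i1 ≤ f k := by
      rcases Nat.eq_or_lt_of_le hk with h0 | h0
      · rw [h0]
      · exact (hf i1 k h0 hkn.le).le
    have hfk1 : f k < R.n := lt_of_lt_of_le (hf k (k + 1) (Nat.lt_succ_self k) hkn) (hfn (k + 1) hkn)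
    have hs1 := hf1 k hkn hk1
    have hak' : R.C.a (f i1) + (2 * R.m + 2 * c + 1 + x) ≤ R.C.a (f k + 1) := by
      have e1 := R.C.ha (Nat.le_succ (f k))
      have e2 := hA k hkn.le
      rw [ha' k hkn.le] at e2
      have e3 : R.m * (a i1 + Kμ) ≤ R.m * a k := Nat.mul_le_mul_left _ hak
      rw [Nat.mul_add] at e3
      have e4 : R.C.a (f k) ≤ R.C.a (f k + 1) := e1
      omega
    have key := g2 (f k) hfk hfk1 hak'
    have hs : ∀ ω, C'.s (k + 1) ω = R.C.s (f k + 1) ω := by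
      intro ω
      unfold Pth.s
      rw [ha' (k + 1) hkn, hs1, ht]
    have hstep : prE (two R.Q (X i)) (H118.sbad C' K i i1 k b m') =
        prE (two R.Q (R.XZ (f i) b)) (fun q => ¬ (C'.Ok K q.fst ∧ C'.Ok K q.snd ∧
          H118.DifK C' i i1 k b m' q.fst q.snd)) :=
      two_congr5 R.Q (X i) (R.XZ (f i) b) (hX1 i (by omega)) (hX2 i (by omega))
        (fun w0 w1 => ¬ (C'.Ok K w0 ∧ C'.Ok K w1 ∧ H118.DifK C' i i1 k b m' w0 w1))
    rw [hstep]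
    refine le_trans (prE_mono5' _ fun q _ hq' => ?_) key
    intro hcon
    obtain ⟨c0, c1, c2⟩ := hcon
    refine hq' ⟨hOk _ c0, hOk _ c1, ?_⟩
    have c3' : R.C.DifR (R.C.R (f i) b + m') (f i1) (f k) b q.fst q.snd := c2
    have c4 : C'.DifR (C'.R i b + m') i1 k b q.fst q.snd := by
      unfold Pth.DifR at c3' ⊢
      rw [hF' i1 hi1, hF' k hkn.le, hs, hR' i (by omega), hl]
      exact c3'
    exact c4

/-- the letter `(ry, (Z, T))` of the composition is equivalent to `XZ` -/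
theorem XZ_equiv {p : Num} {K c' g' gU : ℝ} (h : R.Ok p K c' g' gU) (b i : ℕ) (hi : i ≤ R.n) :
    Fn R.Q (fun ω => (R.ry ω, (R.Z i ω, R.C.T i ω))) (R.XZ i b) ∧
      Fn R.Q (R.XZ i b) (fun ω => (R.ry ω, (R.Z i ω, R.C.T i ω))) := by
  constructor
  · intro ω ω' _ _ e
    obtain ⟨e1, e2⟩ := Prod.mk.inj e
    have e3 : R.ry ω = R.ry ω' := (Prod.mk.inj e1).1
    have e4 : R.C.T i ω = R.C.T i ω' := (Prod.mk.inj e2).1
    show (R.ry ω, (R.Z i ω, R.C.T i ω)) = (R.ry ω', (R.Z i ω', R.C.T i ω'))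
    rw [e3, e1, e4]
  · intro ω ω' p1 p2 e
    obtain ⟨e0, e1⟩ := Prod.mk.inj e
    obtain ⟨e2, e3⟩ := Prod.mk.inj e1
    have hl : R.C.l ω = R.C.l ω' := by rw [h.Cl, h.Cl, e0]
    have hf := h.Uf i (by omega) ω ω' p1 p2 e2
    have hs : R.C.s i ω = R.C.s i ω' := R.C.same5 e3
    have hF : R.C.F i ω = R.C.F i ω' := by
      have hp : rd (R.C.rf i) (R.C.p ω) = rd (R.C.rf i) (R.C.p ω') := by
        unfold rd
        exact congrArg (fun z : ℤ => (z : ℝ) / 2 ^ R.C.rf i) hf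
      unfold Pth.F
      rw [e3, hl, hp]
    show (R.Z i ω, R.C.cell i b ω) = (R.Z i ω', R.C.cell i b ω')
    have hcell : R.C.cell i b ω = R.C.cell i b ω' := by
      unfold Pth.cell Pth.dg Pth.va Pth.Fr Pth.sl Pth.Zs
      rw [e3, hl, hs, hF]
    rw [e2, hcell]

end Run

end Vale.Agent.P106.U.S3
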