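import Vale.Agent.P106.U.H513.StripM
import Vale.Agent.P106.U.H513.HPair
import Vale.Agent.P106.U.H931.Re

/-!
# P106 / U / H513 : the difference of two copies, slab of the copy 0 from another path (helper513)

`D` = any path for the copy 0 (young steps: cells with true line digits, helper785), `Cmp C D k j`; closeness of the functionals
`Agr K (D.rk j) (C.a k) (D.F j ω) (C.F k ω) ..`.

* `nk_agr` : normalised kappas of two close functionals.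
* `difR2_phi`, `difR2_kap` : `difR_phi`, `difR_kapT5` for two paths.
* **`hb_run3`** : DIF for a run, probability `3 ε + 2 c' + η'`.
* **`y6_re`** : the strip hypothesis `hS` of helper118's `heavy_capM` along the indices `f`, at one step, any letter `Y`
  which determines the cell of `D`.
-/

set_option autoImplicit false

namespace Vale.Agent.P106.U.H513

open Finset Vale.Agent.P127 Vale.Agent.P127.Stk Vale.Agent.P127.U.Mic Vale.Agent.P127.U.Pin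
open Vale.Agent.P127.U.CellD (q2 rd Nb rd_err rd_sub q2_pos q2_add q2_le q2_mul_pow)
open Vale.Agent.P106.U.H118 (two td sG)
open Vale.Agent.P106.U.Cell

section geo

variable {Ω τ τ' : Type} {C : Pth Ω τ} {D : Pth Ω τ'}

/-- the slabs are different at the level `r` -/
def DifR2 (C : Pth Ω τ) (D : Pth Ω τ') (r i1 k j b : ℕ) (w0 w1 : Ω) : Prop :=
  q2 r ≤ |dd1 C D i1 k j b w0 w1| ∨ q2 r ≤ |dd2 C D i1 k j b w0 w1| * q2 b

theorem difK2_iff {i i1 k j b m1 : ℕ} {w0 w1 : Ω} :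
    DifK2 C D i i1 k j b m1 w0 w1 ↔ DifR2 C D (C.R i b + m1) i1 k j b w0 w1 := Iff.rfl

theorem difR2_mono {r r' i1 k j b : ℕ} {w0 w1 : Ω} (h : r ≤ r') (hD : DifR2 C D r i1 k j b w0 w1) :
    DifR2 C D r' i1 k j b w0 w1 := by
  rcases hD with h1 | h1
  · exact Or.inl ((q2_le h).trans h1)
  · exact Or.inr ((q2_le h).trans h1)

lemma G_cN (i1 k b : ℕ) (w0 w1 : Ω) (l : Ray) :
    (sG C i1 k b w0 w1).cN l (C.s (k + 1) w0) = (C.F i1 w1).cN l (C.s i1 w1) :=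
  C.Fs_cN5 i1 b (C.s (k + 1) w0) w1 l

lemma G_cV (i1 k b : ℕ) (w0 w1 : Ω) (l : Ray) :
    (sG C i1 k b w0 w1).cV l (C.s (k + 1) w0) = (C.F i1 w1).cV l (C.s i1 w1) +
      (C.ro 4 (C.R i1 b - 3 * C.μ) (C.sl i1 b w1) - C.sl i1 b w1) :=
  C.Fs_cV5 i1 b (C.s (k + 1) w0) w1 l

lemma G_ka (i1 k b : ℕ) (w0 w1 : Ω) :
    (sG C i1 k b w0 w1).ka = (C.F i1 w1).ka - (C.s (k + 1) w0 - C.s i1 w1) * (C.F i1 w1).al := rfl

lemma F_cN (k j b : ℕ) (w0 : Ω) (l : Ray) :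
    (sF2 C D k j b w0).cN l (C.s (k + 1) w0) = (D.F j w0).cN l (D.s j w0) :=
  D.Fs_cN5 j b (C.s (k + 1) w0) w0 l

lemma F_cV (k j b : ℕ) (w0 : Ω) (l : Ray) :
    (sF2 C D k j b w0).cV l (C.s (k + 1) w0) = (D.F j w0).cV l (D.s j w0) +
      (D.ro 4 (D.R j b - 3 * D.μ) (D.sl j b w0) - D.sl j b w0) :=
  D.Fs_cV5 j b (C.s (k + 1) w0) w0 l

lemma F_ka (k j b : ℕ) (w0 : Ω) :
    (sF2 C D k j b w0).ka = (D.F j w0).ka - (C.s (k + 1) w0 - D.s j w0) * (D.F j w0).al := rfl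

/-- own slopes -/
theorem difR2_phi {K : ℝ} (hK : 1 ≤ K) {i1 k j b m1 e x : ℕ} {w0 w1 : Ω} (hC : Cmp C D k j)
    (hp : D.p = C.p) (h0 : D.Ok K w0) (h1 : C.Ok K w1) (hl : C.l w0 = C.l w1)
    (hR : e + x + 3 * C.μ ≤ C.R i1 b) (hRj : e + x + 3 * C.μ ≤ D.R j b)
    (hm : K * q2 m1 + 8 * K ^ 4 * q2 x ≤ 1)
    (hD : q2 e ≤ |C.p w0 - C.p w1|) : DifR2 C D (e + m1) i1 k j b w0 w1 := by
  have hK0 : 0 < K := by linarith
  have hDl0 : D.l w0 = C.l w1 := by rw [hC.l, hl]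
  have hn0 := h0.n1 j
  have hn1 := h1.n1 i1
  have hn1' := h1.n2 i1
  have hcG0 := Pth.cN_pos5 hK0 hn1
  have hcF0 := Pth.cN_pos5 hK0 hn0
  left
  unfold dd1
  rw [G_cN, F_cN, G_cV, F_cV, hl, C.F_cV5]
  have eV := D.F_cV5 j w0
  rw [hDl0] at eV hn0 hcF0
  rw [eV]
  generalize hcG : (C.F i1 w1).cN (C.l w1) (C.s i1 w1) = cG at *
  generalize hcF : (D.F j w0).cN (C.l w1) (D.s j w0) = cF at *
  have iF : 1 / cF ≤ K := by
    rw [div_le_iff₀ hcF0]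
    exact hn0
  have hrho : cG / cF ≤ K ^ 2 := by
    have : cG / cF = cG * (1 / cF) := by ring
    rw [this]
    have h3 : 0 ≤ 1 / cF := by positivity
    calc cG * (1 / cF) ≤ K * K := by gcongr
      _ = K ^ 2 := by ring
  have f1 := C.R_le_rf5 i1 b
  have f2 := D.R_le_rf5 j b
  have hDμ := hC.μ
  have r1 := C.ro_err5 4 (C.R i1 b - 3 * C.μ) (C.sl i1 b w1)
  have r0 := D.ro_err5 4 (D.R j b - 3 * D.μ) (D.sl j b w0)
  have g0 : q2 (D.R j b - 3 * D.μ) ≤ q2 e * q2 x := by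
    rw [← q2_add]
    exact q2_le (by omega)
  have g1 : q2 (C.R i1 b - 3 * C.μ) ≤ q2 e * q2 x := by
    rw [← q2_add]
    exact q2_le (by omega)
  have p1 := rd_err (C.rf i1) (C.p w1)
  have p0 := rd_err (D.rf j) (D.p w0)
  have g2 : q2 (C.rf i1) ≤ q2 e * q2 x := by
    rw [← q2_add]
    exact q2_le (by omega)
  have g3 : q2 (D.rf j) ≤ q2 e * q2 x := by
    rw [← q2_add]
    exact q2_le (by omega)
  generalize C.ro 4 (C.R i1 b - 3 * C.μ) (C.sl i1 b w1) - C.sl i1 b w1 = e1 at *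
  generalize D.ro 4 (D.R j b - 3 * D.μ) (D.sl j b w0) - D.sl j b w0 = e0 at *
  have hq0 := q2_pos e
  have t8 : q2 e * 1 ≤ |C.p w1 - D.p w0| := by
    rw [mul_one, abs_sub_comm, hp]; exact hD
  rw [q2_add]
  replace p1 := p1.trans g2
  replace p0 := p0.trans g3
  replace r0 := r0.trans g0
  replace r1 := r1.trans g1
  exact Pth.real_phi5 hK hq0 (q2_pos x) (q2_pos m1) hcG0 hcF0 hn1 hn1' hrho hm p1 p0 r1 r0 t8

/-- the normalised kappas of two functionals which agree at the ray -/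
theorem nk_agr {K : ℝ} (hK : 1 ≤ K) {r A : ℕ} {F G : Fu} {l : Ray} {s x : ℝ} (h : Pth.Agr K r A F G l s)
    (hF : 1 ≤ K * F.cN l s) (hG : 1 ≤ K * G.cN l s) (hk : |F.ka| ≤ K) (ha : |F.al| * q2 A ≤ K)
    (hx : |x - s| ≤ q2 A) : |G.nk l s x - F.nk l s x| ≤ 4 * K ^ 4 * q2 r := by
  have hK0 : 0 < K := by linarith
  have hK2 : K ^ 2 ≤ K ^ 4 := pow_le_pow_right₀ hK (by norm_num)
  have A2 : |(G.ka - (x - s) * G.al) - (F.ka - (x - s) * F.al)| ≤ 2 * K * q2 r := by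
    have e : (G.ka - (x - s) * G.al) - (F.ka - (x - s) * F.al) =
        (G.ka - F.ka) - (x - s) * (G.al - F.al) := by ring
    rw [e]
    have h2 := h.ka
    have h3 : |(x - s) * (G.al - F.al)| ≤ K * q2 r := by
      rw [abs_mul]
      have h4 := h.al
      have h5 : |x - s| * |G.al - F.al| ≤ q2 A * |G.al - F.al| := by gcongr
      rw [mul_comm] at h4
      exact h5.trans h4
    rw [abs_le] at h2 h3 ⊢
    constructor <;> linarith
  have A3 : |F.ka - (x - s) * F.al| ≤ 2 * K := by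
    have h4 : |(x - s) * F.al| ≤ K := by
      rw [abs_mul]
      have h5 : |x - s| * |F.al| ≤ q2 A * |F.al| := by gcongr
      rw [mul_comm] at ha
      exact h5.trans ha
    rw [abs_le] at hk h4 ⊢
    constructor <;> linarith
  have h2 := Pth.quot_sub_le5 hK0 hG hF h.cN A2 A3
  unfold Fu.nk
  refine h2.trans ?_
  have h3 : K * (2 * K * q2 r) + 2 * K * (K ^ 2 * (K * q2 r)) = (2 * K ^ 2 + 2 * K ^ 4) * q2 r := by ring
  rw [h3]
  have h4 : 0 ≤ q2 r := (q2_pos _).le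
  gcongr
  linarith

/-- normalised kappa at any time `θ` close to the time of the count -/
theorem difR2_kap {K : ℝ} (hK : 1 ≤ K) {i1 k j b m1 e x y : ℕ} {w0 w1 : Ω} {θ Ka : ℝ} (hC : Cmp C D k j)
    (h0 : C.Ok K w0) (h0' : D.Ok K w0) (h1 : C.Ok K w1) (hl : C.l w0 = C.l w1)
    (hN : Pth.Agr K (D.rk j) (C.a k) (D.F j w0) (C.F k w0) (C.l w0) (C.s k w0))
    (hal : q2 (C.a i1) * |(C.F i1 w1).al / (C.F i1 w1).cN (C.l w1) (C.s i1 w1) -
      (C.F i1 w0).al / (C.F i1 w0).cN (C.l w0) (C.s i1 w0)| ≤ Ka)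
    (hk : i1 ≤ k) (hθ : |C.s (k + 1) w0 - θ| ≤ q2 (C.a i1) * q2 y)
    (hx : e + x + 1 ≤ C.rk i1) (hx' : e + x + 1 ≤ D.rk j)
    (hyy : q2 y * Ka ≤ 4 * K ^ 4 * (q2 e * q2 x))
    (hm : K * q2 m1 + 8 * K ^ 4 * q2 x ≤ 1)
    (hD : q2 e ≤ |C.nk i1 w1 θ - C.nk i1 w0 θ|) :
    DifR2 C D (e + b + m1) i1 k j b w0 w1 := by
  have hK0 : 0 < K := by linarith
  have hDs : D.s j w0 = C.s k w0 := hC.s w0
  have hDl : D.l w0 = C.l w0 := by rw [hC.l]
  have hn0 : 1 ≤ K * (D.F j w0).cN (C.l w0) (C.s k w0) := by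
    have := h0'.n1 j
    rwa [hDs, hDl] at this
  have hn1 := h1.n1 i1
  have hcG0 := Pth.cN_pos5 hK0 hn1
  have hcF0 := Pth.cN_pos5 hK0 hn0
  have eG : (sG C i1 k b w0 w1).cN (C.l w0) (C.s (k + 1) w0) =
      (C.F i1 w1).cN (C.l w1) (C.s i1 w1) := by
    rw [G_cN, hl]
  have eF : (sF2 C D k j b w0).cN (C.l w0) (C.s (k + 1) w0) =
      (D.F j w0).cN (C.l w0) (C.s k w0) := by
    rw [F_cN, hDs]
  right
  unfold dd2
  rw [eG, eF, show e + b + m1 = (e + m1) + b by ring, q2_add]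
  refine mul_le_mul_of_nonneg_right ?_ (q2_pos b).le
  rw [G_ka, F_ka, hDs]
  have hq0 := q2_pos e
  have hq1 := q2_pos y
  have e1 : q2 1 = 1 / 2 := by unfold q2; norm_num
  have hqr : q2 (C.rk i1) ≤ q2 e * q2 x * (1 / 2) := by
    rw [← e1, ← q2_add, ← q2_add]
    exact q2_le hx
  have hqr' : q2 (D.rk j) ≤ q2 e * q2 x * (1 / 2) := by
    rw [← e1, ← q2_add, ← q2_add]
    exact q2_le hx'
  have hn := nk_agr hK hN hn0 (h0.n1 k) (h0'.k1 j) (by have := h0'.a1 j; rwa [hC.a] at this)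
    (x := C.s (k + 1) w0) (rd_sub (C.ha (Nat.le_succ k)) _)
  have A4' := C.nk_step5 hK h0 hk
  have A4 : |(D.F j w0).nk (C.l w0) (C.s k w0) (C.s (k + 1) w0) - C.nk i1 w0 (C.s (k + 1) w0)| ≤
      4 * K ^ 4 * (q2 e * q2 x) := by
    have t1 : |(D.F j w0).nk (C.l w0) (C.s k w0) (C.s (k + 1) w0) - C.nk i1 w0 (C.s (k + 1) w0)| ≤
        |(C.F k w0).nk (C.l w0) (C.s k w0) (C.s (k + 1) w0) -
          (D.F j w0).nk (C.l w0) (C.s k w0) (C.s (k + 1) w0)| +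
        |C.nk k w0 (C.s (k + 1) w0) - C.nk i1 w0 (C.s (k + 1) w0)| := by
      have e2 : (D.F j w0).nk (C.l w0) (C.s k w0) (C.s (k + 1) w0) - C.nk i1 w0 (C.s (k + 1) w0) =
          (C.nk k w0 (C.s (k + 1) w0) - C.nk i1 w0 (C.s (k + 1) w0)) -
          ((C.F k w0).nk (C.l w0) (C.s k w0) (C.s (k + 1) w0) -
          (D.F j w0).nk (C.l w0) (C.s k w0) (C.s (k + 1) w0)) := by
        unfold Pth.nk
        ring
      rw [e2]
      refine (abs_sub _ _).trans (le_of_eq (add_comm _ _))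
    have hK4 : 0 ≤ 4 * K ^ 4 := by positivity
    have t2 := mul_le_mul_of_nonneg_left hqr hK4
    have t3 := mul_le_mul_of_nonneg_left hqr' hK4
    linarith
  have B5 : |(C.s (k + 1) w0 - θ) * ((C.F i1 w1).al / (C.F i1 w1).cN (C.l w1) (C.s i1 w1) -
      (C.F i1 w0).al / (C.F i1 w0).cN (C.l w0) (C.s i1 w0))| ≤
      4 * K ^ 4 * (q2 e * q2 x) := by
    rw [abs_mul]
    calc |C.s (k + 1) w0 - θ| * |(C.F i1 w1).al / (C.F i1 w1).cN (C.l w1) (C.s i1 w1) -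
      (C.F i1 w0).al / (C.F i1 w0).cN (C.l w0) (C.s i1 w0)|
        ≤ (q2 (C.a i1) * q2 y) * |(C.F i1 w1).al / (C.F i1 w1).cN (C.l w1) (C.s i1 w1) -
      (C.F i1 w0).al / (C.F i1 w0).cN (C.l w0) (C.s i1 w0)| := by gcongr
      _ = q2 y * (q2 (C.a i1) * |(C.F i1 w1).al / (C.F i1 w1).cN (C.l w1) (C.s i1 w1) -
      (C.F i1 w0).al / (C.F i1 w0).cN (C.l w0) (C.s i1 w0)|) := by ring
      _ ≤ q2 y * Ka := by gcongr
      _ ≤ _ := hyy
  have D1 : C.nk i1 w1 (C.s (k + 1) w0) - (D.F j w0).nk (C.l w0) (C.s k w0) (C.s (k + 1) w0) =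
      (C.nk i1 w1 θ - C.nk i1 w0 θ) -
      (C.s (k + 1) w0 - θ) * ((C.F i1 w1).al / (C.F i1 w1).cN (C.l w1) (C.s i1 w1) -
        (C.F i1 w0).al / (C.F i1 w0).cN (C.l w0) (C.s i1 w0)) -
      ((D.F j w0).nk (C.l w0) (C.s k w0) (C.s (k + 1) w0) - C.nk i1 w0 (C.s (k + 1) w0)) := by
    unfold Pth.nk Fu.nk
    ring
  have D1' : C.nk i1 w1 (C.s (k + 1) w0) - (D.F j w0).nk (C.l w0) (C.s k w0) (C.s (k + 1) w0) =
      ((C.F i1 w1).ka - (C.s (k + 1) w0 - C.s i1 w1) * (C.F i1 w1).al) /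
        (C.F i1 w1).cN (C.l w1) (C.s i1 w1) -
      ((D.F j w0).ka - (C.s (k + 1) w0 - C.s k w0) * (D.F j w0).al) /
        (D.F j w0).cN (C.l w0) (C.s k w0) := rfl
  rw [D1'] at D1
  have hD' : q2 e * 1 ≤ |C.nk i1 w1 θ - C.nk i1 w0 θ| := by
    rw [mul_one]; exact hD
  rw [q2_add]
  exact Pth.real_kap5 hK hq0 (q2_pos m1) hcG0 hn1 hcF0 hm hD' A4 B5 D1

end geo

/-! ### monotonicity in the class -/

section mono

variable {Ω τ : Type}

theorem agr_mono {K K' : ℝ} (hKK : K ≤ K') {r A : ℕ} {F G : Fu} {l : Ray} {s : ℝ} (h : Pth.Agr K r A F G l s) :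
    Pth.Agr K' r A F G l s := by
  have hq := (q2_pos r).le
  have h1 : K * q2 r ≤ K' * q2 r := mul_le_mul_of_nonneg_right hKK hq
  exact ⟨h.cN.trans h1, h.ka.trans h1, h.al.trans h1⟩

theorem agr_refl {K : ℝ} (hK : 0 ≤ K) (r A : ℕ) (F : Fu) (l : Ray) (s : ℝ) : Pth.Agr K r A F F l s := by
  have h0 : 0 ≤ K * q2 r := mul_nonneg hK (q2_pos r).le
  refine ⟨?_, ?_, ?_⟩
  · rw [sub_self, abs_zero]; exact h0
  · rw [sub_self, abs_zero]; exact h0
  · rw [sub_self, abs_zero, zero_mul]; exact h0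

theorem ok_mono {K K' : ℝ} (hK : 0 ≤ K) (hKK : K ≤ K') {C : Pth Ω τ} {ω : Ω} (h : C.Ok K ω) : C.Ok K' ω := by
  refine ⟨h.v1, h.w1, h.p1, fun i => ?_, fun i => (h.n2 i).trans hKK, fun i => (h.k1 i).trans hKK,
    fun i => (h.a1 i).trans hKK, fun i j hij => agr_mono hKK (h.ag i j hij)⟩
  have h1 := h.n1 i
  have h2 : 0 ≤ (C.F i ω).cN (C.l ω) (C.s i ω) := by
    by_contra hcon
    push Not at hcon
    nlinarith
  nlinarith

end mono

section run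

open Vale.Agent.P106.U.S3

variable {Ω : Type} [Fintype Ω] {τ υ : Type} {R : Run Ω τ υ} {N : ℕ}

/-- the record of a run, larger class -/
theorem run_mono {p : Run.Num} {K K' c' g' gU : ℝ} (hK : 0 ≤ K) (hKK : K ≤ K') (h : R.Ok p K c' g' gU) :
    R.Ok p K' c' g' gU := by
  have hq : ∀ r : ℕ, K * q2 r ≤ K' * q2 r := fun r => mul_le_mul_of_nonneg_right hKK (q2_pos r).le
  exact { h with
    FWW := fun ω hω => by
      obtain ⟨ρ, h1, h2, h3⟩ := h.FWW ω hω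
      have h4 := abs_nonneg ρ
      exact ⟨ρ, h1.trans (mul_le_mul_of_nonneg_right hKK h4), h2.trans hKK, h3⟩
    FWn := fun ω hω => (h.FWn ω hω).trans (hq _)
    ok := fun ω hω => ok_mono hK hKK (h.ok ω hω)
    agW := fun ω hω i hi => agr_mono hKK (h.agW ω hω i hi)
    alW := fun ω hω => (h.alW ω hω).trans hKK
    alB := fun i hi ω hω => (h.alB i hi ω hω).trans hKK
    alD := fun i j hij hj ω hω => (h.alD i j hij hj ω hω).trans (hq _)
    lin := fun i hi ω ω' p p' e => (h.lin i hi ω ω' p p' e).trans (hq _)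
    kno := fun i hi => (prE_mono5' R.Q fun ω _ hE => (hq _).trans_lt hE).trans (h.kno i hi) }

/-- **DIF for a run**, slab of the copy 0 from the path `D` -/
theorem hb_run3 {p : Run.Num} {K c' g' gU : ℝ} (h : R.Ok p K c' g' gU) (hK : 1 ≤ K) {ε η' : ℝ}
    {b i i1 k j c x m' : ℕ} {τ' : Type} {D : Pth Ω τ'} (hg : R.Good p ε b i) (hi : i ≤ i1) (hi1 : i1 ≤ R.n)
    (hk : i1 ≤ k) (hbB : b < p.B₁) (hbx : R.m + x ≤ b) (hc : 2 * K * q2 c ≤ 1)
    (hx : 40 * K ^ 6 * q2 x ≤ 1) (hq : K * q2 R.q ≤ 1)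
    (h1 : min (R.C.rf i) (R.rI i + b) + R.m + c + (x + 1) + 4 * R.C.μ ≤ R.C.R i1 b)
    (ha : R.C.a i1 + (2 * R.m + 2 * c + 1 + x) ≤ R.C.a (k + 1)) (hh : R.C.a (k + 1) ≤ R.h)
    (hm' : min (R.C.rf i) (R.rI i + b) + R.m + 2 * c ≤ R.C.R i b + m')
    (hC : Cmp R.C D k j) (hp : D.p = R.C.p)
    (hrk : R.C.rk k ≤ D.rk j + R.C.μ ∨ R.C.rf k + (R.m + c + x) ≤ D.rk j + b) (hrf : R.C.rf k ≤ D.rf j)
    {E0 : Ω → Prop} (hE : prE R.Q E0 ≤ η') (hN : ∀ ω, 0 < R.Q.w ω → ¬ E0 ω → D.Ok K ω ∧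
      Pth.Agr K (D.rk j) (R.C.a k) (D.F j ω) (R.C.F k ω) (R.C.l ω) (R.C.s k ω)) :
    prE (two R.Q (R.XZ i b)) (fun q => sbad2 R.C D K i i1 k j b m' q.fst q.snd) ≤ 3 * ε + 2 * c' + η' := by
  have hK0 : 0 < K := by linarith
  have hpw : ∀ j ≤ 6, K ^ j ≤ K ^ 6 := fun j hj => pow_le_pow_right₀ hK hj
  have hq0 := q2_pos x
  have hε : 0 ≤ ε := (colp_nonneg R.Q _ _).trans hg.time
  have hkno := h.kno i1 (by omega)
  have hc'0 : 0 ≤ c' := (prE_nonneg _ _).trans hkno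
  have hn := R.C.R_le_rf5 i1 b
  have hn' := R.C.R_le_rk5 i1 b
  have hQF := h.pth.leF i1 (by omega)
  have hRk := R.C.R_mono5 hk b
  have hkk := R.C.hk hk
  have hE0 : prE (two R.Q (R.XZ i b)) (fun q => E0 q.fst) ≤ η' := by
    rw [prE_fst5 R.Q (R.XZ i b) E0]
    exact hE
  have hDR : R.C.R k b ≤ D.R j b + R.C.μ := by
    have g1 := R.C.hkf k
    have g2 := D.hkf j
    unfold Pth.R Pth.bs
    rcases hrk with hrk | hrk
    · omega
    · omega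
  rcases Nat.lt_or_ge (R.rI i + b) (R.C.rf i) with hreg | hreg
  · -- the line
    rw [Nat.min_eq_right hreg.le] at h1 hm'
    have hline := hg.line (by omega)
    have hL : prE (two R.Q (R.XZ i b)) (fun q =>
        |R.κ q.fst - (((R.C.F i1 q.snd).ka + R.C.s i1 q.snd * (R.C.F i1 q.snd).al) +
          (-(R.C.F i1 q.snd).al) * R.tW q.fst)| ≤ q2 (R.rI i + R.m)) ≤ ε :=
      two_line5 R.Q (R.XZ i b) (fun (u : ℝ × ℝ) (v : ℝ × ℝ) => |v.2 - (u.1 + u.2 * v.1)| ≤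
        q2 (R.rI i + R.m)) (fun ω => (R.tW ω, R.κ ω))
        (fun ω => ((R.C.F i1 ω).ka + R.C.s i1 ω * (R.C.F i1 ω).al, -(R.C.F i1 ω).al))
        (fun s => hline s)
    have hB0 : prE (two R.Q (R.XZ i b)) (fun q => R.Bal K i1 q.fst) ≤ c' := by
      rw [prE_fst5 R.Q (R.XZ i b) (R.Bal K i1)]
      exact hkno
    have hB1 : prE (two R.Q (R.XZ i b)) (fun q => R.Bal K i1 q.snd) ≤ c' := by
      rw [prE_snd5 R.Q (R.XZ i b) (R.Bal K i1)]
      exact hkno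
    have hBB := prE_or5 (two R.Q (R.XZ i b)) (fun q => R.Bal K i1 q.fst)
      (fun q => R.Bal K i1 q.snd)
    have hBE := prE_or5 (two R.Q (R.XZ i b)) (fun q => R.Bal K i1 q.fst ∨ R.Bal K i1 q.snd)
      (fun q => E0 q.fst)
    have hAll := prE_or5 (two R.Q (R.XZ i b)) (fun q =>
        |R.κ q.fst - (((R.C.F i1 q.snd).ka + R.C.s i1 q.snd * (R.C.F i1 q.snd).al) +
          (-(R.C.F i1 q.snd).al) * R.tW q.fst)| ≤ q2 (R.rI i + R.m))
      (fun q => (R.Bal K i1 q.fst ∨ R.Bal K i1 q.snd) ∨ E0 q.fst)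
    refine (prE_mono5' _ fun q hq' hbad => ?_).trans (hAll.trans (by linarith))
    obtain ⟨s0, s1⟩ := H118.two_supp hq'
    by_contra hcon
    rw [not_or, not_or, not_or, not_le] at hcon
    obtain ⟨hcon, ⟨nb0, nb1⟩, nE⟩ := hcon
    obtain ⟨d0, dN⟩ := hN _ s0 nE
    refine hbad ⟨d0, h.ok _ s1, ?_⟩
    have hX : R.XZ i b q.fst = R.XZ i b q.snd := q.eq
    obtain ⟨hl, hT⟩ := Run.XZ_l h hX
    have hZ : R.Z i q.fst = R.Z i q.snd := (Prod.mk.inj hX).1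
    have o0 := h.ok _ s0
    have o1 := h.ok _ s1
    have hxk : R.rI i + R.m + c + x + 1 ≤ R.C.rk i1 := by omega
    have hxj : R.rI i + R.m + c + x + 1 ≤ D.rk j := by
      rcases hrk with hrk | hrk
      · omega
      · have := R.C.hf (hi.trans hk)
        omega
    have hx2 : 2 * K ^ 2 * q2 x ≤ 1 := by
      have := hpw 2 (by norm_num)
      nlinarith
    have hal0 := Run.al_copies h hK hi hi1 hq hx2 (by omega : x ≤ R.C.rk i1)
      (by omega : R.rI i ≤ R.C.rk i1) (by omega : R.rI i ≤ R.C.rf i) s0 s1 hZ nb0 nb1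
    have hqm := q2_pos R.m
    have hal : q2 (R.C.a i1) *
        |(R.C.F i1 q.snd).al / (R.C.F i1 q.snd).cN (R.C.l q.snd) (R.C.s i1 q.snd) -
        (R.C.F i1 q.fst).al / (R.C.F i1 q.fst).cN (R.C.l q.fst) (R.C.s i1 q.fst)| ≤
        12 * K ^ 5 * q2 (R.rI i) / q2 R.m := by
      rw [le_div_iff₀ hqm]
      rw [q2_add] at hal0
      linarith
    have hD := Run.nk_copies h hK hi hi1 hbx hc hx hq (by omega) hreg (by
      have := R.C.ha (by omega : i1 ≤ k + 1)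
      omega) s0 s1 hZ hcon
    have hθ : |R.C.s (k + 1) q.fst - R.tW q.fst| ≤
        q2 (R.C.a i1) * q2 (2 * R.m + 2 * c + 1 + x) := by
      rw [← q2_add]
      have g1 : |R.tW q.fst - R.C.s (k + 1) q.fst| ≤ q2 (R.C.a (k + 1)) := by
        unfold Run.tW Pth.s
        rw [h.Ct]
        exact rd_sub hh _
      rw [abs_sub_comm]
      exact g1.trans (q2_le ha)
    have hyy0 := Run.real_yy (m := R.m) (x := x) (r := R.rI i) hK hc
    have hyy : q2 (2 * R.m + 2 * c + 1 + x) * (12 * K ^ 5 * q2 (R.rI i) / q2 R.m) ≤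
        4 * K ^ 4 * (q2 (R.rI i + R.m + c) * q2 x) := by
      rw [show 2 * R.m + 2 * c + 1 + x = R.m + (R.m + 2 * c + 1 + x) by ring, q2_add R.m]
      rw [show q2 R.m * q2 (R.m + 2 * c + 1 + x) * (12 * K ^ 5 * q2 (R.rI i) / q2 R.m) =
        q2 (R.m + 2 * c + 1 + x) * (12 * K ^ 5 * q2 (R.rI i)) by field_simp]
      exact hyy0
    have hmm : K * q2 c + 8 * K ^ 4 * q2 x ≤ 1 := by
      have := hpw 4 (by norm_num)
      nlinarith
    have hfin := difR2_kap (b := b) hK hC o0 d0 o1 hl dN hal hk hθ hxk hxj hyy hmm hD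
    exact (difK2_iff (i := i) (m1 := m')).2 (difR2_mono (by omega) hfin)
  · -- the own slope
    rw [Nat.min_eq_left hreg] at h1 hm'
    have hphi := hg.phi (by have := h.pth.m1; omega) (by omega)
    have hL := (R.C.pr_phi R.Q (R.XZ i b) (R.C.rf i + R.m)).trans
      (mul_le_mul_of_nonneg_left hphi (by norm_num : (0:ℝ) ≤ 3))
    have hAll := prE_or5 (two R.Q (R.XZ i b))
      (fun q => ¬ q2 (R.C.rf i + R.m) ≤ |R.C.p q.fst - R.C.p q.snd|) (fun q => E0 q.fst)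
    refine (prE_mono5' _ fun q hq' hbad => ?_).trans (hAll.trans (by linarith))
    obtain ⟨s0, s1⟩ := H118.two_supp hq'
    by_contra hcon
    rw [not_or, not_not] at hcon
    obtain ⟨hcon, nE⟩ := hcon
    obtain ⟨d0, dN⟩ := hN _ s0 nE
    refine hbad ⟨d0, h.ok _ s1, ?_⟩
    obtain ⟨hl, hT⟩ := Run.XZ_l h q.eq
    have hmm : K * q2 c + 8 * K ^ 4 * q2 x ≤ 1 := by
      have := hpw 4 (by norm_num)
      nlinarith
    have hfin := difR2_phi (b := b) hK hC hp d0 (h.ok _ s1) hl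
      (by omega : R.C.rf i + R.m + x + 3 * R.C.μ ≤ R.C.R i1 b)
      (by omega : R.C.rf i + R.m + x + 3 * R.C.μ ≤ D.R j b) hmm hcon
    exact (difK2_iff (i := i) (m1 := m')).2 (difR2_mono (by omega) hfin)

/-- `Y` determines the cell `(j, b)` of a path `D` whose slab at the step `j` is, outside probability `η`, the slab of the
step `k` of the run up to `rk k - μ` digits, or (deep own slope) up to `D.rk j ≥ rf k - b + z` digits -/
def YMod (R : Run Ω τ υ) (K : ℝ) (b z k : ℕ) {σ : Type} (Y : Ω → σ) (η : ℝ) : Prop :=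
  ∃ (τ' : Type) (D : Pth Ω τ') (j : ℕ) (E0 : Ω → Prop), Cmp R.C D k j ∧ D.p = R.C.p ∧
    (R.C.rk k ≤ D.rk j + R.C.μ ∨ R.C.rf k + z ≤ D.rk j + b) ∧ R.C.rf k ≤ D.rf j ∧ prE R.Q E0 ≤ η ∧
    (∀ ω, 0 < R.Q.w ω → ¬ E0 ω → D.Ok K ω ∧
      Pth.Agr K (D.rk j) (R.C.a k) (D.F j ω) (R.C.F k ω) (R.C.l ω) (R.C.s k ω)) ∧
    Fn R.Q (D.cell j b) Y

/-- the cell itself -/
theorem YMod.old {p : Run.Num} {K c' g' gU : ℝ} (h : R.Ok p K c' g' gU) (hK : 0 ≤ K) {b z k : ℕ} {σ : Type}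
    {Y : Ω → σ} (hY : Fn R.Q (R.C.cell k b) Y) {η : ℝ} (hη : 0 ≤ η) : YMod R K b z k Y η := by
  refine ⟨τ, R.C, k, fun _ => False, ⟨rfl, rfl, rfl, rfl, rfl⟩, rfl, Or.inl (by omega), le_rfl, ?_, ?_, hY⟩
  · refine le_trans (le_of_eq ?_) hη
    unfold prE
    simp
  · intro ω hω _
    exact ⟨h.ok ω hω, agr_refl hK _ _ _ _ _⟩

/-- **strip hypothesis of the mixed chain**, along the indices `f` : literally `hSY` of helper118's `heavy_reM`
(`O` = old steps, `cY ≥ c3 + Kμ`) -/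
theorem y6_re {p : Run.Num} {K c' g' gU : ℝ} (h : R.Ok p K c' g' gU) (hK : 1 ≤ K)
    {f : ℕ → ℕ} (hfs : ∀ i k, i < k → k ≤ N → f i < f k) (hfn : ∀ k ≤ N, f k ≤ R.n)
    {A0 R0 b : ℕ} {a r : ℕ → ℕ} (hA : ∀ k ≤ N, R.C.a (f k) = A0 + R.m * a k)
    (hR : ∀ k ≤ N, R.C.R (f k) b = R0 + R.m * r k)
    (hf1 : ∀ k < N, a (k + 1) = a k + 1 → R.C.a (f (k + 1)) = R.C.a (f k + 1))
    {ε η : ℝ} {c y z c3 cY Kμ : ℕ} (hxB : b < p.B₁) (hbx : R.m + y ≤ b)
    (hc : 2 * K * q2 c ≤ 1) (hy : 40 * K ^ 6 * q2 y ≤ 1) (hq : K * q2 R.q ≤ 1)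
    (hKμ : 2 * R.m + 2 * c + 1 + y ≤ R.m * Kμ)
    (h3a : (p.s + 1) * R.m + R.m + c + (y + 1) + 4 * R.C.μ ≤ R.m * c3)
    (h3b : (p.s + 1) * R.m + 3 * R.m + 2 * c + 9 * R.C.μ ≤ R.m * c3)
    (hcY : c3 + Kμ ≤ cY) (hz : R.m + c + y ≤ z)
    (hb8 : 8 * R.C.μ ≤ b) (h9 : 9 * R.C.μ ≤ R.C.R (f 0) b)
    (hμ : 40 * K ^ 2 * q2 R.C.μ ≤ (1 / 4 : ℝ) ^ R.m) {σ : Type} (Y : ℕ → Ω → σ) (O : ℕ → Prop)
    (hY : ∀ k < N, a (k + 1) = a k + 1 → ¬ O k → YMod R K b z (f k) (Y k) η) :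
    ∀ i i1, R.Good p ε b (f i) → i < i1 → i1 ≤ N → r i + 3 * (a i1 - a i) + cY < r i1 →
      ∃ Kc : ℕ, Kμ + Kc ≤ 3 * (a i1 - a i) + cY ∧
        ∀ k, i1 ≤ k → k < N → a (k + 1) = a k + 1 → a i1 + Kμ ≤ a k → a k + Kc + r i < a i + r i1 → ¬ O k →
          Stk.hc (two R.Q (R.XZ (f i) b)) (fun q => R.C.VZ (f (k + 1)) b q.fst)
            (fun q => (R.C.cell (f i1) b q.snd, (td R.C (f (k + 1)) q.fst,
              (Y k q.fst, R.C.VZ (f k) b q.fst)))) ≤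
          R.m * Real.log 2 + eS (3 * ε + 2 * c' + η) R.m R.C.μ := by
  intro i i1 hg hi hi1 hr
  have hP := h.pth
  have hm1 := hP.m1
  have hfi : f i < f i1 := hfs i i1 hi hi1
  have hfi1 := hfn i1 hi1
  have ham : R.C.a (f i) ≤ R.C.a (f i1) := R.C.ha hfi.le
  have hai := hA i (by omega)
  have hai1 := hA i1 hi1
  have hRi := hR i (by omega)
  have hRi1 := hR i1 hi1
  have haa : a i ≤ a i1 := by
    by_contra hcon
    push Not at hcon
    have := Nat.mul_lt_mul_of_pos_left hcon hm1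
    omega
  have hsub : R.C.a (f i1) - R.C.a (f i) = R.m * (a i1 - a i) := by
    rw [Nat.mul_sub]
    omega
  have e : R.m * (3 * (a i1 - a i)) = 3 * (R.m * (a i1 - a i)) := by ring
  have hr' : R.C.R (f i) b + 3 * (R.C.a (f i1) - R.C.a (f i)) + R.m * c3 < R.C.R (f i1) b := by
    rw [hsub, hRi, hRi1]
    have := Nat.mul_lt_mul_of_pos_left (show r i + 3 * (a i1 - a i) + c3 < r i1 by omega) hm1
    rw [Nat.mul_add, Nat.mul_add] at this
    omega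
  -- the depth
  have hleI := hP.leI (f i) (by omega) hg.isA
  have hd : min (R.C.rf (f i)) (R.rI (f i) + b) ≤
      R.C.R (f i) b + 3 * (R.C.a (f i1) - R.C.a (f i)) + (p.s + 1) * R.m := by
    have e1 : R.C.R (f i) b = min (R.C.rf (f i)) (R.C.rk (f i) + b) := by
      have := R.C.hkf (f i)
      unfold Pth.R Pth.bs
      omega
    rcases Run.depth5 hP hg.isA (f i1) hfi hfi1 with h1 | h1
    · rw [e1]
      omega
    · have h2 := R.C.R_le_rk5 (f i1) b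
      rw [e1] at hr' ⊢
      omega
  have hle : R.C.R (f i) b ≤ min (R.C.rf (f i)) (R.rI (f i) + b) := by
    have e1 := R.C.R_le_rf5 (f i) b
    have e2 := R.C.R_le_rk5 (f i) b
    omega
  refine ⟨3 * (a i1 - a i) + c3, by omega, ?_⟩
  intro k hk hkn hk1 hak hkK hOk
  obtain ⟨τ', D, j, E0, hC, hp, hrk, hrf, hE, hN, hYD⟩ := hY k hkn hk1 hOk
  have hrk' : R.C.rk (f k) ≤ D.rk j + R.C.μ ∨ R.C.rf (f k) + (R.m + c + y) ≤ D.rk j + b := by
    rcases hrk with hrk | hrk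
    · exact Or.inl hrk
    · exact Or.inr (by omega)
  have hfk : f i1 ≤ f k := by
    rcases Nat.eq_or_lt_of_le hk with h0 | h0
    · rw [h0]
    · exact (hfs i1 k h0 hkn.le).le
  have hfk1 : f k < f (k + 1) := hfs k (k + 1) (Nat.lt_succ_self k) hkn
  have hfk2 := hfn (k + 1) hkn
  have hs1 := hf1 k hkn hk1
  have e2 := hA k hkn.le
  have e2' := hA (k + 1) hkn
  have e3 : R.m * (a i1 + Kμ) ≤ R.m * a k := Nat.mul_le_mul_left _ hak
  rw [Nat.mul_add] at e3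
  have hstep : R.C.a (f k + 1) = R.C.a (f k) + R.m := by
    rw [← hs1, e2', e2, hk1]
    ring
  have hak' : R.C.a (f i1) + (2 * R.m + 2 * c + 1 + y) ≤ R.C.a (f k + 1) := by omega
  have hh : R.C.a (f k + 1) ≤ R.h := by
    rw [← hs1]
    exact (R.C.ha (by omega : f (k + 1) ≤ R.n + p.J)).trans hP.rA
  set m' := min (R.C.rf (f i)) (R.rI (f i) + b) + R.m + 2 * c - R.C.R (f i) b with hm'
  have hbad := hb_run3 (m' := m') (x := y) h hK hg hfi.le hfi1 hfk hxB hbx hc hy hq (by omega) hak' hh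
    (by omega) hC hp hrk' hrf hE hN
  -- the levels
  have hDR : R.C.R (f k) b ≤ D.R j b + R.C.μ := by
    have g1 := R.C.hkf (f k)
    have g2 := D.hkf j
    unfold Pth.R Pth.bs
    rcases hrk with hrk | hrk
    · omega
    · omega
  have hRk := R.C.R_mono5 hfk b
  have h9' : 9 * R.C.μ ≤ R.C.R (f i) b := by
    refine h9.trans (R.C.R_mono5 ?_ b)
    rcases Nat.eq_or_lt_of_le (Nat.zero_le i) with h0 | h0
    · rw [← h0]
    · exact (hfs 0 i h0 (by omega)).le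
  have e4 : R.m * (a k + (3 * (a i1 - a i) + c3) + r i) ≤ R.m * (a i + r i1) :=
    Nat.mul_le_mul_left _ hkK.le
  rw [Nat.mul_add, Nat.mul_add, Nat.mul_add, Nat.mul_add, e] at e4
  have hL : SLv2 R.C D (f i) (f i1) (f k) j b R.m m' := by
    refine ⟨hfi.le, hfk, hstep, hb8, by omega, by omega, ?_⟩
    rw [e2, hai, hRi1]
    rw [hsub] at hd
    rw [hRi] at hd hm' hle ⊢
    omega
  have key := strip_hc2_Y R.Q R.C D hK hC hL hμ (R.XZ (f i) b) (fun ω ω' _ _ e => Run.XZ_l h e) (Y k) hYD hbad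
  refine le_trans (le_of_eq ?_) key
  have v1 : ∀ ω, R.C.VZ (f (k + 1)) b ω = R.C.VZ (f k + 1) b ω := by
    intro ω
    unfold Pth.VZ Pth.s
    rw [hs1]
  have v2 : ∀ ω, td R.C (f (k + 1)) ω = td R.C (f k + 1) ω := by
    intro ω
    unfold H118.td
    rw [hs1]
  simp only [v1, v2]

end run

end Vale.Agent.P106.U.H513
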