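import Vale.Agent.P106.U.H513.SIo
import Vale.Agent.P106.U.MIC.Stage

/-!
# P106 / U / H513 : row [SI], kind 0, over the situation `MIC.St` of a scale (helper513)

* **`si_st`** : both sums over `s : St ..`; pure levels `pu` = any predicate which implies `z ∉ SwL s.R B s.Vs s.Xs Lw`, `z ∉ s.Vs`,
  with `L1 + Kr ≤ Lb ≤ Lw`.
* `kd0_vs` : kind 0 = not young.
-/

set_option autoImplicit false

namespace Vale.Agent.P106.U.H513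

open Finset Vale.Agent.P127 Vale.Agent.P127.Stk Vale.Agent.P127.U Vale.Agent.P106.W Vale.Agent.P106.K Vale.Agent.P106.U
open Vale.Agent.P127.U.CellD (q2)
open Vale.Agent.P106.U.H833 (NumN I1O I2O)
open Vale.Agent.P106.U.S5
open Vale.Agent.P106.U.MIC (St μS KS)

variable {η : ℝ} {x : ℕ} {σ : Cst} {ε : ℝ} {ρ : Thr} {g : Gv} {m B h : ℕ}

theorem kd0_vs (s : St η x σ ε ρ g m B h) {z : ℕ} (h0 : s.kd z = 0) : z ∉ s.Vs := by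
  classical
  intro hz
  unfold St.kd at h0
  rw [if_pos hz] at h0
  split_ifs at h0 with h2
  · exact absurd h0 (by decide)
  · exact absurd h0 (by decide)

/-- **[SI], kind 0, over `St`** -/
theorem si_st (hρ : ρ.Ok) (s : St η x σ ε ρ g m B h) (hJ : (m : ℝ) * (ρ.J + 1) ≤ h) (hm : 0 < m)
    {cc M s' c0 gg pv b' Mu Wd Kr Lb : ℕ} (Nn : NumN s.Rl s.pn ρ.K cc s.R.b1 M s' c0 gg pv b' Mu Wd Kr Lb)
    (hμ : μS x m ≤ s.R.C.μ) {L1 L2 Lk Lw : ℕ} (hLk : Kr + 2 * (ρ.J * Mu) ≤ Lk) (hLb : L1 + Kr ≤ Lb) (hLbB : Lb ≤ B)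
    (hLw : Lb ≤ Lw) (hWB : Wd < B) (pu : ℕ → Prop) (hpu : ∀ z, pu z → z ∉ H336.SwL s.R B s.Vs s.Xs Lw ∧ z ∉ s.Vs) :
    ∑ j ∈ range s.N, ∑ k ∈ Ioc j (j + L1),
        I1O s.Rl.Q (s.Rl.C.re s.f s.hf) (s.R.m * s.R.b1) pv s.N s.a pu L1 L2 Kr Lk j k ≤
      siD L1 Lb * ((h : ℝ) / B) + KS ρ * (m + (μS x m : ℕ) + 1) * q2 (μS x m / 8) *
        (siC ρ.K σ.K1 L1 L2 Lb * ((h : ℝ) / m)) + siX L1 L2 pv ∧
    ∑ j ∈ range s.N, ∑ k ∈ Ioc j (j + L1),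
        I2O s.Rl.Q (s.Rl.C.re s.f s.hf) (s.R.m * s.R.b1) s.bS s.N s.a pu L1 L2 Kr Lk j k ≤
      siD L1 Lb * ((h : ℝ) / B) + KS ρ * (m + (μS x m : ℕ) + 1) * q2 (μS x m / 8) *
        (siC ρ.K σ.K1 L1 L2 Lb * ((h : ℝ) / m)) + siX L1 L2 pv :=
  si_sw hρ s.run hJ hm s.f2 s.f2o le_rfl Nn hμ s.word.sd (by rw [s.run.hJ]; exact hLk) hLb hLbB hLw hWB pu hpu

/-- with `s.Rl.m * s.Rl.b1` and the same conclusion, for the exceptional set plus kind 0 -/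
theorem si_st' (hρ : ρ.Ok) (s : St η x σ ε ρ g m B h) (hJ : (m : ℝ) * (ρ.J + 1) ≤ h) (hm : 0 < m)
    {cc M s' c0 gg pv b' Mu Wd Kr Lb : ℕ} (Nn : NumN s.Rl s.pn ρ.K cc s.R.b1 M s' c0 gg pv b' Mu Wd Kr Lb)
    (hμ : μS x m ≤ s.R.C.μ) {L1 L2 Lk Lw : ℕ} (hLk : Kr + 2 * (ρ.J * Mu) ≤ Lk) (hLb : L1 + Kr ≤ Lb) (hLbB : Lb ≤ B)
    (hLw : Lb ≤ Lw) (hWB : Wd < B) :
    ∑ j ∈ range s.N, ∑ k ∈ Ioc j (j + L1),
        I1O s.Rl.Q (s.Rl.C.re s.f s.hf) (s.Rl.m * s.Rl.b1) pv s.N s.a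
          (fun z => z ∉ H336.SwL s.R B s.Vs s.Xs Lw ∧ s.kd z = 0) L1 L2 Kr Lk j k ≤
      siD L1 Lb * ((h : ℝ) / B) + KS ρ * (m + (μS x m : ℕ) + 1) * q2 (μS x m / 8) *
        (siC ρ.K σ.K1 L1 L2 Lb * ((h : ℝ) / m)) + siX L1 L2 pv ∧
    ∑ j ∈ range s.N, ∑ k ∈ Ioc j (j + L1),
        I2O s.Rl.Q (s.Rl.C.re s.f s.hf) (s.Rl.m * s.Rl.b1) s.bS s.N s.a
          (fun z => z ∉ H336.SwL s.R B s.Vs s.Xs Lw ∧ s.kd z = 0) L1 L2 Kr Lk j k ≤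
      siD L1 Lb * ((h : ℝ) / B) + KS ρ * (m + (μS x m : ℕ) + 1) * q2 (μS x m / 8) *
        (siC ρ.K σ.K1 L1 L2 Lb * ((h : ℝ) / m)) + siX L1 L2 pv :=
  si_st hρ s hJ hm Nn hμ hLk hLb hLbB hLw hWB (fun z => z ∉ H336.SwL s.R B s.Vs s.Xs Lw ∧ s.kd z = 0)
    fun _ hz => ⟨hz.1, kd0_vs s hz.2⟩

end Vale.Agent.P106.U.H513
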