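import Vale.Agent.P106.U.H931.Nxt
import Vale.Agent.P106.U.H420.F2
import Vale.Agent.P106.U.H364.N4
import Vale.Agent.P106.U.MIC.Props

/-!
# P106 / U / H513 : the sums of the informations F1 over the windows of one path (helper513)

One law, one path `C : Cell.Pth`, one cap `b`, word `a` (levels in blocks), pairs `G = Prs K1 L1 L2 n a` of 931:
`(j, k)`, step `j`, end `k` of a window, reading index `i = lvi n a (a k + Kr)`, `2 Kr ≤ K1`-type room.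

* `split5` : a family with `∑ f ≤ X + N` is a sum of two families with sums `≤ X`, `≤ N`; `sqrt_split5` : the sum of
  the square roots.
* `nuC`, `hc_cell5` : near-nestedness of the cells of one path.
* `f1_kap5` : `∑ I(Y ; cell i | cell (j+1), T i)`.
* `f1_phi5` : `∑ I(Y ; cell i | Dp (j+1), Th i)`.
-/

set_option autoImplicit false

namespace Vale.Agent.P106.U.H513

open Finset Vale.Agent.P127 Vale.Agent.P127.Stk Vale.Agent.P106.U.Cell
open Vale.Agent.P127.U.CellD (q2 rd Nb q2_pos q2_add q2_le)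
open Vale.Agent.P106.U.H118 (Sdat)
open Vale.Agent.P106.U.H931 (lvi Prs Adm adm_lvi lvi_le_n)

/-! ### splitting -/

/-- a family with `∑ f ≤ X + N` -/
theorem split5 {ι : Type*} (G : Finset ι) (f : ι → ℝ) (hf : ∀ x ∈ G, 0 ≤ f x) {X N : ℝ} (hX : 0 ≤ X)
    (hN : 0 ≤ N) (h : ∑ x ∈ G, f x ≤ X + N) :
    ∃ t r : ι → ℝ, (∀ x, 0 ≤ t x) ∧ (∀ x, 0 ≤ r x) ∧ (∀ x ∈ G, f x = t x + r x) ∧
      ∑ x ∈ G, t x ≤ X ∧ ∑ x ∈ G, r x ≤ N := by
  rcases (add_nonneg hX hN).eq_or_lt with h0 | h0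
  · refine ⟨fun _ => 0, fun _ => 0, fun _ => le_rfl, fun _ => le_rfl, fun x hx => ?_, by simpa using hX,
      by simpa using hN⟩
    have h1 : ∑ x ∈ G, f x ≤ 0 := by rw [← h0] at h; exact h
    have h2 := Finset.single_le_sum (fun y hy => hf y hy) hx
    have h3 := hf x hx
    simp only [add_zero]
    linarith
  · refine ⟨fun x => max (f x) 0 * (X / (X + N)), fun x => max (f x) 0 * (N / (X + N)), fun x => ?_, fun x => ?_,
      fun x hx => ?_, ?_, ?_⟩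
    · have := le_max_right (f x) 0
      positivity
    · have := le_max_right (f x) 0
      positivity
    · show f x = max (f x) 0 * (X / (X + N)) + max (f x) 0 * (N / (X + N))
      rw [max_eq_left (hf x hx)]
      field_simp
    · rw [← Finset.sum_mul]
      have e : ∑ x ∈ G, max (f x) 0 = ∑ x ∈ G, f x :=
        Finset.sum_congr rfl fun x hx => max_eq_left (hf x hx)
      rw [e]
      calc (∑ x ∈ G, f x) * (X / (X + N)) ≤ (X + N) * (X / (X + N)) :=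
            mul_le_mul_of_nonneg_right h (by positivity)
        _ = X := by field_simp
    · rw [← Finset.sum_mul]
      have e : ∑ x ∈ G, max (f x) 0 = ∑ x ∈ G, f x :=
        Finset.sum_congr rfl fun x hx => max_eq_left (hf x hx)
      rw [e]
      calc (∑ x ∈ G, f x) * (N / (X + N)) ≤ (X + N) * (N / (X + N)) :=
            mul_le_mul_of_nonneg_right h (by positivity)
        _ = N := by field_simp

/-- the sum of the square roots -/
theorem sqrt_sum5 {ι : Type*} (G : Finset ι) (f : ι → ℝ) (hf : ∀ x ∈ G, 0 ≤ f x) :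
    ∑ x ∈ G, Real.sqrt (f x) ≤ Real.sqrt (G.card * ∑ x ∈ G, f x) := by
  have e1 : (∑ x ∈ G, Real.sqrt (f x)) ^ 2 ≤ G.card * ∑ x ∈ G, (Real.sqrt (f x)) ^ 2 :=
    sq_sum_le_card_mul_sum_sq
  have e2 : ∑ x ∈ G, (Real.sqrt (f x)) ^ 2 = ∑ x ∈ G, f x :=
    Finset.sum_congr rfl fun x hx => Real.sq_sqrt (hf x hx)
  rw [e2] at e1
  exact Real.le_sqrt_of_sq_le e1

theorem sqrt_add5 {x y : ℝ} (hx : 0 ≤ x) (hy : 0 ≤ y) : Real.sqrt (x + y) ≤ Real.sqrt x + Real.sqrt y := by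
  have h1 := Real.sqrt_nonneg x
  have h2 := Real.sqrt_nonneg y
  refine Real.sqrt_le_iff.2 ⟨by positivity, ?_⟩
  have e1 := Real.sq_sqrt hx
  have e2 := Real.sq_sqrt hy
  nlinarith [mul_nonneg h1 h2]

/-- the sum of the square roots, two parts -/
theorem sqrt_split5 {ι : Type*} (G : Finset ι) (f : ι → ℝ) (hf : ∀ x ∈ G, 0 ≤ f x) {X N : ℝ} (hX : 0 ≤ X)
    (hN : 0 ≤ N) (h : ∑ x ∈ G, f x ≤ X + N) :
    ∑ x ∈ G, Real.sqrt (f x) ≤ Real.sqrt (G.card * X) + Real.sqrt (G.card * N) := by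
  refine (sqrt_sum5 G f hf).trans ?_
  refine (Real.sqrt_le_sqrt (mul_le_mul_of_nonneg_left h (Nat.cast_nonneg _))).trans ?_
  rw [mul_add]
  exact sqrt_add5 (by positivity) (by positivity)

/-! ### nestedness -/

section cell

variable {Ω τ : Type} [Fintype Ω] {K : ℝ}

/-- constant of the nestedness of the cells -/
noncomputable def cNe (K : ℝ) : ℝ := 6 + 10 * Real.log (2 * ⌈3 * (160 * K ^ 7)⌉₊ + 3)

theorem cNe_nonneg (K : ℝ) : 0 ≤ cNe K := by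
  unfold cNe
  have : (1 : ℝ) ≤ 2 * ⌈3 * (160 * K ^ 7)⌉₊ + 3 := by
    have : (0 : ℝ) ≤ ⌈3 * (160 * K ^ 7)⌉₊ := Nat.cast_nonneg _
    linarith
  have := Real.log_nonneg this
  linarith

/-- defect of the nestedness at the step `x` -/
noncomputable def nuC (P : Law Ω) (C : Pth Ω τ) (K : ℝ) (b x : ℕ) : ℝ :=
  cNe K * Real.sqrt (prE P (C.Bad (640 * K ^ 7) x b))

theorem nuC_nonneg (P : Law Ω) (C : Pth Ω τ) (K : ℝ) (b x : ℕ) : 0 ≤ nuC P C K b x :=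
  mul_nonneg (cNe_nonneg K) (Real.sqrt_nonneg _)

/-- **the cell is nearly a function of the cell of a later step** -/
theorem hc_cell5 (P : Law Ω) (C : Pth Ω τ) (h1 : 1 ≤ K) (hok : ∀ ω, 0 < P.w ω → C.Ok K ω) {i j b : ℕ}
    (hij : i ≤ j) (hli : C.Lev i b) (hlj : C.Lev j b) (ha : C.a i + 2 * C.μ ≤ C.a j)
    (hR : C.R i b + C.μ ≤ C.R j b) : hc P (C.cell i b) (C.cell j b) ≤ nuC P C K b i := by
  have h7 : (1 : ℝ) ≤ K ^ 7 := one_le_pow₀ h1
  have h := H364.N4.hc_of_clo P C (C.cell j b) (c := 160 * K ^ 7) (by linarith) hli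
    (fun ω ω' p p' e => C.clo_of_cell h1 (hok ω p) (hok ω' p') hij hli hlj ha hR e)
  unfold nuC cNe
  rw [show 640 * K ^ 7 = 4 * (160 * K ^ 7) by ring]
  exact h

/-- constant of the slope digits -/
noncomputable def cSl (K : ℝ) : ℝ := 2 + Real.log (2 * ⌈32 * K ^ 5⌉₊ + 3)

/-- defect of the slope digits at the step `x` -/
noncomputable def nuS (P : Law Ω) (C : Pth Ω τ) (K : ℝ) (b x : ℕ) : ℝ :=
  cSl K * Real.sqrt (prE P (H420.BadS C (32 * K ^ 5) x b))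

theorem cSl_nonneg (K : ℝ) : 0 ≤ cSl K := by
  unfold cSl
  have : (1 : ℝ) ≤ 2 * ⌈32 * K ^ 5⌉₊ + 3 := by
    have : (0 : ℝ) ≤ ⌈32 * K ^ 5⌉₊ := Nat.cast_nonneg _
    linarith
  have := Real.log_nonneg this
  linarith

theorem nuS_nonneg (P : Law Ω) (C : Pth Ω τ) (K : ℝ) (b x : ℕ) : 0 ≤ nuS P C K b x :=
  mul_nonneg (cSl_nonneg K) (Real.sqrt_nonneg _)

theorem hc_SR5 (P : Law Ω) (C : Pth Ω τ) (h1 : 1 ≤ K) (hok : ∀ ω, 0 < P.w ω → C.Ok K ω) {i j b : ℕ}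
    (hij : i ≤ j) (hl : C.Lev j b) (h2 : C.rf i + 4 * C.μ ≤ C.R j b)
    (h3 : C.rf i + 2 * C.μ ≤ C.rk i + b) : hc P (H420.SR C i b) (C.cell j b) ≤ nuS P C K b i := by
  have h := H420.SR_down P C h1 hok hij hl h2 h3 (K' := 32 * K ^ 5) le_rfl (M := ⌈32 * K ^ 5⌉₊) (Nat.le_ceil _)
  exact h

/-! ### the sums -/

theorem prs_mono5 {K1 Kr L1 L2 n : ℕ} {a : ℕ → ℕ} {G : Finset (ℕ × ℕ)} (h : Prs K1 L1 L2 n a G)
    (hK : Kr ≤ K1) : Prs Kr L1 L2 n a G where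
  lt := h.lt
  le := h.le
  hn := h.hn
  adm := fun p hp => by
    obtain ⟨i1, e1, e2, e3⟩ := h.adm p hp
    exact ⟨i1, e1, by omega, e3⟩

theorem prs_sub5 {K1 L1 L2 n : ℕ} {a : ℕ → ℕ} {G G' : Finset (ℕ × ℕ)} (h : Prs K1 L1 L2 n a G)
    (hG : G' ⊆ G) : Prs K1 L1 L2 n a G' where
  lt := fun p hp => h.lt p (hG hp)
  le := fun p hp => h.le p (hG hp)
  hn := fun p hp => h.hn p (hG hp)
  adm := fun p hp => h.adm p (hG hp)

/-- the path of the cells follows the word `a` : after `Kn` blocks of time the levels are above the margins -/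
structure Rm5 (C : Pth Ω τ) (n b Kn : ℕ) (a : ℕ → ℕ) : Prop where
  lev : ∀ x ≤ n, C.Lev x b
  up : ∀ i j, i ≤ j → j ≤ n → a i + Kn ≤ a j → C.a i + 2 * C.μ ≤ C.a j ∧ C.R i b + C.μ ≤ C.R j b

/-- near-nestedness in the form of 931's `f1_sum` -/
theorem hnu5 (P : Law Ω) (C : Pth Ω τ) (h1 : 1 ≤ K) (hok : ∀ ω, 0 < P.w ω → C.Ok K ω) {n b Kn : ℕ}
    {g : ℕ → Prop} {a R : ℕ → ℕ} (D : Sdat n g a R) (hR : Rm5 C n b Kn a) (hKn : 0 < Kn) :
    ∀ i j, i ≤ n → j ≤ n → a i + Kn ≤ a j → hc P (C.cell i b) (C.cell j b) ≤ nuC P C K b i := by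
  intro i j hi hj h
  have hij : i ≤ j := by
    by_contra hc
    push Not at hc
    have := D.am hc.le hi
    omega
  obtain ⟨u1, u2⟩ := hR.up i j hij hj h
  exact hc_cell5 P C h1 hok hij (hR.lev i hi) (hR.lev j hj) u1 u2

/-- **F1, kappa regime** (letter `T i`), `i = lvi n a (a k + Kr)` -/
theorem f1_kap5 (P : Law Ω) (C : Pth Ω τ) (h1 : 1 ≤ K) (hok : ∀ ω, 0 < P.w ω → C.Ok K ω) {n b K1 Kr Kn L1 L2 : ℕ}
    {g : ℕ → Prop} {a R : ℕ → ℕ} (D : Sdat n g a R) (hR : Rm5 C n b Kn a) (hKn : 0 < Kn) (hKr : Kn ≤ Kr)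
    (hK1 : Kr ≤ K1) {G : Finset (ℕ × ℕ)} (hG : Prs K1 L1 L2 n a G) {U : Type} (Y : Ω → U) {H : ℝ}
    (hH : ∀ x ≤ n, hc P Y (C.cell x b) ≤ H) :
    ∑ q ∈ G, mi P Y (C.cell (lvi n a (a q.2 + Kr)) b)
        (fun ω => (C.cell (q.1 + 1) b ω, C.T (lvi n a (a q.2 + Kr)) ω)) ≤
      L1 * (L2 * H) + (L1 : ℝ) * (L2 + 1) * ∑ x ∈ range (n + 1), nuC P C K b x := by
  have hνK := hnu5 P C h1 hok D hR hKn
  exact H931.f1_sum' P D (by omega : 0 < Kr) (prs_mono5 hG hK1) Y (fun x => C.cell x b)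
    (fun q => C.T (lvi n a (a q.2 + Kr))) (fun q _ ω ω' _ _ e => (Pth.cell_iff.1 e).1)
    (fun x => nuC P C K b x) (fun x _ => nuC_nonneg P C K b x)
    (fun i j hi hj h => hνK i j hi hj (by omega)) hH

/-- **F1, phi regime** (letters `Dp (j+1)`, `Th i`), `i = lvi n a (a k + Kr)` -/
theorem f1_phi5 (P : Law Ω) (C : Pth Ω τ) (h1 : 1 ≤ K) (hok : ∀ ω, 0 < P.w ω → C.Ok K ω) {n b K1 Kr Kn L1 L2 : ℕ}
    {g : ℕ → Prop} {a R : ℕ → ℕ} (D : Sdat n g a R) (hR : Rm5 C n b Kn a) (hKn : 0 < Kn) (hKr : Kn ≤ Kr)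
    (hK1 : Kr + Kn ≤ K1) {G : Finset (ℕ × ℕ)} (hG : Prs K1 L1 L2 n a G)
    (hφ : ∀ q ∈ G, C.rf (lvi n a (a q.2 + Kr)) + 4 * C.μ ≤ C.R (lvi n a (a q.2 + K1)) b ∧
      C.rf (lvi n a (a q.2 + Kr)) + 2 * C.μ ≤ C.rk (lvi n a (a q.2 + Kr)) + b ∧
      C.rf (q.1 + 1) + 2 * C.μ ≤ C.rk (q.1 + 1) + b) {U : Type} (Y : Ω → U) {H : ℝ}
    (hH : ∀ x ≤ n, hc P Y (C.cell x b) ≤ H) :
    ∑ q ∈ G, mi P Y (C.cell (lvi n a (a q.2 + Kr)) b)
        (fun ω => (H683.Dp C (q.1 + 1) b ω, MIC.Th C b (lvi n a (a q.2 + Kr)) ω)) ≤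
      L1 * (L2 * H) + ((L1 : ℝ) * (2 * L2 + 1) * ∑ x ∈ range (n + 1), nuC P C K b x +
        (L1 : ℝ) * (L2 + 1) * ∑ x ∈ range (n + 1), nuS P C K b x) := by
  have hνK := hnu5 P C h1 hok D hR hKn
  have hK0 : 0 < K1 := by omega
  have s1 := H931.f1_sum P D hK0 hG Y (fun x => C.cell x b) (fun x => nuC P C K b x)
    (fun x _ => nuC_nonneg P C K b x) (fun i j hi hj h => hνK i j hi hj (by omega)) hH
  have s2 := (prs_mono5 hG (by omega : Kr ≤ K1)).sumv D (by omega : 0 < Kr) (fun x => nuC P C K b x)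
    (fun x _ => nuC_nonneg P C K b x)
  have s3 := hG.sum1 (fun x => nuS P C K b x) (fun x _ => nuS_nonneg P C K b x)
  have s4 := (prs_mono5 hG (by omega : Kr ≤ K1)).sumv D (by omega : 0 < Kr) (fun x => nuS P C K b x)
    (fun x _ => nuS_nonneg P C K b x)
  have hstep : ∀ q ∈ G, mi P Y (C.cell (lvi n a (a q.2 + Kr)) b)
        (fun ω => (H683.Dp C (q.1 + 1) b ω, MIC.Th C b (lvi n a (a q.2 + Kr)) ω)) ≤
      mi P Y (C.cell (lvi n a (a q.2 + K1)) b) (C.cell (q.1 + 1) b) +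
        (nuC P C K b (lvi n a (a q.2 + Kr)) + nuS P C K b (q.1 + 1) +
          nuS P C K b (lvi n a (a q.2 + Kr))) := by
    intro q hq
    have e1 := hG.lt q hq
    obtain ⟨f1, f2, f3, i1, f4, f5, f6, f7⟩ := adm_lvi D hK0 (hG.hn q hq) (hG.adm q hq)
    obtain ⟨g1, g2, g3, i2, g4, g5, g6, g7⟩ := adm_lvi D (by omega : 0 < Kr) (hG.hn q hq)
      ((prs_mono5 hG (by omega : Kr ≤ K1)).adm q hq)
    obtain ⟨p1, p2, p3⟩ := hφ q hq
    set i' := lvi n a (a q.2 + Kr) with hi'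
    set i'' := lvi n a (a q.2 + K1) with hi''
    have hii : i' ≤ i'' := by
      by_contra hc
      push Not at hc
      have := D.am hc.le g2
      omega
    have hTh : MIC.Th C b i' = H683.Th C i' b := MIC.th_phi (by omega)
    rw [hTh]
    have h := H420.f1_step P C Y (k := q.1 + 1) (i' := i') (i'' := i'') (b := b)
    have n1 := hνK i' i'' g2 f2 (by omega)
    have hrf : C.rf (q.1 + 1) ≤ C.rf i' := C.hf (by omega)
    have n2 := hc_SR5 P C h1 hok (i := q.1 + 1) (j := i'') (b := b) (by omega) (hR.lev i'' f2)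
      (by omega) p3
    have n3 := hc_SR5 P C h1 hok (i := i') (j := i'') (b := b) hii (hR.lev i'' f2) p1 p2
    have h' : mi P Y (C.cell i' b) (fun ω => (H683.Dp C (q.1 + 1) b ω, H683.Th C i' b ω)) ≤
        mi P Y (C.cell i'' b) (C.cell (q.1 + 1) b) +
        (hc P (C.cell i' b) (C.cell i'' b) + hc P (H420.SR C (q.1 + 1) b) (C.cell i'' b) +
          hc P (H420.SR C i' b) (C.cell i'' b)) := h
    linarith
  refine (Finset.sum_le_sum hstep).trans ?_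
  rw [Finset.sum_add_distrib, Finset.sum_add_distrib, Finset.sum_add_distrib]
  have hL1 : (0 : ℝ) ≤ L1 := Nat.cast_nonneg _
  linarith

end cell

end Vale.Agent.P106.U.H513
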