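import Vale.Agent.P106.U.H513.ExtBox
import Vale.Agent.P106.U.H61.Mac
import Vale.Agent.P106.U.H875.XX

/-! # P106 / U / H513 : EXT and change of the class (helper513)

* `ext_geo` : covering of a label of a small block by `N0 2^(3 w)` labels of the large block.
* `ext_law` : the random label, `H(A | W, t_(a+w)) ≤ 3 w log 2 + K`.
* `ext_X` : `XX c (a + w) ≤ XX c₁ (a) + (2 + 2 k) w log 2 + K`, all classes `c ≥ 1`, `c₁ > 0` (`w = 0` : change of the class).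
* `pExtX : PExtX`. -/

set_option autoImplicit false

namespace Vale.Agent.P106.U.H513

open Vale.Agent.P127 Vale.Agent.P127.Stk Vale.Agent.P127.U Vale.Agent.P106.W Vale.Agent.P106.K
open Vale.Agent.P122.C2 (fn)

/-! ### counting of the keys -/

theorem fm {x u : ℝ} {A' A : ℕ} (hu : 0 < u) (h : |x| ≤ A' * u) (hA : A' + 1 ≤ A) :
    ⌊x / u⌋ ∈ Finset.Icc (-(A : ℤ)) A := by
  have h1 := abs_le.1 h
  have h2 : (A' : ℝ) + 1 ≤ A := by exact_mod_cast hA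
  rw [Finset.mem_Icc]
  constructor
  · rw [Int.le_floor]
    push_cast
    rw [le_div_iff₀ hu]
    nlinarith
  · have : x / u ≤ A := by
      rw [div_le_iff₀ hu]
      nlinarith
    have h3 : ⌊x / u⌋ ≤ ⌊((A : ℤ) : ℝ)⌋ := Int.floor_le_floor (by push_cast; exact this)
    simpa using h3

/-- the values of the keys -/
noncomputable def kF (A w : ℕ) : Finset KT :=
  ((Fintype.piFinset fun _ => Finset.Icc (-(A : ℤ)) A) ×ˢ (Fintype.piFinset fun _ => Finset.Icc (-(A : ℤ)) A)) ×ˢ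
    ((Finset.Icc (-(A : ℤ)) A ×ˢ Finset.univ) ×ˢ
      (Finset.Icc (-((A * 2 ^ w : ℕ) : ℤ)) ((A * 2 ^ w : ℕ) : ℤ) ×ˢ
        (Finset.Icc (-((A * 2 ^ w : ℕ) : ℤ)) ((A * 2 ^ w : ℕ) : ℤ) ×ˢ
          Finset.Icc (-((A * 2 ^ w : ℕ) : ℤ)) ((A * 2 ^ w : ℕ) : ℤ))))

theorem card_Icc_symm (A : ℕ) : (Finset.Icc (-(A : ℤ)) A).card = 2 * A + 1 := by
  rw [Int.card_Icc]
  omega

theorem kF_card (A w : ℕ) : (kF A w).card ≤ (2 * (2 * A + 1) ^ 8) * 2 ^ (3 * w) := by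
  unfold kF
  simp only [Finset.card_product, Fintype.card_piFinset, card_Icc_symm, Finset.prod_const, Finset.card_univ,
    Fintype.card_fin]
  have h : 2 * (A * 2 ^ w) + 1 ≤ (2 * A + 1) * 2 ^ w := by
    have : 1 ≤ 2 ^ w := Nat.one_le_two_pow
    nlinarith
  have h3 : (2 * (A * 2 ^ w) + 1) * ((2 * (A * 2 ^ w) + 1) * (2 * (A * 2 ^ w) + 1)) ≤
      ((2 * A + 1) * 2 ^ w) * (((2 * A + 1) * 2 ^ w) * ((2 * A + 1) * 2 ^ w)) :=
    Nat.mul_le_mul h (Nat.mul_le_mul h h)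
  calc (2 * A + 1) ^ 2 * (2 * A + 1) ^ 2 * ((2 * A + 1) * 2 *
        ((2 * (A * 2 ^ w) + 1) * ((2 * (A * 2 ^ w) + 1) * (2 * (A * 2 ^ w) + 1))))
      ≤ (2 * A + 1) ^ 2 * (2 * A + 1) ^ 2 * ((2 * A + 1) * 2 *
        (((2 * A + 1) * 2 ^ w) * (((2 * A + 1) * 2 ^ w) * ((2 * A + 1) * 2 ^ w)))) :=
        Nat.mul_le_mul_left _ (Nat.mul_le_mul_left _ h3)
    _ = (2 * (2 * A + 1) ^ 8) * 2 ^ (3 * w) := by
      rw [mul_comm 3 w, pow_mul]; ring

theorem zh_le {c : ℝ} {m M : ℕ} {B : Cbx} {l : Ry} (hc : 1 ≤ c) (hm : 3 * c ≤ m) (hM : 2 ≤ (M : ℝ)) (hu2 : 0 < B.u2)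
    (hin : Bin c B 0 l) : |zh M B l| ≤ m * B.u2 ^ 2 := by
  have hM0 : (0 : ℝ) < M := by linarith
  obtain ⟨hy, hs, hz, -, -⟩ := hin
  have hmax : max (B.u2 ^ 2) 0 = B.u2 ^ 2 := max_eq_left (by positivity)
  rw [hmax] at hz
  have e : zh M B l = (l.z + ∑ k, l.y k * (l.s k - B.v k) - B.ω) +
      (-((l.y 0 - yh M B l 0) * (l.s 0 - B.v 0)) + -((l.y 1 - yh M B l 1) * (l.s 1 - B.v 1))) := by
    unfold zh
    simp only [Fin.sum_univ_two]
    ring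
  have hq : ∀ k, |(l.y k - yh M B l k) * (l.s k - B.v k)| ≤ c * B.u2 ^ 2 / 2 := fun k => by
    rw [abs_mul]
    have h1 : B.u2 / M ≤ B.u2 / 2 := div_le_div_of_nonneg_left hu2.le (by norm_num) hM
    calc |l.y k - yh M B l k| * |l.s k - B.v k| ≤ B.u2 / 2 * (c * B.u2) :=
          mul_le_mul ((yh_close hM0 hu2 l k).trans h1) (hs k) (abs_nonneg _) (by positivity)
      _ = c * B.u2 ^ 2 / 2 := by ring
  rw [e]
  have t1 := abs_add_le (l.z + ∑ k, l.y k * (l.s k - B.v k) - B.ω)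
    (-((l.y 0 - yh M B l 0) * (l.s 0 - B.v 0)) + -((l.y 1 - yh M B l 1) * (l.s 1 - B.v 1)))
  have t2 := abs_add_le (-((l.y 0 - yh M B l 0) * (l.s 0 - B.v 0))) (-((l.y 1 - yh M B l 1) * (l.s 1 - B.v 1)))
  rw [abs_neg, abs_neg] at t2
  have h3 : 3 * c * B.u2 ^ 2 ≤ m * B.u2 ^ 2 := mul_le_mul_of_nonneg_right hm (by positivity)
  have h4 : 0 ≤ c * B.u2 ^ 2 := by positivity
  linarith [hq 0, hq 1]

theorem fm' {a x u : ℝ} {m M A w : ℕ} (hu : 0 < u) (hx : |x| ≤ m * u) (ha0 : 0 ≤ a) (ha : a ≤ M * 2 ^ w)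
    (hA : (m * M + 1) ≤ A) : ⌊a * x / u⌋ ∈ Finset.Icc (-((A * 2 ^ w : ℕ) : ℤ)) ((A * 2 ^ w : ℕ) : ℤ) := by
  refine fm (A' := m * M * 2 ^ w) hu ?_ ?_
  · rw [abs_mul, abs_of_nonneg ha0]
    push_cast
    calc a * |x| ≤ (M * 2 ^ w) * (m * u) := mul_le_mul ha hx (abs_nonneg _) (by positivity)
      _ = m * M * 2 ^ w * u := by ring
  · have : 1 ≤ 2 ^ w := Nat.one_le_two_pow
    nlinarith

theorem fm0 {x u : ℝ} {m M A : ℕ} (hu : 0 < u) (hx : |x| ≤ m * u) (hA : (m * M + 1) ≤ A) :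
    ⌊(M : ℝ) * x / u⌋ ∈ Finset.Icc (-(A : ℤ)) A := by
  have := fm' (w := 0) hu hx (Nat.cast_nonneg M) (by simp) hA
  simpa using this

theorem keyS_mem {c : ℝ} {m M A w : ℕ} {B : Cbx} {l : Ry} (hc : 1 ≤ c) (hm : 3 * c ≤ m) (hM : 2 ≤ (M : ℝ))
    (hA : m * M + 1 ≤ A) (hu2 : 0 < B.u2) (hu1 : 0 < B.u1) (hin : Bin c B 0 l) : keyS M w B l ∈ kF A w := by
  have hz := zh_le hc hm hM hu2 hin
  obtain ⟨hy, hs, -, hg0, hg1⟩ := hin
  have hcm : c ≤ m := by linarith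
  have hq : ∀ x u : ℝ, 0 < u → |x| ≤ c * u → |x| ≤ m * u := fun x u hu h => h.trans (mul_le_mul_of_nonneg_right hcm hu.le)
  unfold keyS kF
  simp only [Finset.mem_product, Fintype.mem_piFinset, Finset.mem_univ, and_true]
  refine ⟨⟨fun k => fm0 hu2 (hq _ _ hu2 (hy k)) hA, fun k => fm0 hu2 (hq _ _ hu2 (hs k)) hA⟩,
    fm0 hu1 (hq _ _ hu1 hg0) hA, fm' hu2 (hq _ _ hu2 (hs _)) (by positivity) le_rfl hA,
    fm' (by positivity) hz (by positivity) le_rfl hA, fm' hu1 (hq _ _ hu1 hg1) (by positivity) le_rfl hA⟩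

theorem keyB_mem {c : ℝ} {m M A w : ℕ} {B : Cbx} {l : Ry} (hc : 1 ≤ c) (hm : 3 * c ≤ m) (hM : 2 ≤ (M : ℝ))
    (hA : m * M + 1 ≤ A) (hu2 : 0 < B.u2) (hin : Bin c B 0 l) : keyB M w B l ∈ kF A w := by
  have hz := zh_le hc hm hM hu2 hin
  obtain ⟨hy, hs, -, -, -⟩ := hin
  have hcm : c ≤ m := by linarith
  have hq : ∀ x u : ℝ, 0 < u → |x| ≤ c * u → |x| ≤ m * u := fun x u hu h => h.trans (mul_le_mul_of_nonneg_right hcm hu.le)
  unfold keyB kF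
  simp only [Finset.mem_product, Fintype.mem_piFinset, Finset.mem_univ, and_true]
  refine ⟨⟨fun k => fm0 hu2 (hq _ _ hu2 (hy k)) hA, fun k => fm0 hu2 (hq _ _ hu2 (hs k)) hA⟩, ?_,
    fm' hu2 (hq _ _ hu2 (hs _)) (by positivity) le_rfl hA,
    fm' (by positivity) hz (by positivity) le_rfl hA, fm' hu2 (hq _ _ hu2 (hs _)) (by positivity) le_rfl hA⟩
  rw [Finset.mem_Icc]
  constructor <;> omega

/-- shape and frame of a box -/
structure Sh (c : ℝ) (B : Cbx) (b R : ℕ) : Prop where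
  u2 : B.u2 = (1 / 2 : ℝ) ^ b
  u1 : B.u1 = (1 / 2 : ℝ) ^ R
  bR : b ≤ R
  α2 : |B.α| * B.u2 ≤ c
  κ2 : |B.κ| * B.u2 ≤ c

/-- **EXT, geometry** -/
theorem ext_geo {c c₁ : ℝ} (hc : 1 ≤ c) (hc₁ : 0 < c₁) : ∃ d N0 : ℕ, 1 ≤ N0 ∧ ∀ w : ℕ,
    ∃ (key : Cbx → Ry → KT) (F : Finset KT) (ref : Cbx → ℝ → KT → Cbx), F.card ≤ N0 * 2 ^ (3 * w) ∧
      ∀ (B : Cbx) (b R : ℕ) (l : Ry), Sh c B b R → Bin c B 0 l → key B l ∈ F ∧ ∀ τ : ℝ, 0 ≤ τ → τ ≤ 1 →
        (ref B τ (key B l)).u2 = (1 / 2 : ℝ) ^ (min (b + d) R + w) ∧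
        (ref B τ (key B l)).u1 = (1 / 2 : ℝ) ^ (R + w) ∧ Gd c₁ (ref B τ (key B l)) (dn w τ l) := by
  classical
  obtain ⟨d, M, N⟩ := exists_nm hc hc₁
  obtain ⟨m, hm⟩ := exists_nat_ge (3 * c)
  have hM2 : 2 ≤ (M : ℝ) := by
    have h1 := N.m1
    have h2 : 1 ≤ c ^ 4 := one_le_pow₀ hc
    linarith
  refine ⟨d, 2 * (2 * (m * M + 1) + 1) ^ 8, ?_, fun w => ?_⟩
  · have : 1 ≤ (2 * (m * M + 1) + 1) ^ 8 := Nat.one_le_pow _ _ (by omega)
    omega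
  have hpos : ∀ n : ℕ, (0 : ℝ) < (1 / 2) ^ n := fun n => by positivity
  set key : Cbx → Ry → KT := fun B l => if 2 ^ d * B.u1 ≤ B.u2 then keyS M w B l else keyB M w B l with hkey
  -- comparison of the shapes
  have hcmp : ∀ b R : ℕ, (2 : ℝ) ^ d * (1 / 2) ^ R ≤ (1 / 2) ^ b ↔ b + d ≤ R := by
    intro b R
    have e : (2 : ℝ) ^ d * (1 / 2) ^ R ≤ (1 / 2) ^ b ↔ (1 / 2 : ℝ) ^ R ≤ (1 / 2) ^ (b + d) := by
      have h2 : (2 : ℝ) ^ d * (1 / 2) ^ d = 1 := by rw [← mul_pow]; norm_num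
      have hd : (0 : ℝ) < 2 ^ d := by positivity
      constructor
      · intro h
        have h3 : (2 : ℝ) ^ d * (1 / 2) ^ R ≤ 2 ^ d * ((1 / 2) ^ (b + d)) := by
          rw [pow_add]
          calc (2 : ℝ) ^ d * (1 / 2) ^ R ≤ (1 / 2) ^ b := h
            _ = 2 ^ d * ((1 / 2) ^ b * (1 / 2) ^ d) := by
              rw [mul_left_comm, h2, mul_one]
        exact le_of_mul_le_mul_left h3 hd
      · intro h
        calc (2 : ℝ) ^ d * (1 / 2) ^ R ≤ 2 ^ d * (1 / 2) ^ (b + d) := mul_le_mul_of_nonneg_left h hd.le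
          _ = (1 / 2) ^ b := by rw [pow_add, mul_left_comm, h2, mul_one]
    rw [e]
    constructor
    · intro h
      by_contra hcon
      push Not at hcon
      exact absurd (pow_lt_pow_right_of_lt_one₀ (by norm_num : (0 : ℝ) < 1 / 2) (by norm_num) hcon) (not_lt.2 h)
    · exact fun h => pow_le_pow_of_le_one (by norm_num) (by norm_num) h
  have hdiv : ∀ p q : ℕ, (1 / 2 : ℝ) ^ p / 2 ^ q = (1 / 2) ^ (p + q) := by
    intro p q
    rw [pow_add, div_eq_mul_inv, ← inv_pow]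
    norm_num
  have hex : ∀ (B : Cbx) (κ : KT), ∃ A : ℝ → Cbx, ∀ (b R : ℕ) (l : Ry), Sh c B b R → Bin c B 0 l → key B l = κ →
      ∀ τ : ℝ, 0 ≤ τ → τ ≤ 1 → (A τ).u2 = (1 / 2 : ℝ) ^ (min (b + d) R + w) ∧ (A τ).u1 = (1 / 2 : ℝ) ^ (R + w) ∧
        Gd c₁ (A τ) (dn w τ l) := by
    intro B κ
    by_cases h : ∃ (b R : ℕ) (l0 : Ry), Sh c B b R ∧ Bin c B 0 l0 ∧ key B l0 = κ
    · obtain ⟨b0, R0, l0, hS0, hin0, hk0⟩ := h
      have hu2 : 0 < B.u2 := by rw [hS0.u2]; exact hpos _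
      have hu1 : 0 < B.u1 := by rw [hS0.u1]; exact hpos _
      have hu2c : B.u2 ≤ 1 := by rw [hS0.u2]; exact pow_le_one₀ (by norm_num) (by norm_num)
      by_cases hcase : 2 ^ d * B.u1 ≤ B.u2
      · obtain ⟨Lf, θ', hg⟩ := gd_slab (w := w) N hu2 hu2c hu1 hcase hS0.α2 hS0.κ2 hin0
        refine ⟨fun τ => bxS w d τ B l0 Lf θ', fun b R l hS hin hk τ h0 h1 => ⟨?_, ?_, ?_⟩⟩
        · have hbR : b + d ≤ R := by
            rw [← hcmp, ← hS.u1, ← hS.u2]; exact hcase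
          show B.u2 / 2 ^ (d + w) = _
          rw [hS.u2, hdiv, min_eq_left hbR, add_assoc]
        · show B.u1 / 2 ^ w = _
          rw [hS.u1, hdiv]
        · refine hg l ?_ τ h0 h1
          have h2 := hk.trans hk0.symm
          simp only [hkey] at h2
          rw [if_pos hcase, if_pos hcase] at h2
          exact h2
      · refine ⟨fun τ => bxB w τ B l0, fun b R l hS hin hk τ h0 h1 => ⟨?_, ?_, ?_⟩⟩
        · have hbR : R ≤ b + d := by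
            have : ¬ (b + d ≤ R) := by
              rw [← hcmp, ← hS.u1, ← hS.u2]; exact hcase
            omega
          show B.u1 / 2 ^ w = _
          rw [hS.u1, hdiv, min_eq_right hbR]
        · show B.u1 / 2 ^ w = _
          rw [hS.u1, hdiv]
        · refine gd_ball N hu2 hu1 (le_of_lt (not_le.1 hcase)) ?_ h0 h1
          have h2 := hk.trans hk0.symm
          simp only [hkey] at h2
          rw [if_neg hcase, if_neg hcase] at h2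
          exact h2
    · exact ⟨fun _ => B, fun b R l hS hin hk => absurd ⟨b, R, l, hS, hin, hk⟩ h⟩
  choose f hf using hex
  refine ⟨key, kF (m * M + 1) w, fun B τ κ => f B κ τ, kF_card _ _, fun B b R l hS hin => ⟨?_, fun τ h0 h1 => ?_⟩⟩
  · have hu2 : 0 < B.u2 := by rw [hS.u2]; exact hpos _
    have hu1 : 0 < B.u1 := by rw [hS.u1]; exact hpos _
    simp only [hkey]
    split_ifs
    · exact keyS_mem hc hm hM2 le_rfl hu2 hu1 hin
    · exact keyB_mem hc hm hM2 le_rfl hu2 hin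
  · exact hf B (key B l) b R l hS hin rfl τ h0 h1

/-- how the shape changes -/
def ShCh (d w : ℕ) (A W : Cbx) : Prop := ∀ b R : ℕ, W.u2 = (1 / 2 : ℝ) ^ b → W.u1 = (1 / 2 : ℝ) ^ R → b ≤ R →
  A.u2 = (1 / 2 : ℝ) ^ (min (b + d) R + w) ∧ A.u1 = (1 / 2 : ℝ) ^ (R + w)

/-- **EXT, labels** : the label `A` of level `a` is a function of `(W, t_(a+w))` and `≤ 3 w + O(1)` digits -/
theorem ext_law {c c₁ : ℝ} (hc : 1 ≤ c) (hc₁ : 0 < c₁) : ∃ (d : ℕ) (K : ℝ), 0 ≤ K ∧ ∀ {Ω : Type} [Fintype Ω] (P : Law Ω)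
    (l : Ω → Ry) (t : Ω → ℝ) (L a w : ℕ) (W : Ω → Cbx), (∀ ω, 0 < P.w ω → LbOk c L (a + w) (W ω) (l ω) (t ω)) →
    ∃ A : Ω → Cbx, (∀ ω, 0 < P.w ω → LbOk c₁ L a (A ω) (l ω) (t ω) ∧ ShCh d w (A ω) (W ω)) ∧
      Stk.hc P A (fun ω => (W ω, fl1 (a + w) (t ω))) ≤ 3 * w * Real.log 2 + K := by
  classical
  obtain ⟨d, N0, hN0, hgeo⟩ := ext_geo hc hc₁
  have hN0' : (1 : ℝ) ≤ N0 := by exact_mod_cast hN0
  refine ⟨d, Real.log N0, Real.log_nonneg hN0', ?_⟩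
  intro Ω _ P l t L a w W hW
  obtain ⟨key, F, ref, hF, hk⟩ := hgeo w
  have hsh : ∀ ω, 0 < P.w ω → ∃ b R : ℕ, Sh c (W ω) b R ∧ a + w + R ≤ L := fun ω hω => by
    obtain ⟨⟨b, R, h1, h2, h3, h4⟩, h5, h6, -⟩ := hW ω hω
    exact ⟨b, R, ⟨h1, h2, h3, h5, h6⟩, h4⟩
  refine ⟨fun ω => ref (W ω) (tau a w (t ω)) (key (W ω) (bl (a + w) (l ω) (t ω))), fun ω hω => ⟨?_, ?_⟩, ?_⟩
  · obtain ⟨b, R, hS, hL⟩ := hsh ω hω
    obtain ⟨g1, g2, g3⟩ := (hk (W ω) b R (bl (a + w) (l ω) (t ω)) hS (hW ω hω).inn).2 (tau a w (t ω)) (tau_nonneg _ _ _)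
      (tau_le _ _ _)
    refine ⟨⟨min (b + d) R + w, R + w, g1, g2, by omega, by omega⟩, g3.α2, g3.κ2, ?_⟩
    rw [bl_dn a w]
    exact g3.inn
  · intro b R h1 h2 h3
    have hS : Sh c (W ω) b R := ⟨h1, h2, h3, (hW ω hω).α2, (hW ω hω).κ2⟩
    obtain ⟨g1, g2, g3⟩ := (hk (W ω) b R (bl (a + w) (l ω) (t ω)) hS (hW ω hω).inn).2 (tau a w (t ω)) (tau_nonneg _ _ _)
      (tau_le _ _ _)
    exact ⟨g1, g2⟩
  · have h1 : Stk.hc P (fun ω => ref (W ω) (tau a w (t ω)) (key (W ω) (bl (a + w) (l ω) (t ω))))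
        (fun ω => (W ω, fl1 (a + w) (t ω))) ≤
        Stk.hc P (fun ω => key (W ω) (bl (a + w) (l ω) (t ω))) (fun ω => (W ω, fl1 (a + w) (t ω))) := by
      refine Stk.hc_mono_left P ?_
      intro ω ω' _ _ h
      simp only [Prod.mk.injEq] at h
      obtain ⟨h1, h2, h3⟩ := h
      show ref (W ω) (tau a w (t ω)) _ = ref (W ω') (tau a w (t ω')) _
      rw [h1, h2, tau_fn a w _ _ h3]
    have h2 : Stk.hc P (fun ω => key (W ω) (bl (a + w) (l ω) (t ω))) (fun ω => (W ω, fl1 (a + w) (t ω))) ≤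
        Real.log ((N0 * 2 ^ (3 * w) : ℕ) : ℝ) := by
      refine Stk.hc_le_log P _ _ _ fun ω _ => ⟨F, hF, fun ω' hω' _ => ?_⟩
      obtain ⟨b, R, hS, -⟩ := hsh ω' hω'
      exact (hk (W ω') b R (bl (a + w) (l ω') (t ω')) hS (hW ω' hω').inn).1
    have h3 : Real.log ((N0 * 2 ^ (3 * w) : ℕ) : ℝ) = 3 * w * Real.log 2 + Real.log N0 := by
      push_cast
      rw [Real.log_mul (by positivity) (by positivity), Real.log_pow]
      push_cast
      ring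
    linarith

section val

variable {Ω : Type} [Fintype Ω] {γ : Type}

theorem log_half (n : ℕ) : Real.log ((1 / 2 : ℝ) ^ n) = -(n * Real.log 2) := by
  rw [Real.log_pow, one_div, Real.log_inv]
  ring

/-- entropy of the ray -/
theorem ext_hc (P : Law Ω) (l : Ω → Ry) (t : Ω → ℝ) (C : Ω → γ) (a w : ℕ) (W A : Ω → Cbx) {x : ℝ}
    (h : Stk.hc P A (fun ω => (W ω, fl1 (a + w) (t ω))) ≤ x) :
    Stk.hc P l (fun ω => (W ω, fl1 (a + w) (t ω), C ω)) ≤ Stk.hc P l (fun ω => (A ω, fl1 a (t ω), C ω)) + x := by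
  have h1 := Stk.hc_le_add' P l A (fun ω => (W ω, fl1 (a + w) (t ω), C ω))
  have h2 : Stk.hc P l (fun ω => (A ω, W ω, fl1 (a + w) (t ω), C ω)) ≤ Stk.hc P l (fun ω => (A ω, fl1 a (t ω), C ω)) := by
    refine Stk.hc_mono_right P l ?_
    intro ω ω' _ _ e
    simp only [Prod.mk.injEq] at e ⊢
    obtain ⟨e1, -, e3, e4⟩ := e
    refine ⟨e1, ?_, e4⟩
    have e5 := floor_pow_aux (Nat.le_add_right a w) (t ω)
    have e6 := floor_pow_aux (Nat.le_add_right a w) (t ω')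
    have e7 : ⌊(2 : ℝ) ^ (a + w) * t ω⌋ = ⌊(2 : ℝ) ^ (a + w) * t ω'⌋ := e3
    show ⌊(2 : ℝ) ^ a * t ω⌋ = ⌊(2 : ℝ) ^ a * t ω'⌋
    rw [e5, e6, e7]
  have h3 : Stk.hc P A (fun ω => (W ω, fl1 (a + w) (t ω), C ω)) ≤ Stk.hc P A (fun ω => (W ω, fl1 (a + w) (t ω))) := by
    refine Stk.hc_mono_right P A ?_
    intro ω ω' _ _ e
    simp only [Prod.mk.injEq] at e ⊢
    exact ⟨e.1, e.2.1⟩
  linarith

/-- entropy of the shape -/
theorem ext_shp (P : Law Ω) (l : Ω → Ry) (t : Ω → ℝ) (C : Ω → γ) {c : ℝ} (L a w d : ℕ) (W A : Ω → Cbx)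
    (hW : ∀ ω, 0 < P.w ω → LbOk c L (a + w) (W ω) (l ω) (t ω)) (hA : ∀ ω, 0 < P.w ω → ShCh d w (A ω) (W ω)) :
    Stk.hc P (fun ω => shp (W ω)) (fun ω => (l ω, fl1 (a + w) (t ω), C ω)) ≤
      Stk.hc P (fun ω => shp (A ω)) (fun ω => (l ω, fl1 a (t ω), C ω)) + Real.log (d + 1) := by
  classical
  have h1 : Stk.hc P (fun ω => shp (W ω)) (fun ω => (l ω, fl1 (a + w) (t ω), C ω)) ≤
      Stk.hc P (fun ω => shp (W ω)) (fun ω => (l ω, fl1 a (t ω), C ω)) := by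
    refine Stk.hc_mono_right P _ ?_
    intro ω ω' _ _ e
    simp only [Prod.mk.injEq] at e ⊢
    obtain ⟨e1, e3, e4⟩ := e
    refine ⟨e1, ?_, e4⟩
    have e5 := floor_pow_aux (Nat.le_add_right a w) (t ω)
    have e6 := floor_pow_aux (Nat.le_add_right a w) (t ω')
    have e7 : ⌊(2 : ℝ) ^ (a + w) * t ω⌋ = ⌊(2 : ℝ) ^ (a + w) * t ω'⌋ := e3
    show ⌊(2 : ℝ) ^ a * t ω⌋ = ⌊(2 : ℝ) ^ a * t ω'⌋
    rw [e5, e6, e7]
  have h2 := Stk.hc_le_add P (fun ω => shp (W ω)) (fun ω => shp (A ω)) (fun ω => (l ω, fl1 a (t ω), C ω))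
  have h3 : Stk.hc P (fun ω => shp (W ω)) (fun ω => (shp (A ω), l ω, fl1 a (t ω), C ω)) ≤ Real.log ((d + 1 : ℕ) : ℝ) := by
    refine Stk.hc_le_log P _ _ _ fun ω _ => ?_
    refine ⟨(Finset.range (d + 1)).image fun i => ((shp (A ω)).1 * 2 ^ w, (shp (A ω)).2 * 2 ^ w * 2 ^ i),
      Finset.card_image_le.trans (by rw [Finset.card_range]), fun ω' hω' e => ?_⟩
    simp only [Prod.mk.injEq] at e
    rw [← e.1, Finset.mem_image]
    obtain ⟨b, R, g1, g2, g3, -⟩ := (hW ω' hω').sh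
    obtain ⟨s1, s2⟩ := hA ω' hω' b R g1 g2 g3
    refine ⟨min (b + d) R - b, by rw [Finset.mem_range]; omega, ?_⟩
    have h2 : ∀ p q : ℕ, (1 / 2 : ℝ) ^ (p + q) * 2 ^ q = (1 / 2) ^ p := by
      intro p q
      rw [pow_add, mul_assoc, ← mul_pow]
      norm_num
    unfold shp
    simp only [Prod.mk.injEq]
    refine ⟨?_, ?_⟩
    · rw [s2, g2, h2]
    · rw [s1, g1, h2]
      have e3 : min (b + d) R = b + (min (b + d) R - b) := by omega
      calc (1 / 2 : ℝ) ^ (min (b + d) R) * 2 ^ (min (b + d) R - b) =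
          (1 / 2 : ℝ) ^ (b + (min (b + d) R - b)) * 2 ^ (min (b + d) R - b) := by rw [← e3]
        _ = (1 / 2) ^ b := h2 _ _
  push_cast at h3
  linarith

/-- distance of the shapes -/
theorem ext_dsh {d w : ℕ} {c : ℝ} {L a : ℕ} {A W : Cbx} {l : Ry} {t : ℝ} (hW : LbOk c L a W l t) (hA : ShCh d w A W)
    (e : ℕ × ℕ) : dsh A e ≤ dsh W e + (2 * w + d) * Real.log 2 := by
  obtain ⟨b, R, g1, g2, g3, -⟩ := hW.sh
  obtain ⟨s1, s2⟩ := hA b R g1 g2 g3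
  unfold dsh
  rw [g1, g2, s1, s2, log_half, log_half, log_half, log_half]
  have h2 : 0 < Real.log 2 := Real.log_pos (by norm_num)
  have hm1 : b ≤ min (b + d) R := by omega
  have hm2 : min (b + d) R ≤ b + d := min_le_left _ _
  set m := min (b + d) R
  have hm1' : (b : ℝ) ≤ m := by exact_mod_cast hm1
  have hm2' : (m : ℝ) ≤ b + d := by exact_mod_cast hm2
  have t1 : |-(((m + w : ℕ) : ℝ) * Real.log 2) + e.1 * Real.log 2| ≤
      |-((b : ℝ) * Real.log 2) + e.1 * Real.log 2| + (w + d) * Real.log 2 := by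
    have e1 : -(((m + w : ℕ) : ℝ) * Real.log 2) + e.1 * Real.log 2 =
        (-((b : ℝ) * Real.log 2) + e.1 * Real.log 2) + -((m - b + w) * Real.log 2) := by push_cast; ring
    rw [e1]
    refine (abs_add_le _ _).trans ?_
    have : |-((m - b + w) * Real.log 2)| ≤ (w + d) * Real.log 2 := by
      rw [abs_neg, abs_of_nonneg (mul_nonneg (by have : (0:ℝ) ≤ w := Nat.cast_nonneg w; linarith) h2.le)]
      exact mul_le_mul_of_nonneg_right (by linarith) h2.le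
    linarith
  have t2 : |-(((R + w : ℕ) : ℝ) * Real.log 2) + e.2 * Real.log 2| ≤
      |-((R : ℝ) * Real.log 2) + e.2 * Real.log 2| + w * Real.log 2 := by
    have e1 : -(((R + w : ℕ) : ℝ) * Real.log 2) + e.2 * Real.log 2 =
        (-((R : ℝ) * Real.log 2) + e.2 * Real.log 2) + -(w * Real.log 2) := by push_cast; ring
    rw [e1]
    refine (abs_add_le _ _).trans ?_
    have : |-(w * Real.log 2)| = w * Real.log 2 := by rw [abs_neg, abs_of_nonneg (by positivity)]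
    linarith
  linarith

/-- cost of the size -/
theorem ext_size {d w : ℕ} {c lam : ℝ} (h0 : 0 ≤ lam) {L a : ℕ} {A W : Cbx} {l : Ry} {t : ℝ}
    (hW : LbOk c L a W l t) (hA : ShCh d w A W) :
    (3 + lam) * Real.log A.u2 + (1 - lam) * Real.log A.u1 ≤
      (3 + lam) * Real.log W.u2 + (1 - lam) * Real.log W.u1 - 4 * w * Real.log 2 := by
  obtain ⟨b, R, g1, g2, g3, -⟩ := hW.sh
  obtain ⟨s1, s2⟩ := hA b R g1 g2 g3
  rw [g1, g2, s1, s2, log_half, log_half, log_half, log_half]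
  have h2 : 0 < Real.log 2 := Real.log_pos (by norm_num)
  have hm1 : b ≤ min (b + d) R := by omega
  set m := min (b + d) R
  have hm1' : (b : ℝ) ≤ m := by exact_mod_cast hm1
  push_cast
  have h3 : (3 + lam) * ((b : ℝ) * Real.log 2) ≤ (3 + lam) * ((m : ℝ) * Real.log 2) :=
    mul_le_mul_of_nonneg_left (mul_le_mul_of_nonneg_right hm1' h2.le) (by linarith)
  nlinarith

/-- **EXT for one label** -/
theorem ext_valX {c lam k La K : ℝ} (h0 : 0 ≤ lam) (hk : 0 ≤ k) (hLa : 0 ≤ La) {d : ℕ} (P : Law Ω) (l : Ω → Ry)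
    (t : Ω → ℝ) (C : Ω → γ) (e : Ω → ℕ × ℕ) {L a w : ℕ} {W A : Ω → Cbx}
    (hW : ∀ ω, 0 < P.w ω → LbOk c L (a + w) (W ω) (l ω) (t ω)) (hA : ∀ ω, 0 < P.w ω → ShCh d w (A ω) (W ω))
    (h : Stk.hc P A (fun ω => (W ω, fl1 (a + w) (t ω))) ≤ 3 * w * Real.log 2 + K) :
    valX lam k La P l t C (a + w) e W ≤ valX lam k La P l t C a e A + (2 + 2 * k) * w * Real.log 2 +
      (K + k * (d * Real.log 2) + La * Real.log (d + 1)) := by
  have a1 := ext_hc P l t C a w W A h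
  have a2 := mul_le_mul_of_nonneg_left (ext_shp P l t C L a w d W A hW hA) hLa
  have a3 : P.ex (fun ω => dsh (A ω) (e ω)) ≤ P.ex (fun ω => dsh (W ω) (e ω)) + (2 * w + d) * Real.log 2 := by
    have := P.ex_mono (f := fun ω => dsh (A ω) (e ω)) (g := fun ω => dsh (W ω) (e ω) + (2 * w + d) * Real.log 2)
      fun ω hω => ext_dsh (hW ω hω) (hA ω hω) (e ω)
    rwa [P.ex_add, P.ex_const] at this
  have a4 : P.ex (fun ω => (3 + lam) * Real.log (A ω).u2 + (1 - lam) * Real.log (A ω).u1) ≤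
      P.ex (fun ω => (3 + lam) * Real.log (W ω).u2 + (1 - lam) * Real.log (W ω).u1) - 4 * w * Real.log 2 := by
    have := P.ex_mono (f := fun ω => (3 + lam) * Real.log (A ω).u2 + (1 - lam) * Real.log (A ω).u1)
      (g := fun ω => ((3 + lam) * Real.log (W ω).u2 + (1 - lam) * Real.log (W ω).u1) + -(4 * w * Real.log 2))
      fun ω hω => by
        have := ext_size h0 (hW ω hω) (hA ω hω)
        linarith
    have e3 := P.ex_add (fun ω => (3 + lam) * Real.log (W ω).u2 + (1 - lam) * Real.log (W ω).u1)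
      (fun _ => -(4 * w * Real.log 2))
    rw [e3, P.ex_const] at this
    linarith
  have a5 := mul_le_mul_of_nonneg_left a3 hk
  unfold valX val
  push_cast
  nlinarith

end val

/-- **EXT and change of the class** for `XX` -/
theorem ext_X {c c₁ lam : ℝ} (hc : 1 ≤ c) (hc₁ : 0 < c₁) (h0 : 0 ≤ lam) (h1 : lam ≤ 1) : ∃ K : ℝ, 0 ≤ K ∧
    ∀ (Ω : Type) [Fintype Ω] (γ : Type) (P : Law Ω) (l : Ω → Ry) (t : Ω → ℝ) (C : Ω → γ) (e : Ω → ℕ × ℕ) (L a w : ℕ)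
      (k La : ℝ), 0 ≤ k → 0 ≤ La → a + w ≤ L →
    XX c lam k La P l t C e L (a + w) ≤ XX c₁ lam k La P l t C e L a + (2 + 2 * k) * w * Real.log 2 + (1 + La + k) * K := by
  obtain ⟨d, K, hK, h⟩ := ext_law hc hc₁
  have h2 : 0 < Real.log 2 := Real.log_pos (by norm_num)
  have hd1 : 0 ≤ Real.log ((d : ℝ) + 1) := Real.log_nonneg (by have : (0:ℝ) ≤ d := Nat.cast_nonneg d; linarith)
  have hd2 : 0 ≤ (d : ℝ) * Real.log 2 := by positivity
  refine ⟨K + d * Real.log 2 + Real.log (d + 1), by positivity, ?_⟩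
  intro Ω _ γ P l t C e L a w k La hk hLa haw
  refine H875.XX_le (by linarith) haw fun Ω' _ P' π W g1 g2 => ?_
  obtain ⟨A, hA1, hA2⟩ := h P' (fun ω => l (π ω)) (fun ω => t (π ω)) L a w W g2
  have q1 := ext_valX h0 hk hLa P' (fun ω => l (π ω)) (fun ω => t (π ω)) (fun ω => C (π ω)) (fun ω => e (π ω)) g2
    (fun ω hω => (hA1 ω hω).2) hA2
  have q2 := H875.valX_le_XX (C := C) (e := e) h0 h1 hk hLa g1 (fun ω hω => (hA1 ω hω).1)
  have q3 : K + k * (d * Real.log 2) + La * Real.log (d + 1) ≤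
      (1 + La + k) * (K + d * Real.log 2 + Real.log (d + 1)) := by
    have p1 : 0 ≤ La * K := by positivity
    have p2 : 0 ≤ k * K := by positivity
    have p3 : 0 ≤ La * (d * Real.log 2) := by positivity
    have p4 : 0 ≤ k * Real.log ((d : ℝ) + 1) := by positivity
    nlinarith
  linarith

/-- the same box with a larger cap -/
theorem lbOk_wide {c : ℝ} {L a : ℕ} {A : Cbx} {l : Ry} {t : ℝ} (h : LbOk c L a A l t) {b' m R d : ℕ} (h1 : A.u2 = (1 / 2 : ℝ) ^ m)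
    (h2 : A.u1 = (1 / 2 : ℝ) ^ R) (hb : b' ≤ m) (hm : m ≤ b' + d) (hc : 0 ≤ c) :
    LbOk (c * 2 ^ d) L a { A with u2 := (1 / 2 : ℝ) ^ b' } l t := by
  obtain ⟨⟨b0, R0, s1, s2, s3, s4⟩, hα, hκ, hy, hs, hz, hg0, hg1⟩ := h
  have hinj : ∀ p q : ℕ, (1 / 2 : ℝ) ^ p = (1 / 2) ^ q → p = q := fun p q e =>
    pow_right_injective₀ (by norm_num : (0 : ℝ) < 1 / 2) (by norm_num) e
  have e1 : b0 = m := hinj _ _ (s1.symm.trans h1)
  have e2 : R0 = R := hinj _ _ (s2.symm.trans h2)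
  subst e1 e2
  have hle : (1 / 2 : ℝ) ^ b0 ≤ (1 / 2) ^ b' := pow_le_pow_of_le_one (by norm_num) (by norm_num) hb
  have hge : (1 / 2 : ℝ) ^ b' ≤ 2 ^ d * (1 / 2) ^ b0 := by
    have h3 : (1 / 2 : ℝ) ^ (b' + d) ≤ (1 / 2) ^ b0 := pow_le_pow_of_le_one (by norm_num) (by norm_num) hm
    have h4 : (2 : ℝ) ^ d * (1 / 2) ^ (b' + d) = (1 / 2) ^ b' := by
      rw [pow_add, mul_left_comm, ← mul_pow]; norm_num
    rw [← h4]
    exact mul_le_mul_of_nonneg_left h3 (by positivity)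
  have h2d : (1 : ℝ) ≤ 2 ^ d := one_le_pow₀ (by norm_num)
  have hcd : c ≤ c * 2 ^ d := le_mul_of_one_le_right hc h2d
  have hp : (0 : ℝ) < (1 / 2) ^ b0 := by positivity
  have hp' : (0 : ℝ) < (1 / 2) ^ b' := by positivity
  rw [s1] at hα hκ hy hs hz
  have hfr : ∀ x : ℝ, |x| * (1 / 2) ^ b0 ≤ c → |x| * (1 / 2) ^ b' ≤ c * 2 ^ d := by
    intro x hx
    calc |x| * (1 / 2) ^ b' ≤ |x| * (2 ^ d * (1 / 2) ^ b0) := mul_le_mul_of_nonneg_left hge (abs_nonneg _)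
      _ = (|x| * (1 / 2) ^ b0) * 2 ^ d := by ring
      _ ≤ c * 2 ^ d := mul_le_mul_of_nonneg_right hx (by positivity)
  refine ⟨⟨b', R0, rfl, s2, by omega, s4⟩, hfr _ hα, hfr _ hκ, fun k => (hy k).trans ?_, fun k => (hs k).trans ?_,
    hz.trans ?_, hg0.trans ?_, hg1.trans ?_⟩
  · exact mul_le_mul hcd hle hp.le (by positivity)
  · exact mul_le_mul hcd hle hp.le (by positivity)
  · exact mul_le_mul hcd (max_le_max (pow_le_pow_left₀ hp.le hle 2) le_rfl) (le_max_right _ _) (by positivity)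
  · exact mul_le_mul_of_nonneg_right hcd (by rw [s2]; positivity)
  · exact mul_le_mul_of_nonneg_right hcd (by rw [s2]; positivity)

/-- **EXT, labels, exact shape** `(b + w, R + w)`, class `c'` -/
theorem ext_lab {c : ℝ} (hc : 1 ≤ c) : ∃ c' K : ℝ, c ≤ c' ∧ 0 ≤ K ∧ ∀ {Ω : Type} [Fintype Ω] {γ : Type} (P : Law Ω)
    (l : Ω → Ry) (t : Ω → ℝ) (C : Ω → γ) (L a w : ℕ) (W : Ω → Cbx),
    (∀ ω, 0 < P.w ω → LbOk c L (a + w) (W ω) (l ω) (t ω)) →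
    ∃ A : Ω → Cbx, (∀ ω, 0 < P.w ω → LbOk c' L a (A ω) (l ω) (t ω) ∧ (A ω).u2 = (W ω).u2 * (1 / 2) ^ w ∧
        (A ω).u1 = (W ω).u1 * (1 / 2) ^ w) ∧
      Stk.hc P A (fun ω => (W ω, fl1 (a + w) (t ω))) ≤ 3 * w * Real.log 2 + K ∧
      ∀ lam : ℝ, val lam P l t C (a + w) W ≤ val lam P l t C a A + 2 * w * Real.log 2 + K := by
  classical
  obtain ⟨d, K, hK, h⟩ := ext_law hc (by linarith : 0 < c)
  refine ⟨c * 2 ^ d, K, le_mul_of_one_le_right (by linarith) (one_le_pow₀ (by norm_num)), hK, ?_⟩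
  intro Ω _ γ P l t C L a w W hW
  obtain ⟨A, hA1, hA2⟩ := h P l t L a w W hW
  have hsh : ∀ ω, 0 < P.w ω → (A ω).u1 = (W ω).u1 * (1 / 2) ^ w ∧
      LbOk (c * 2 ^ d) L a { A ω with u2 := (W ω).u2 * (1 / 2) ^ w } (l ω) (t ω) := by
    intro ω hω
    obtain ⟨b, R, g1, g2, g3, -⟩ := (hW ω hω).sh
    obtain ⟨s1, s2⟩ := (hA1 ω hω).2 b R g1 g2 g3
    refine ⟨by rw [s2, g2, pow_add], ?_⟩
    rw [g1, ← pow_add]
    exact lbOk_wide (hA1 ω hω).1 s1 s2 (by omega) (by have := min_le_left (b + d) R; omega) (by linarith)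
  set A' : Ω → Cbx := fun ω => { A ω with u2 := (W ω).u2 * (1 / 2) ^ w } with hA'
  have hH : Stk.hc P A' (fun ω => (W ω, fl1 (a + w) (t ω))) ≤ 3 * w * Real.log 2 + K := by
    refine (Stk.hc_mono_left P ?_).trans hA2
    intro ω ω' _ _ e
    simp only [Prod.mk.injEq] at e
    simp only [hA', e.1, e.2.1]
  refine ⟨A', fun ω hω => ⟨(hsh ω hω).2, rfl, (hsh ω hω).1⟩, hH, fun lam => ?_⟩
  have a1 := ext_hc P l t C a w W A' hH
  have h2 : Real.log ((1 / 2 : ℝ) ^ w) = -(w * Real.log 2) := log_half w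
  have a2 : P.ex (fun ω => (3 + lam) * Real.log (A' ω).u2 + (1 - lam) * Real.log (A' ω).u1) =
      P.ex (fun ω => (3 + lam) * Real.log (W ω).u2 + (1 - lam) * Real.log (W ω).u1) - 4 * w * Real.log 2 := by
    have e1 : P.ex (fun ω => (3 + lam) * Real.log (A' ω).u2 + (1 - lam) * Real.log (A' ω).u1) =
        P.ex (fun ω => ((3 + lam) * Real.log (W ω).u2 + (1 - lam) * Real.log (W ω).u1) + -(4 * w * Real.log 2)) := by
      refine P.ex_congr fun ω hω => ?_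
      obtain ⟨b, R, g1, g2, g3, -⟩ := (hW ω hω).sh
      have p1 : (W ω).u2 ≠ 0 := by rw [g1]; positivity
      have p2 : (W ω).u1 ≠ 0 := by rw [g2]; positivity
      have q1 : (A' ω).u1 = (W ω).u1 * (1 / 2) ^ w := (hsh ω hω).1
      have q2 : (A' ω).u2 = (W ω).u2 * (1 / 2) ^ w := rfl
      rw [q1, q2, Real.log_mul p1 (by positivity), Real.log_mul p2 (by positivity), h2]
      ring
    have e3 := P.ex_add (fun ω => (3 + lam) * Real.log (W ω).u2 + (1 - lam) * Real.log (W ω).u1)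
      (fun _ => -(4 * w * Real.log 2))
    rw [e1, e3, P.ex_const]
    ring
  unfold val
  rw [a2]
  push_cast
  linarith

/-- **EXT** -/
theorem pExtX : PExtX := by
  intro c lam hc h0 h1
  obtain ⟨K, hK, h⟩ := ext_X hc (by linarith : 0 < c) h0 h1
  exact ⟨K, hK, fun Ω _ γ P l t C e L a w k La hk hLa haw _ => h Ω γ P l t C e L a w k La hk hLa haw⟩

/-- **change of the class** -/
theorem cls_X {c c₁ lam : ℝ} (hc : 1 ≤ c) (hc₁ : 0 < c₁) (h0 : 0 ≤ lam) (h1 : lam ≤ 1) : ∃ K : ℝ, 0 ≤ K ∧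
    ∀ (Ω : Type) [Fintype Ω] (γ : Type) (P : Law Ω) (l : Ω → Ry) (t : Ω → ℝ) (C : Ω → γ) (e : Ω → ℕ × ℕ) (L a : ℕ)
      (k La : ℝ), 0 ≤ k → 0 ≤ La → a ≤ L →
    XX c lam k La P l t C e L a ≤ XX c₁ lam k La P l t C e L a + (1 + La + k) * K := by
  obtain ⟨K, hK, h⟩ := ext_X hc hc₁ h0 h1
  refine ⟨K, hK, fun Ω _ γ P l t C e L a k La hk hLa ha => ?_⟩
  have := h Ω γ P l t C e L a 0 k La hk hLa (by omega)
  simpa using this

end Vale.Agent.P106.U.H513
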