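import Vale.Agent.P106.U.H513.SIr
import Vale.Agent.P106.U.H833.WinS
import Vale.Agent.P106.U.H931.SC
import Vale.Agent.P106.U.H336.SwF

/-!
# P106 / U / H513 : row [SI], kind 0, the two sums of 833's `I1O`, `I2O` (helper513)

* `gO` : the admissible pairs; `sum_pairs5` : double sums as sums over pairs.
* `si1`, `si2` : the two sums over a run.
* **`si_rec`** : over `RunOk`, `F2o`, `NumN`, both sums in the form `D h/B + K' (m + μ + 1) q2 (μ/8) (C h/m) + X1` of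
  652's `ev_kind`, `D = siD L1 Lb`, `C = siC K K1 L1 L2 Lb`, `X1 = siX L1 L2 pv`.
* **`si_sw`** : the same, pure levels = old levels outside 336's `SwL`.
-/

set_option autoImplicit false

namespace Vale.Agent.P106.U.H513

open Finset Vale.Agent.P127 Vale.Agent.P127.Stk Vale.Agent.P127.U Vale.Agent.P106.W Vale.Agent.P106.K Vale.Agent.P106.U
open Vale.Agent.P106.U.Cell
open Vale.Agent.P127.U.CellD (q2 rd Nb q2_pos q2_add q2_le)
open Vale.Agent.P106.U.H118 (Sdat)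
open Vale.Agent.P106.U.H931 (lvi Prs Adm nx)
open Vale.Agent.P106.U.H833 (aN RN kN fN mixed isPhi isKap I1N I2N NumN lx AdmO I1O I2O)
open Vale.Agent.P106.U.H101 (lc low)
open Vale.Agent.P106.U.S3 (Run Pf F2o F2b exc lv)
open Vale.Agent.P106.U.S5
open Vale.Agent.P106.U.H823
open Vale.Agent.P106.U.MIC (bc ix nz az rz ix_mono)

section pairs

/-- double sums as sums over pairs -/
theorem sum_pairs5 (N L : ℕ) (P : ℕ → ℕ → Prop) [∀ j k, Decidable (P j k)] (F : ℕ → ℕ → ℝ)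
    (hP : ∀ j k, P j k → j < k ∧ k ≤ j + L ∧ k ≤ N) :
    ∑ j ∈ range N, ∑ k ∈ Ioc j (j + L), (if P j k then F j k else 0) =
      ∑ q ∈ (range N ×ˢ range (N + 1)).filter (fun q => P q.1 q.2), F q.1 q.2 := by
  classical
  rw [Finset.sum_filter, Finset.sum_product]
  refine Finset.sum_congr rfl fun j _ => ?_
  have e1 : ∑ k ∈ Ioc j (j + L), (if P j k then F j k else 0) =
      ∑ k ∈ Ioc j (j + L) ∪ range (N + 1), (if P j k then F j k else 0) := by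
    refine Finset.sum_subset Finset.subset_union_left fun k _ hk => ?_
    rw [if_neg]
    intro h
    have := hP j k h
    exact hk (Finset.mem_Ioc.2 ⟨this.1, this.2.1⟩)
  have e2 : ∑ k ∈ range (N + 1), (if P j k then F j k else 0) =
      ∑ k ∈ Ioc j (j + L) ∪ range (N + 1), (if P j k then F j k else 0) := by
    refine Finset.sum_subset Finset.subset_union_right fun k _ hk => ?_
    rw [if_neg]
    intro h
    have := hP j k h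
    exact hk (Finset.mem_range.2 (by omega))
  rw [e1, ← e2]

variable {N L1 L2 Kr Lk : ℕ} {a : ℕ → ℕ} {pu : ℕ → Prop}

theorem admO_le {j k : ℕ} (h : AdmO N a pu L1 L2 Kr Lk j k) : j < k ∧ k ≤ j + L1 ∧ k ≤ N := by
  obtain ⟨h1, h2, ⟨i1, h3, h4, _⟩, _⟩ := h
  exact ⟨h1, h2, by omega⟩

open Classical in
/-- the admissible pairs -/
noncomputable def gO (N : ℕ) (a : ℕ → ℕ) (pu : ℕ → Prop) (L1 L2 Kr Lk : ℕ) : Finset (ℕ × ℕ) :=
  (range N ×ˢ range (N + 1)).filter fun q => AdmO N a pu L1 L2 Kr Lk q.1 q.2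

theorem mem_gO {q : ℕ × ℕ} (h : q ∈ gO N a pu L1 L2 Kr Lk) : AdmO N a pu L1 L2 Kr Lk q.1 q.2 := by
  classical
  unfold gO at h
  exact (Finset.mem_filter.1 h).2

theorem prs_gO : Prs ((Lk + 1) / 2) L1 L2 N a (gO N a pu L1 L2 Kr Lk) where
  lt := fun q hq => (mem_gO hq).1
  le := fun q hq => (mem_gO hq).2.1
  hn := fun q hq => (admO_le (mem_gO hq)).2.2
  adm := fun q hq => by
    obtain ⟨_, _, ⟨i1, h3, h4, h5, h6⟩, _⟩ := mem_gO hq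
    exact ⟨i1, h4, by omega, h5⟩

end pairs

section sums

variable {Ω : Type} [Fintype Ω] {τ υ π : Type} {R : Run Ω τ υ} {p : Run.Num} {K c' g' gU : ℝ}

/-- **[SI], kind 0, first information** -/
theorem si1 (h : R.Ok p K c' g' gU) {f : ℕ → ℕ} (hf : Monotone f) {N : ℕ} (hN : f N ≤ R.n)
    (hs : ∀ i j, i < j → j ≤ N → f i < f j) (h1 : 1 ≤ K) {x : ℕ} (hx : R.m * x ≤ p.B₁) {γ : ℕ → Prop}
    (D : Sdat N γ (fun i => aN R (f i)) (fun i => RN R x (f i))) {Mu Wd Kr Lk L1 L2 pv : ℕ}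
    (b8 : 8 * R.C.μ ≤ R.m * x) (r8 : 8 * R.C.μ ≤ R.r0) (hMu : 4 * R.C.μ ≤ R.m * Mu) (hMu0 : 0 < Mu)
    (hKr : p.J * Mu ≤ Kr) (hLk : Kr + 2 * (p.J * Mu) ≤ Lk) (hWd : 1 ≤ Wd) (hWd2 : 2 * R.C.μ ≤ R.m * Wd)
    {K' E : ℝ} (h2 : 640 * K ^ 7 ≤ K') (h3 : 32 * K ^ 5 ≤ K')
    (hE : ∑ k ∈ range (R.n + p.J + 1), exc R.Q R.C K' k (R.m * x) ≤ E) (pu : ℕ → Prop)
    (hpu : ∀ t ≤ N, pu (aN R (f t)) → ¬ mixed R x Wd (f t)) :
    ∑ j ∈ range N, ∑ k ∈ Ioc j (j + L1),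
        I1O R.Q (R.C.re f hf) (R.m * x) pv N (fun i => aN R (f i)) pu L1 L2 Kr Lk j k ≤
      2 * (L1 * (L2 * (pv * Real.log 2))) +
        (L1 : ℝ) * (3 * L2 + 2) * ((cNe K + cSl K) * Real.sqrt ((N + 1) * E)) := by
  classical
  have hJ := h.pth.J1
  have hKn : 0 < p.J * Mu := Nat.mul_pos hJ hMu0
  have e1 : ∑ j ∈ range N, ∑ k ∈ Ioc j (j + L1),
      I1O R.Q (R.C.re f hf) (R.m * x) pv N (fun i => aN R (f i)) pu L1 L2 Kr Lk j k =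
      ∑ q ∈ gO N (fun i => aN R (f i)) pu L1 L2 Kr Lk,
        I1N R.Q (R.C.re f hf) (R.m * x) pv q.1 (rdx N (fun i => aN R (f i)) Kr q.2) :=
    sum_pairs5 N L1 (fun j k => AdmO N (fun i => aN R (f i)) pu L1 L2 Kr Lk j k)
      (fun j k => I1N R.Q (R.C.re f hf) (R.m * x) pv j (lx N (fun i => aN R (f i)) Kr k)) fun j k hjk => admO_le hjk
  rw [e1]
  refine si1_G h hf hN hs h1 hx D b8 r8 hMu hMu0 hKr (K1 := (Lk + 1) / 2) (by omega) hWd hWd2 h2 h3 hE prs_gO ?_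
  intro q hq t t1 t2
  obtain ⟨a1, a2, ⟨i1, a3, a4, a5, a6⟩, a7⟩ := mem_gO hq
  obtain ⟨_, f2, _⟩ := rdx_spec D (by omega : 0 < Kr) (by omega : Kr < 2 * ((Lk + 1) / 2)) (a3.trans a4)
    (prs_gO.adm q hq)
  have b1 := rdx_le N (fun i => aN R (f i)) Kr q.2
  refine hpu t (by omega) (a7 _ (D.am t1 (by omega)) ?_)
  have b2 := D.am t2 b1
  show aN R (f t) ≤ aN R (f q.2) + Lk
  have b3 : aN R (f t) ≤ aN R (f (rdx N (fun i => aN R (f i)) Kr q.2)) := b2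
  have b4 : aN R (f (rdx N (fun i => aN R (f i)) Kr q.2)) = aN R (f q.2) + Kr := f2
  omega

/-- **[SI], kind 0, second information** (`b' = bS`) -/
theorem si2 (hP : R.Path p) {f : ℕ → ℕ} (hf : Monotone f) {N : ℕ} (hN : f N ≤ R.n)
    (hs : ∀ i j, i < j → j ≤ N → f i < f j) {γ : ℕ → Prop} {r : ℕ → ℕ} (D : Sdat N γ (fun i => aN R (f i)) r)
    (hA : ∀ i < N, aN R (f (i + 1)) = aN R (f i) + 1 → R.IsA (f i))
    {B bS bV μ Kr Lk L1 L2 Lb : ℕ} {F : Pf R π} {Vs Xs : Finset ℕ} {K' : ℝ} {o : Fin 7 → ℝ} {o' : ℕ → ℝ}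
    (Fo : F2o R p B bS bV F Vs Xs μ K' o o') (h0 : 0 < Kr) (hLk : Kr < Lk) (hLb : L1 + Kr ≤ Lb)
    (hLbB : Lb ≤ B) (pu : ℕ → Prop) (hold : ∀ k ≤ R.n, pu (aN R k) → lv R k ∉ Vs ∧ lv R k ∉ Xs)
    (hB : ∀ k i, k ≤ i → i ≤ R.n → pu (aN R k) → aN R i ≤ aN R k + Lb → i ≤ k + B) :
    ∑ j ∈ range N, ∑ k ∈ Ioc j (j + L1),
        I2O R.Q ((lc R.C μ o).re f hf) (R.m * R.b1) bS N (fun i => aN R (f i)) pu L1 L2 Kr Lk j k ≤
      (L1 : ℝ) * ∑ d ∈ range (Lb + 1), F2b R p B μ K' d := by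
  classical
  have e1 : ∑ j ∈ range N, ∑ k ∈ Ioc j (j + L1),
      I2O R.Q ((lc R.C μ o).re f hf) (R.m * R.b1) bS N (fun i => aN R (f i)) pu L1 L2 Kr Lk j k =
      ∑ q ∈ gO N (fun i => aN R (f i)) pu L1 L2 Kr Lk,
        I2N R.Q ((lc R.C μ o).re f hf) (R.m * R.b1) bS q.1 (rdx N (fun i => aN R (f i)) Kr q.2) :=
    sum_pairs5 N L1 (fun j k => AdmO N (fun i => aN R (f i)) pu L1 L2 Kr Lk j k)
      (fun j k => I2N R.Q ((lc R.C μ o).re f hf) (R.m * R.b1) bS j (lx N (fun i => aN R (f i)) Kr k))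
      fun j k hjk => admO_le hjk
  rw [e1]
  -- a pair
  have hq : ∀ q ∈ gO N (fun i => aN R (f i)) pu L1 L2 Kr Lk, q.1 + 1 ≤ rdx N (fun i => aN R (f i)) Kr q.2 ∧
      pu (aN R (f (q.1 + 1))) ∧
      aN R (f (rdx N (fun i => aN R (f i)) Kr q.2)) ≤ aN R (f (q.1 + 1)) + Lb := by
    intro q hq
    obtain ⟨a1, a2, ⟨i1, a3, a4, a5, a6⟩, a7⟩ := mem_gO hq
    obtain ⟨f1, f2, _⟩ := rdx_spec D h0 (by omega : Kr < 2 * ((Lk + 1) / 2)) (a3.trans a4) (prs_gO.adm q hq)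
    have g1 : aN R (f q.1) ≤ aN R (f (q.1 + 1)) := D.am (by omega : q.1 ≤ q.1 + 1) (by omega)
    have g2 : aN R (f (q.1 + 1)) ≤ aN R (f q.2) := D.am (by omega : q.1 + 1 ≤ q.2) (by omega)
    have g3 : aN R (f q.2) ≤ aN R (f q.1) + (q.2 - q.1) := by
      have := D.al (i := q.1) (j := q.2) (by omega) (by omega)
      omega
    have g4 : aN R (f (rdx N (fun i => aN R (f i)) Kr q.2)) = aN R (f q.2) + Kr := f2
    exact ⟨by omega, a7 _ g1 (by show aN R (f (q.1 + 1)) ≤ aN R (f q.2) + Lk; omega), by omega⟩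
  refine si2_G hP hf hN hs D hA Fo h0 (K1 := (Lk + 1) / 2) (by omega) hLb hLbB prs_gO ?_ ?_
  · intro q hqG
    obtain ⟨g1, g2, g3⟩ := hq q hqG
    have b1 := rdx_le N (fun i => aN R (f i)) Kr q.2
    exact hold _ ((hf (g1.trans b1)).trans hN) g2
  · intro q hqG
    obtain ⟨g1, g2, g3⟩ := hq q hqG
    have b1 := rdx_le N (fun i => aN R (f i)) Kr q.2
    exact hB _ _ (hf g1) ((hf b1).trans hN) g2 g3

end sums

section num

/-- `√(q2 (μ / 4)) ≤ q2 (μ / 8)` -/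
theorem sqrt_q2_quarter (μ : ℕ) : Real.sqrt (q2 (μ / 4)) ≤ q2 (μ / 8) := by
  have h1 : q2 (μ / 4) ≤ q2 (μ / 8) ^ 2 := by
    have e : q2 (μ / 8) ^ 2 = q2 (2 * (μ / 8)) := by
      rw [two_mul, q2_add]
      ring
    rw [e]
    exact q2_le (by omega)
  refine (Real.sqrt_le_sqrt h1).trans (le_of_eq ?_)
  exact Real.sqrt_sq (q2_pos _).le

/-- the root of the exceptional sums -/
theorem sqrt_off {N n K' : ℝ} {μ : ℕ} (hN : 0 ≤ N) (hNn : N ≤ n) (hK' : 0 ≤ K') :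
    Real.sqrt (N * (K' ^ 2 * n * q2 (μ / 4))) ≤ K' * n * q2 (μ / 8) := by
  have hn : 0 ≤ n := hN.trans hNn
  have hq := (q2_pos (μ / 4)).le
  have e1 : N * (K' ^ 2 * n * q2 (μ / 4)) ≤ (K' * n) ^ 2 * q2 (μ / 4) := by
    have : N * (K' ^ 2 * n * q2 (μ / 4)) ≤ n * (K' ^ 2 * n * q2 (μ / 4)) :=
      mul_le_mul_of_nonneg_right hNn (by positivity)
    refine this.trans (le_of_eq ?_)
    ring
  refine (Real.sqrt_le_sqrt e1).trans ?_
  rw [Real.sqrt_mul (by positivity), Real.sqrt_sq (by positivity)]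
  exact mul_le_mul_of_nonneg_left (sqrt_q2_quarter μ) (by positivity)

/-- the constant in front of `K' (m + μ + 1) q2 (μ / 8) (h / m)` -/
noncomputable def siC (K K1 : ℝ) (L1 L2 Lb : ℕ) : ℝ :=
  (2 * K1 + 4) * (L1 * (3 * L2 + 2) * (cNe K + cSl K) + L1 * ((Lb : ℝ) + 1) ^ 3)

/-- the constant in front of `h / B` -/
noncomputable def siD (L1 Lb : ℕ) : ℝ := L1 * ((Lb : ℝ) + 1)

/-- the constant term -/
noncomputable def siX (L1 L2 pv : ℕ) : ℝ := 2 * (L1 * (L2 * (pv * Real.log 2)))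

theorem siC_nonneg {K K1 : ℝ} (h : 0 ≤ 2 * K1 + 4) (L1 L2 Lb : ℕ) : 0 ≤ siC K K1 L1 L2 Lb := by
  unfold siC
  have h1 := cNe_nonneg K
  have h2 := cSl_nonneg K
  positivity

theorem siD_nonneg (L1 Lb : ℕ) : 0 ≤ siD L1 Lb := by
  unfold siD
  positivity

theorem siX_nonneg (L1 L2 pv : ℕ) : 0 ≤ siX L1 L2 pv := by
  unfold siX
  have := Real.log_nonneg (by norm_num : (1 : ℝ) ≤ 2)
  positivity

end num

section rec

variable {σ : Cst} {ε : ℝ} {ρ : Thr} {m B : ℕ} {Ω : Type} [Fintype Ω] {Q : Law Ω} {l : Ω → Ry} {t : Ω → ℝ}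
  {L h q r0 Rn : ℕ} {W : Ω → Cbx} {τ υ π : Type} {R : Run Ω τ υ} {pn : Run.Num} {g' gU e κ₀ : ℝ} {a1 r1 : ℕ}

/-- the compressed path is strictly increasing -/
theorem ix_strict5 (hP : R.Path pn) {i0 : ℕ} : ∀ i j, i < j → j ≤ nz R i0 → ix R i0 i < ix R i0 j := by
  intro i j hij hj
  unfold nz at hj
  exact Cmp.idx_strict hP (by omega : i0 + i < i0 + j) (by omega)

theorem ix_le5 (i0 j : ℕ) : ix R i0 j ≤ R.n := Cmp.idx_le (R := R) (x := R.b1) (i0 + j)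

theorem ix_isA5 (hP : R.Path pn) {i0 : ℕ} : ∀ i < nz R i0, aN R (ix R i0 (i + 1)) = aN R (ix R i0 i) + 1 →
    R.IsA (ix R i0 i) := by
  intro i hi h1
  unfold nz at hi
  rcases Cmp.step2 (x := R.b1) hP (j := i0 + i) (by omega) with ⟨h2, _⟩ | ⟨_, h3, _⟩
  · exact h2
  · exfalso
    have h4 : aN R (ix R i0 (i + 1)) = aN R (ix R i0 i) := h3
    omega

/-- **[SI], kind 0, over the record**, in the form of 652's `ev_kind` -/
theorem si_rec (hρ : ρ.Ok) (H : RunOk σ ε ρ m B Q l t L h q r0 Rn W R pn g' gU e κ₀ a1 r1)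
    (hJ : (m : ℝ) * (ρ.J + 1) ≤ h) (hm : 0 < m) {bS bV μ : ℕ} {F : Pf R π} {Vs Xs : Finset ℕ} {K' : ℝ} {o : Fin 7 → ℝ}
    {o' : ℕ → ℝ} (Fo : F2o R pn B bS bV F Vs Xs μ K' o o') (hK' : (100 * ρ.K) ^ 20 ≤ K')
    {cc M s c0 g pv b' Mu Wd Kr Lb : ℕ} (Nn : NumN (low R μ o) pn ρ.K cc R.b1 M s c0 g pv b' Mu Wd Kr Lb)
    (hμ : μ ≤ R.C.μ) {i0 : ℕ} {γ : ℕ → Prop} (D : Sdat (nz R i0) γ (az R i0) (rz R i0)) {L1 L2 Lk : ℕ}
    (hLk : Kr + 2 * (pn.J * Mu) ≤ Lk) (hLb : L1 + Kr ≤ Lb) (hLbB : Lb ≤ B) (pu : ℕ → Prop)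
    (hpu : ∀ y ≤ nz R i0, pu (az R i0 y) → ¬ mixed R R.b1 Wd (ix R i0 y))
    (hold : ∀ k ≤ R.n, pu (aN R k) → lv R k ∉ Vs ∧ lv R k ∉ Xs)
    (hB : ∀ k i, k ≤ i → i ≤ R.n → pu (aN R k) → aN R i ≤ aN R k + Lb → i ≤ k + B) :
    ∑ j ∈ range (nz R i0), ∑ k ∈ Ioc j (j + L1),
        I1O R.Q ((low R μ o).C.re (ix R i0) (ix_mono R i0)) (R.m * R.b1) pv (nz R i0) (az R i0) pu L1 L2 Kr Lk j k ≤
      siD L1 Lb * ((h : ℝ) / B) + K' * (m + μ + 1) * q2 (μ / 8) * (siC ρ.K σ.K1 L1 L2 Lb * ((h : ℝ) / m)) +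
        siX L1 L2 pv ∧
    ∑ j ∈ range (nz R i0), ∑ k ∈ Ioc j (j + L1),
        I2O R.Q ((low R μ o).C.re (ix R i0) (ix_mono R i0)) (R.m * R.b1) bS (nz R i0) (az R i0) pu L1 L2 Kr Lk j k ≤
      siD L1 Lb * ((h : ℝ) / B) + K' * (m + μ + 1) * q2 (μ / 8) * (siC ρ.K σ.K1 L1 L2 Lb * ((h : ℝ) / m)) +
        siX L1 L2 pv := by
  have hP := H.ok.pth
  have hJ1 := hP.J1
  have hK1 := hρ.K1
  have hmR := H.hm
  have hK0 : (0 : ℝ) ≤ ρ.K := by linarith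
  have hK100 : (1 : ℝ) ≤ 100 * ρ.K := by linarith
  have hK'0 : (0 : ℝ) ≤ K' := le_trans (by positivity) hK'
  have k7 : 640 * ρ.K ^ 7 ≤ K' := by
    refine le_trans ?_ hK'
    have e1 : (100 * ρ.K) ^ 7 ≤ (100 * ρ.K) ^ 20 := pow_le_pow_right₀ hK100 (by norm_num)
    refine le_trans ?_ e1
    rw [mul_pow]
    exact mul_le_mul_of_nonneg_right (by norm_num) (by positivity)
  have k5 : 32 * ρ.K ^ 5 ≤ K' := by
    refine le_trans ?_ hK'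
    have e1 : (100 * ρ.K) ^ 5 ≤ (100 * ρ.K) ^ 20 := pow_le_pow_right₀ hK100 (by norm_num)
    refine le_trans ?_ e1
    rw [mul_pow]
    exact mul_le_mul_of_nonneg_right (by norm_num) (by positivity)
  have n8 : 8 * μ ≤ R.m * Mu := Nn.Mu8
  have nx : R.m * Mu ≤ R.m * R.b1 := Nat.mul_le_mul_left _ Nn.Mux
  have nr : 8 * μ ≤ R.r0 := Nn.r0
  have nK := Nn.Kr1
  have nW2 := Nn.W2
  have nμ : 1 ≤ μ := by
    have e1 : cc * (g + c0 + 1) ≤ μ := Nn.hμ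
    have e2 := Nn.cc8
    have e3 : 1 ≤ cc * (g + c0 + 1) := Nat.mul_pos (by omega) (by omega)
    omega
  have nMu : 0 < Mu := by
    rcases Nat.eq_zero_or_pos Mu with h0 | h0
    · rw [h0] at n8
      omega
    · exact h0
  have nWm : R.m * Mu ≤ R.m * Wd := Nat.mul_le_mul_left _ (by omega)
  -- the number of the indices
  have hnN : nz R i0 + 1 ≤ R.n + pn.J + 1 := by
    unfold nz
    have := Cmp.Nc_le hP (x := R.b1)
    omega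
  have hn : ((R.n : ℝ) + pn.J + 1) ≤ (2 * σ.K1 + 4) * ((h : ℝ) / m) := by
    have e1 := H931.n_le H
    have hm0 : (0 : ℝ) < m := by exact_mod_cast hm
    rw [← mul_div_assoc, le_div_iff₀ hm0, H.hJ]
    nlinarith
  have hn0 : (0 : ℝ) ≤ (R.n : ℝ) + pn.J + 1 := by positivity
  have hx0 := siX_nonneg L1 L2 pv
  have hD0 := siD_nonneg L1 Lb
  have hq0 := (q2_pos (μ / 8)).le
  have hw1 : (1 : ℝ) ≤ (m : ℝ) + μ + 1 := by
    have : (0 : ℝ) ≤ (m : ℝ) + μ := by positivity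
    linarith
  have hL1 : (0 : ℝ) ≤ L1 := Nat.cast_nonneg _
  have hL2 : (0 : ℝ) ≤ L2 := Nat.cast_nonneg _
  have hne := cNe_nonneg ρ.K
  have hsl := cSl_nonneg ρ.K
  have hhB : (0 : ℝ) ≤ (h : ℝ) / B := by positivity
  have hK14 : 0 ≤ (2 * σ.K1 + 4) * ((h : ℝ) / m) := hn0.trans hn
  constructor
  · -- first information
    have hok := H101.low_ok o hμ H.ok
    have hE : ∑ k ∈ range ((low R μ o).n + pn.J + 1), exc (low R μ o).Q (low R μ o).C K' k ((low R μ o).m * R.b1) ≤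
        K' ^ 2 * (R.n + pn.J + 1) * q2 (μ / 4) := by
      refine le_trans (Finset.sum_le_sum fun k _ => ?_) Fo.off
      have := exc_nonneg R.Q (lc R.C μ o) K' k bS
      show exc R.Q (lc R.C μ o) K' k (R.m * R.b1) ≤ _
      linarith
    have s := si1 (R := low R μ o) hok (f := ix R i0) (ix_mono R i0) (N := nz R i0) (ix_le5 i0 _)
      (ix_strict5 hP) hK1 (x := R.b1) Nn.hx D (Mu := Mu) (Wd := Wd) (Kr := Kr) (Lk := Lk) (L1 := L1) (L2 := L2) (pv := pv)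
      (le_trans n8 nx) nr (by show 4 * μ ≤ R.m * Mu; omega) nMu (by omega) hLk (by omega)
      (by show 2 * μ ≤ R.m * Wd; omega) k7 k5 hE pu hpu
    refine le_trans s ?_
    have e1 : Real.sqrt (((nz R i0 : ℕ) + 1 : ℝ) * (K' ^ 2 * (R.n + pn.J + 1) * q2 (μ / 4))) ≤
        K' * (R.n + pn.J + 1) * q2 (μ / 8) :=
      sqrt_off (by positivity) (by exact_mod_cast hnN) hK'0
    have e2 : K' * (R.n + pn.J + 1) * q2 (μ / 8) ≤ K' * ((2 * σ.K1 + 4) * ((h : ℝ) / m)) * q2 (μ / 8) :=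
      mul_le_mul_of_nonneg_right (mul_le_mul_of_nonneg_left hn hK'0) hq0
    have e3 : (L1 : ℝ) * (3 * L2 + 2) * ((cNe ρ.K + cSl ρ.K) *
        Real.sqrt (((nz R i0 : ℕ) + 1 : ℝ) * (K' ^ 2 * (R.n + pn.J + 1) * q2 (μ / 4)))) ≤
        (L1 : ℝ) * (3 * L2 + 2) * ((cNe ρ.K + cSl ρ.K) * (K' * ((2 * σ.K1 + 4) * ((h : ℝ) / m)) * q2 (μ / 8))) := by
      refine mul_le_mul_of_nonneg_left (mul_le_mul_of_nonneg_left (e1.trans e2) (by positivity)) (by positivity)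
    have e4 : (L1 : ℝ) * (3 * L2 + 2) * ((cNe ρ.K + cSl ρ.K) * (K' * ((2 * σ.K1 + 4) * ((h : ℝ) / m)) * q2 (μ / 8))) ≤
        K' * (m + μ + 1) * q2 (μ / 8) * (siC ρ.K σ.K1 L1 L2 Lb * ((h : ℝ) / m)) := by
      have g1 : (L1 : ℝ) * (3 * L2 + 2) * (cNe ρ.K + cSl ρ.K) ≤
          L1 * (3 * L2 + 2) * (cNe ρ.K + cSl ρ.K) + L1 * ((Lb : ℝ) + 1) ^ 3 := by
        have : (0 : ℝ) ≤ L1 * ((Lb : ℝ) + 1) ^ 3 := by positivity
        linarith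
      have g2 : 0 ≤ K' * q2 (μ / 8) * ((2 * σ.K1 + 4) * ((h : ℝ) / m)) := by positivity
      have g3 := mul_le_mul_of_nonneg_right g1 g2
      have g4 : 0 ≤ (L1 * (3 * L2 + 2) * (cNe ρ.K + cSl ρ.K) + L1 * ((Lb : ℝ) + 1) ^ 3) *
          (K' * q2 (μ / 8) * ((2 * σ.K1 + 4) * ((h : ℝ) / m))) := by positivity
      have g5 := mul_le_mul_of_nonneg_left hw1 g4
      unfold siC
      calc _ = (L1 : ℝ) * (3 * L2 + 2) * (cNe ρ.K + cSl ρ.K) * (K' * q2 (μ / 8) * ((2 * σ.K1 + 4) * ((h : ℝ) / m))) := by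
            ring
        _ ≤ _ := g3
        _ = _ := (mul_one _).symm
        _ ≤ _ := g5
        _ = _ := by ring
    have e5 : 0 ≤ siD L1 Lb * ((h : ℝ) / B) := by positivity
    unfold siX
    linarith
  · -- second information
    have s := si2 hP (f := ix R i0) (ix_mono R i0) (N := nz R i0) (ix_le5 i0 _) (ix_strict5 hP) D (ix_isA5 hP) Fo
      (Kr := Kr) (Lk := Lk) (L1 := L1) (L2 := L2) (Lb := Lb) (by omega)
      (by have : 0 < pn.J * Mu := Nat.mul_pos hJ1 nMu; omega) hLb hLbB pu hold hB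
    refine le_trans s ?_
    have e1 : ∑ d ∈ range (Lb + 1), F2b R pn B μ K' d ≤
        ((Lb : ℝ) + 1) * ((h : ℝ) / B) + ((Lb : ℝ) + 1) ^ 3 * K' * (m + μ + 1) * q2 (μ / 8) * (R.n + pn.J + 1) := by
      have g := H652.F2bs_le (h := (h : ℝ)) (B := (B : ℝ)) (K := K') (m := (m : ℝ)) (μ := (μ : ℝ)) (q := q2 (μ / 8))
        (n := (R.n : ℝ) + pn.J + 1) hK'0 (by positivity) hq0 hn0 Lb
      refine le_trans (le_of_eq (Finset.sum_congr rfl fun d _ => ?_)) g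
      unfold F2b
      rw [H.hh, hmR]
    have e2 : ((Lb : ℝ) + 1) ^ 3 * K' * (m + μ + 1) * q2 (μ / 8) * (R.n + pn.J + 1) ≤
        ((Lb : ℝ) + 1) ^ 3 * K' * (m + μ + 1) * q2 (μ / 8) * ((2 * σ.K1 + 4) * ((h : ℝ) / m)) :=
      mul_le_mul_of_nonneg_left hn (by positivity)
    have e3 := mul_le_mul_of_nonneg_left (e1.trans (add_le_add le_rfl e2)) hL1
    have e4 : (0 : ℝ) ≤ L1 * (3 * L2 + 2) * (cNe ρ.K + cSl ρ.K) *
        (K' * (m + μ + 1) * q2 (μ / 8) * ((2 * σ.K1 + 4) * ((h : ℝ) / m))) := by positivity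
    have e5 : siD L1 Lb * ((h : ℝ) / B) + K' * (m + μ + 1) * q2 (μ / 8) * (siC ρ.K σ.K1 L1 L2 Lb * ((h : ℝ) / m)) =
        (L1 : ℝ) * (((Lb : ℝ) + 1) * ((h : ℝ) / B) + ((Lb : ℝ) + 1) ^ 3 * K' * (m + μ + 1) * q2 (μ / 8) *
          ((2 * σ.K1 + 4) * ((h : ℝ) / m))) + L1 * (3 * L2 + 2) * (cNe ρ.K + cSl ρ.K) *
        (K' * (m + μ + 1) * q2 (μ / 8) * ((2 * σ.K1 + 4) * ((h : ℝ) / m))) := by
      unfold siD siC
      ring
    linarith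

/-- **[SI], kind 0, over the record**, pure levels = old levels outside 336's set `SwL` -/
theorem si_sw (hρ : ρ.Ok) (H : RunOk σ ε ρ m B Q l t L h q r0 Rn W R pn g' gU e κ₀ a1 r1)
    (hJ : (m : ℝ) * (ρ.J + 1) ≤ h) (hm : 0 < m) {bS bV μ : ℕ} {F : Pf R π} {Vs Xs : Finset ℕ} {K' : ℝ} {o : Fin 7 → ℝ}
    {o' : ℕ → ℝ} (H2 : S3.F2 R pn ρ.K B bS bV F Vs Xs) (Fo : F2o R pn B bS bV F Vs Xs μ K' o o')
    (hK' : (100 * ρ.K) ^ 20 ≤ K')
    {cc M s c0 g pv b' Mu Wd Kr Lb : ℕ} (Nn : NumN (low R μ o) pn ρ.K cc R.b1 M s c0 g pv b' Mu Wd Kr Lb)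
    (hμ : μ ≤ R.C.μ) {i0 : ℕ} {γ : ℕ → Prop} (D : Sdat (nz R i0) γ (az R i0) (rz R i0)) {L1 L2 Lk Lw : ℕ}
    (hLk : Kr + 2 * (pn.J * Mu) ≤ Lk) (hLb : L1 + Kr ≤ Lb) (hLbB : Lb ≤ B) (hLw : Lb ≤ Lw) (hWB : Wd < B) (pu : ℕ → Prop)
    (hpu : ∀ z, pu z → z ∉ H336.SwL R B Vs Xs Lw ∧ z ∉ Vs) :
    ∑ j ∈ range (nz R i0), ∑ k ∈ Ioc j (j + L1),
        I1O R.Q ((low R μ o).C.re (ix R i0) (ix_mono R i0)) (R.m * R.b1) pv (nz R i0) (az R i0) pu L1 L2 Kr Lk j k ≤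
      siD L1 Lb * ((h : ℝ) / B) + K' * (m + μ + 1) * q2 (μ / 8) * (siC ρ.K σ.K1 L1 L2 Lb * ((h : ℝ) / m)) +
        siX L1 L2 pv ∧
    ∑ j ∈ range (nz R i0), ∑ k ∈ Ioc j (j + L1),
        I2O R.Q ((low R μ o).C.re (ix R i0) (ix_mono R i0)) (R.m * R.b1) bS (nz R i0) (az R i0) pu L1 L2 Kr Lk j k ≤
      siD L1 Lb * ((h : ℝ) / B) + K' * (m + μ + 1) * q2 (μ / 8) * (siC ρ.K σ.K1 L1 L2 Lb * ((h : ℝ) / m)) +
        siX L1 L2 pv := by
  have hP := H.ok.pth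
  refine si_rec hρ H hJ hm Fo hK' Nn hμ D hLk hLb hLbB pu ?_ ?_ ?_
  · intro y hy h1
    exact H336.pu_mixed H2 hP (by omega) hWB (ix_le5 i0 y) (hpu _ h1).1
  · intro k hk h1
    obtain ⟨g1, g2⟩ := hpu _ h1
    exact ⟨g2, (H336.not_swl (H833.aN_mono hP hk (by omega)) g1).2.1⟩
  · intro k i hki hi h1 h2
    have hkn := H833.aN_mono hP (hki.trans hi) (by omega)
    refine H336.steps (Vs := Vs) (Xs := Xs) (z0 := aN R k) (z1 := aN R k) le_rfl hkn hP (fun z z1 z2 => ?_) le_rfl le_rfl hki hi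
      (show aN R i ≤ aN R k + Lw by omega)
    have : z = aN R k := by omega
    rw [this]
    exact (hpu _ h1).1

end rec

end Vale.Agent.P106.U.H513
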