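import Vale.Agent.P106.U.H513.Ext

/-! # P106 / U / H513 : EXT with the frame of the label (helper513)

`Frm c d w τ A W` : in the slab case the frame of `A` (all coefficients) is the frame of `W` divided by a number `Lf` with
`|Lf - 1| ≤ 6 c² u1 / u2`. `ext_lab_fr` : `ext_lab` with this additional conclusion. -/

set_option autoImplicit false

namespace Vale.Agent.P106.U.H513

open Vale.Agent.P127 Vale.Agent.P127.Stk Vale.Agent.P127.U Vale.Agent.P106.W Vale.Agent.P106.K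
open Vale.Agent.P122.C2 (fn)

/-- the frame of `A` is the frame of `W`, seen in the large block, divided by `Lf` -/
def Frm (c : ℝ) (d w : ℕ) (τ : ℝ) (A W : Cbx) : Prop := 2 ^ d * W.u1 ≤ W.u2 →
  ∃ Lf : ℝ, 1 / 2 ≤ Lf ∧ |Lf - 1| ≤ 6 * c ^ 2 * (W.u1 / W.u2) ∧ A.κ = (dnB w τ W).κ / Lf ∧ A.α = (dnB w τ W).α / Lf ∧
    ∀ (p v : Fin 2 → ℝ) (k : Fin 2), A.nn p v k = (dnB w τ W).nn p v k / Lf

/-- the length of the normal -/
theorem len_close {c : ℝ} (hc : 1 ≤ c) {B : Cbx} (hu2 : 0 < B.u2) (hu1 : 0 < B.u1) (hα : |B.α| * B.u2 ≤ c)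
    (hκ : |B.κ| * B.u2 ≤ c) {l0 : Ry} (hin0 : Bin c B 0 l0) {L θ' : ℝ} (hL : 1 / 2 ≤ L)
    (n0 : B.nn l0.y l0.s 0 = -(L * Real.sin θ')) (n1 : B.nn l0.y l0.s 1 = L * Real.cos θ') :
    |L - 1| ≤ 6 * c ^ 2 * (B.u1 / B.u2) := by
  have hsq := B.nn_sq l0.y l0.s l0.z
  rw [n0, n1] at hsq
  have h := Real.sin_sq_add_cos_sq θ'
  have e : (-(L * Real.sin θ')) ^ 2 + (L * Real.cos θ') ^ 2 = L ^ 2 := by
    linear_combination L ^ 2 * h
  rw [e] at hsq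
  obtain ⟨-, -, -, hg0, hg1⟩ := hin0
  have hg0' : |B.g0 l0.y l0.s l0.z| ≤ c * B.u1 := hg0
  have hg1' : |B.g1 l0.y l0.s l0.z| ≤ c * B.u1 := hg1
  have hc0 : 0 < c := by linarith
  have key : ∀ x y : ℝ, |x| * B.u2 ≤ c → |y| ≤ c * B.u1 → |x * y| ≤ c ^ 2 * (B.u1 / B.u2) := by
    intro x y hx hy
    rw [abs_mul]
    have e2 : c ^ 2 * (B.u1 / B.u2) = c * (c * B.u1) / B.u2 := by ring
    rw [e2, le_div_iff₀ hu2]
    calc |x| * |y| * B.u2 = (|x| * B.u2) * |y| := by ring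
      _ ≤ c * (c * B.u1) := mul_le_mul hx hy (abs_nonneg _) hc0.le
  have k1 := key _ _ hκ hg1'
  have k2 := key _ _ hα hg0'
  have hL2 : |L ^ 2 - 1| ≤ 6 * c ^ 2 * (B.u1 / B.u2) := by
    rw [hsq]
    have e3 : 1 + 2 * B.κ * B.g1 l0.y l0.s l0.z - 4 * B.α * B.g0 l0.y l0.s l0.z - 1 =
        2 * (B.κ * B.g1 l0.y l0.s l0.z) - 4 * (B.α * B.g0 l0.y l0.s l0.z) := by ring
    rw [e3]
    refine (abs_sub _ _).trans ?_
    rw [abs_mul (2 : ℝ), abs_mul (4 : ℝ), abs_of_pos (by norm_num : (0 : ℝ) < 2), abs_of_pos (by norm_num : (0 : ℝ) < 4)]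
    linarith
  have h3 : |L - 1| * 1 ≤ |L - 1| * (L + 1) := mul_le_mul_of_nonneg_left (by linarith) (abs_nonneg _)
  have e4 : |L ^ 2 - 1| = |L - 1| * (L + 1) := by
    have : L ^ 2 - 1 = (L - 1) * (L + 1) := by ring
    rw [this, abs_mul, abs_of_pos (by linarith : 0 < L + 1)]
  linarith

theorem frm_bxS {c : ℝ} {d w : ℕ} {τ : ℝ} {B : Cbx} {l0 : Ry} {L θ' : ℝ} (hL : 1 / 2 ≤ L)
    (hLc : |L - 1| ≤ 6 * c ^ 2 * (B.u1 / B.u2))
    (n0 : B.nn l0.y l0.s 0 = -(L * Real.sin θ')) (n1 : B.nn l0.y l0.s 1 = L * Real.cos θ') :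
    Frm c d w τ (bxS w d τ B l0 L θ') B := by
  intro _
  have hL0 : L ≠ 0 := by intro h; rw [h] at hL; norm_num at hL
  refine ⟨L, hL, hLc, rfl, rfl, fun p v k => ?_⟩
  have ey0 := congrFun (nn_dn w τ B l0) 0
  have ey1 := congrFun (nn_dn w τ B l0) 1
  rw [n0] at ey0
  rw [n1] at ey1
  rw [eq_div_iff hL0]
  fin_cases k
  · simp only [Fin.zero_eta]
    simp only [Cbx.nn, bxS, Matrix.cons_val_zero] at ey0 ⊢
    field_simp
    linear_combination (-1 : ℝ) * ey0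
  · simp only [Fin.mk_one]
    simp only [Cbx.nn, bxS, Matrix.cons_val_one, Matrix.cons_val_zero] at ey1 ⊢
    field_simp
    linear_combination (-1 : ℝ) * ey1

/-- **EXT, geometry**, with the frame -/
theorem ext_geo_fr {c c₁ : ℝ} (hc : 1 ≤ c) (hc₁ : 0 < c₁) : ∃ d N0 : ℕ, 1 ≤ N0 ∧ ∀ w : ℕ,
    ∃ (key : Cbx → Ry → KT) (F : Finset KT) (ref : Cbx → ℝ → KT → Cbx), F.card ≤ N0 * 2 ^ (3 * w) ∧
      ∀ (B : Cbx) (b R : ℕ) (l : Ry), Sh c B b R → Bin c B 0 l → key B l ∈ F ∧ ∀ τ : ℝ, 0 ≤ τ → τ ≤ 1 →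
        (ref B τ (key B l)).u2 = (1 / 2 : ℝ) ^ (min (b + d) R + w) ∧
        (ref B τ (key B l)).u1 = (1 / 2 : ℝ) ^ (R + w) ∧ Gd c₁ (ref B τ (key B l)) (dn w τ l) ∧
        Frm c d w τ (ref B τ (key B l)) B := by
  classical
  obtain ⟨d, M, N⟩ := exists_nm hc hc₁
  obtain ⟨m, hm⟩ := exists_nat_ge (3 * c)
  have hM2 : 2 ≤ (M : ℝ) := by
    have h1 := N.m1
    have h2 : 1 ≤ c ^ 4 := one_le_pow₀ hc
    linarith
  refine ⟨d, 2 * (2 * (m * M + 1) + 1) ^ 8, ?_, fun w => ?_⟩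
  · have : 1 ≤ (2 * (m * M + 1) + 1) ^ 8 := Nat.one_le_pow _ _ (by omega)
    omega
  have hpos : ∀ n : ℕ, (0 : ℝ) < (1 / 2) ^ n := fun n => by positivity
  set key : Cbx → Ry → KT := fun B l => if 2 ^ d * B.u1 ≤ B.u2 then keyS M w B l else keyB M w B l with hkey
  -- comparison of the shapes
  have hcmp : ∀ b R : ℕ, (2 : ℝ) ^ d * (1 / 2) ^ R ≤ (1 / 2) ^ b ↔ b + d ≤ R := by
    intro b R
    have e : (2 : ℝ) ^ d * (1 / 2) ^ R ≤ (1 / 2) ^ b ↔ (1 / 2 : ℝ) ^ R ≤ (1 / 2) ^ (b + d) := by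
      have h2 : (2 : ℝ) ^ d * (1 / 2) ^ d = 1 := by rw [← mul_pow]; norm_num
      have hd : (0 : ℝ) < 2 ^ d := by positivity
      constructor
      · intro h
        have h3 : (2 : ℝ) ^ d * (1 / 2) ^ R ≤ 2 ^ d * ((1 / 2) ^ (b + d)) := by
          rw [pow_add]
          calc (2 : ℝ) ^ d * (1 / 2) ^ R ≤ (1 / 2) ^ b := h
            _ = 2 ^ d * ((1 / 2) ^ b * (1 / 2) ^ d) := by
              rw [mul_left_comm, h2, mul_one]
        exact le_of_mul_le_mul_left h3 hd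
      · intro h
        calc (2 : ℝ) ^ d * (1 / 2) ^ R ≤ 2 ^ d * (1 / 2) ^ (b + d) := mul_le_mul_of_nonneg_left h hd.le
          _ = (1 / 2) ^ b := by rw [pow_add, mul_left_comm, h2, mul_one]
    rw [e]
    constructor
    · intro h
      by_contra hcon
      push Not at hcon
      exact absurd (pow_lt_pow_right_of_lt_one₀ (by norm_num : (0 : ℝ) < 1 / 2) (by norm_num) hcon) (not_lt.2 h)
    · exact fun h => pow_le_pow_of_le_one (by norm_num) (by norm_num) h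
  have hdiv : ∀ p q : ℕ, (1 / 2 : ℝ) ^ p / 2 ^ q = (1 / 2) ^ (p + q) := by
    intro p q
    rw [pow_add, div_eq_mul_inv, ← inv_pow]
    norm_num
  have hex : ∀ (B : Cbx) (κ : KT), ∃ A : ℝ → Cbx, ∀ (b R : ℕ) (l : Ry), Sh c B b R → Bin c B 0 l → key B l = κ →
      ∀ τ : ℝ, 0 ≤ τ → τ ≤ 1 → (A τ).u2 = (1 / 2 : ℝ) ^ (min (b + d) R + w) ∧ (A τ).u1 = (1 / 2 : ℝ) ^ (R + w) ∧
        Gd c₁ (A τ) (dn w τ l) ∧ Frm c d w τ (A τ) B := by
    intro B κ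
    by_cases h : ∃ (b R : ℕ) (l0 : Ry), Sh c B b R ∧ Bin c B 0 l0 ∧ key B l0 = κ
    · obtain ⟨b0, R0, l0, hS0, hin0, hk0⟩ := h
      have hu2 : 0 < B.u2 := by rw [hS0.u2]; exact hpos _
      have hu1 : 0 < B.u1 := by rw [hS0.u1]; exact hpos _
      have hu2c : B.u2 ≤ 1 := by rw [hS0.u2]; exact pow_le_one₀ (by norm_num) (by norm_num)
      by_cases hcase : 2 ^ d * B.u1 ≤ B.u2
      · obtain ⟨Lf, θ', ⟨f1, f2, f3⟩, hg⟩ := gd_slab' (w := w) N hu2 hu2c hu1 hcase hS0.α2 hS0.κ2 hin0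
        refine ⟨fun τ => bxS w d τ B l0 Lf θ', fun b R l hS hin hk τ h0 h1 => ⟨?_, ?_, ?_,
          frm_bxS f1 (len_close hc hu2 hu1 hS0.α2 hS0.κ2 hin0 f1 f2 f3) f2 f3⟩⟩
        · have hbR : b + d ≤ R := by
            rw [← hcmp, ← hS.u1, ← hS.u2]; exact hcase
          show B.u2 / 2 ^ (d + w) = _
          rw [hS.u2, hdiv, min_eq_left hbR, add_assoc]
        · show B.u1 / 2 ^ w = _
          rw [hS.u1, hdiv]
        · refine hg l ?_ τ h0 h1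
          have h2 := hk.trans hk0.symm
          simp only [hkey] at h2
          rw [if_pos hcase, if_pos hcase] at h2
          exact h2
      · refine ⟨fun τ => bxB w τ B l0, fun b R l hS hin hk τ h0 h1 => ⟨?_, ?_, ?_, fun h => absurd h hcase⟩⟩
        · have hbR : R ≤ b + d := by
            have : ¬ (b + d ≤ R) := by
              rw [← hcmp, ← hS.u1, ← hS.u2]; exact hcase
            omega
          show B.u1 / 2 ^ w = _
          rw [hS.u1, hdiv, min_eq_right hbR]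
        · show B.u1 / 2 ^ w = _
          rw [hS.u1, hdiv]
        · refine gd_ball N hu2 hu1 (le_of_lt (not_le.1 hcase)) ?_ h0 h1
          have h2 := hk.trans hk0.symm
          simp only [hkey] at h2
          rw [if_neg hcase, if_neg hcase] at h2
          exact h2
    · exact ⟨fun _ => B, fun b R l hS hin hk => absurd ⟨b, R, l, hS, hin, hk⟩ h⟩
  choose f hf using hex
  refine ⟨key, kF (m * M + 1) w, fun B τ κ => f B κ τ, kF_card _ _, fun B b R l hS hin => ⟨?_, fun τ h0 h1 => ?_⟩⟩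
  · have hu2 : 0 < B.u2 := by rw [hS.u2]; exact hpos _
    have hu1 : 0 < B.u1 := by rw [hS.u1]; exact hpos _
    simp only [hkey]
    split_ifs
    · exact keyS_mem hc hm hM2 le_rfl hu2 hu1 hin
    · exact keyB_mem hc hm hM2 le_rfl hu2 hin
  · exact hf B (key B l) b R l hS hin rfl τ h0 h1

/-- **EXT, labels** : the label `A` of level `a` is a function of `(W, t_(a+w))` and `≤ 3 w + O(1)` digits -/
theorem ext_law_fr {c c₁ : ℝ} (hc : 1 ≤ c) (hc₁ : 0 < c₁) : ∃ (d : ℕ) (K : ℝ), 0 ≤ K ∧ ∀ {Ω : Type} [Fintype Ω] (P : Law Ω)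
    (l : Ω → Ry) (t : Ω → ℝ) (L a w : ℕ) (W : Ω → Cbx), (∀ ω, 0 < P.w ω → LbOk c L (a + w) (W ω) (l ω) (t ω)) →
    ∃ A : Ω → Cbx, (∀ ω, 0 < P.w ω → LbOk c₁ L a (A ω) (l ω) (t ω) ∧ ShCh d w (A ω) (W ω) ∧
        Frm c d w (tau a w (t ω)) (A ω) (W ω)) ∧
      Stk.hc P A (fun ω => (W ω, fl1 (a + w) (t ω))) ≤ 3 * w * Real.log 2 + K := by
  classical
  obtain ⟨d, N0, hN0, hgeo⟩ := ext_geo_fr hc hc₁
  have hN0' : (1 : ℝ) ≤ N0 := by exact_mod_cast hN0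
  refine ⟨d, Real.log N0, Real.log_nonneg hN0', ?_⟩
  intro Ω _ P l t L a w W hW
  obtain ⟨key, F, ref, hF, hk⟩ := hgeo w
  have hsh : ∀ ω, 0 < P.w ω → ∃ b R : ℕ, Sh c (W ω) b R ∧ a + w + R ≤ L := fun ω hω => by
    obtain ⟨⟨b, R, h1, h2, h3, h4⟩, h5, h6, -⟩ := hW ω hω
    exact ⟨b, R, ⟨h1, h2, h3, h5, h6⟩, h4⟩
  refine ⟨fun ω => ref (W ω) (tau a w (t ω)) (key (W ω) (bl (a + w) (l ω) (t ω))), fun ω hω => ⟨?_, ?_, ?_⟩, ?_⟩
  · obtain ⟨b, R, hS, hL⟩ := hsh ω hω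
    obtain ⟨g1, g2, g3, -⟩ := (hk (W ω) b R (bl (a + w) (l ω) (t ω)) hS (hW ω hω).inn).2 (tau a w (t ω)) (tau_nonneg _ _ _)
      (tau_le _ _ _)
    refine ⟨⟨min (b + d) R + w, R + w, g1, g2, by omega, by omega⟩, g3.α2, g3.κ2, ?_⟩
    rw [bl_dn a w]
    exact g3.inn
  · intro b R h1 h2 h3
    have hS : Sh c (W ω) b R := ⟨h1, h2, h3, (hW ω hω).α2, (hW ω hω).κ2⟩
    obtain ⟨g1, g2, g3, -⟩ := (hk (W ω) b R (bl (a + w) (l ω) (t ω)) hS (hW ω hω).inn).2 (tau a w (t ω)) (tau_nonneg _ _ _)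
      (tau_le _ _ _)
    exact ⟨g1, g2⟩
  · obtain ⟨b, R, hS, hL⟩ := hsh ω hω
    obtain ⟨-, -, -, g4⟩ := (hk (W ω) b R (bl (a + w) (l ω) (t ω)) hS (hW ω hω).inn).2 (tau a w (t ω)) (tau_nonneg _ _ _)
      (tau_le _ _ _)
    exact g4
  · have h1 : Stk.hc P (fun ω => ref (W ω) (tau a w (t ω)) (key (W ω) (bl (a + w) (l ω) (t ω))))
        (fun ω => (W ω, fl1 (a + w) (t ω))) ≤
        Stk.hc P (fun ω => key (W ω) (bl (a + w) (l ω) (t ω))) (fun ω => (W ω, fl1 (a + w) (t ω))) := by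
      refine Stk.hc_mono_left P ?_
      intro ω ω' _ _ h
      simp only [Prod.mk.injEq] at h
      obtain ⟨h1, h2, h3⟩ := h
      show ref (W ω) (tau a w (t ω)) _ = ref (W ω') (tau a w (t ω')) _
      rw [h1, h2, tau_fn a w _ _ h3]
    have h2 : Stk.hc P (fun ω => key (W ω) (bl (a + w) (l ω) (t ω))) (fun ω => (W ω, fl1 (a + w) (t ω))) ≤
        Real.log ((N0 * 2 ^ (3 * w) : ℕ) : ℝ) := by
      refine Stk.hc_le_log P _ _ _ fun ω _ => ⟨F, hF, fun ω' hω' _ => ?_⟩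
      obtain ⟨b, R, hS, -⟩ := hsh ω' hω'
      exact (hk (W ω') b R (bl (a + w) (l ω') (t ω')) hS (hW ω' hω').inn).1
    have h3 : Real.log ((N0 * 2 ^ (3 * w) : ℕ) : ℝ) = 3 * w * Real.log 2 + Real.log N0 := by
      push_cast
      rw [Real.log_mul (by positivity) (by positivity), Real.log_pow]
      push_cast
      ring
    linarith

/-- **EXT, labels, exact shape** `(b + w, R + w)`, class `c'` -/
theorem ext_lab_fr {c : ℝ} (hc : 1 ≤ c) : ∃ (c' K : ℝ) (d : ℕ), c ≤ c' ∧ 0 ≤ K ∧ ∀ {Ω : Type} [Fintype Ω] {γ : Type} (P : Law Ω)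
    (l : Ω → Ry) (t : Ω → ℝ) (C : Ω → γ) (L a w : ℕ) (W : Ω → Cbx),
    (∀ ω, 0 < P.w ω → LbOk c L (a + w) (W ω) (l ω) (t ω)) →
    ∃ A : Ω → Cbx, (∀ ω, 0 < P.w ω → LbOk c' L a (A ω) (l ω) (t ω) ∧ (A ω).u2 = (W ω).u2 * (1 / 2) ^ w ∧
        (A ω).u1 = (W ω).u1 * (1 / 2) ^ w ∧ Frm c d w (tau a w (t ω)) (A ω) (W ω)) ∧
      Stk.hc P A (fun ω => (W ω, fl1 (a + w) (t ω))) ≤ 3 * w * Real.log 2 + K ∧
      ∀ lam : ℝ, val lam P l t C (a + w) W ≤ val lam P l t C a A + 2 * w * Real.log 2 + K := by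
  classical
  obtain ⟨d, K, hK, h⟩ := ext_law_fr hc (by linarith : 0 < c)
  refine ⟨c * 2 ^ d, K, d, le_mul_of_one_le_right (by linarith) (one_le_pow₀ (by norm_num)), hK, ?_⟩
  intro Ω _ γ P l t C L a w W hW
  obtain ⟨A, hA1, hA2⟩ := h P l t L a w W hW
  have hsh : ∀ ω, 0 < P.w ω → (A ω).u1 = (W ω).u1 * (1 / 2) ^ w ∧
      LbOk (c * 2 ^ d) L a { A ω with u2 := (W ω).u2 * (1 / 2) ^ w } (l ω) (t ω) := by
    intro ω hω
    obtain ⟨b, R, g1, g2, g3, -⟩ := (hW ω hω).sh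
    obtain ⟨s1, s2⟩ := (hA1 ω hω).2.1 b R g1 g2 g3
    refine ⟨by rw [s2, g2, pow_add], ?_⟩
    rw [g1, ← pow_add]
    exact lbOk_wide (hA1 ω hω).1 s1 s2 (by omega) (by have := min_le_left (b + d) R; omega) (by linarith)
  set A' : Ω → Cbx := fun ω => { A ω with u2 := (W ω).u2 * (1 / 2) ^ w } with hA'
  have hH : Stk.hc P A' (fun ω => (W ω, fl1 (a + w) (t ω))) ≤ 3 * w * Real.log 2 + K := by
    refine (Stk.hc_mono_left P ?_).trans hA2
    intro ω ω' _ _ e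
    simp only [Prod.mk.injEq] at e
    simp only [hA', e.1, e.2.1]
  refine ⟨A', fun ω hω => ⟨(hsh ω hω).2, rfl, (hsh ω hω).1, (hA1 ω hω).2.2⟩, hH, fun lam => ?_⟩
  have a1 := ext_hc P l t C a w W A' hH
  have h2 : Real.log ((1 / 2 : ℝ) ^ w) = -(w * Real.log 2) := log_half w
  have a2 : P.ex (fun ω => (3 + lam) * Real.log (A' ω).u2 + (1 - lam) * Real.log (A' ω).u1) =
      P.ex (fun ω => (3 + lam) * Real.log (W ω).u2 + (1 - lam) * Real.log (W ω).u1) - 4 * w * Real.log 2 := by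
    have e1 : P.ex (fun ω => (3 + lam) * Real.log (A' ω).u2 + (1 - lam) * Real.log (A' ω).u1) =
        P.ex (fun ω => ((3 + lam) * Real.log (W ω).u2 + (1 - lam) * Real.log (W ω).u1) + -(4 * w * Real.log 2)) := by
      refine P.ex_congr fun ω hω => ?_
      obtain ⟨b, R, g1, g2, g3, -⟩ := (hW ω hω).sh
      have p1 : (W ω).u2 ≠ 0 := by rw [g1]; positivity
      have p2 : (W ω).u1 ≠ 0 := by rw [g2]; positivity
      have q1 : (A' ω).u1 = (W ω).u1 * (1 / 2) ^ w := (hsh ω hω).1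
      have q2 : (A' ω).u2 = (W ω).u2 * (1 / 2) ^ w := rfl
      rw [q1, q2, Real.log_mul p1 (by positivity), Real.log_mul p2 (by positivity), h2]
      ring
    have e3 := P.ex_add (fun ω => (3 + lam) * Real.log (W ω).u2 + (1 - lam) * Real.log (W ω).u1)
      (fun _ => -(4 * w * Real.log 2))
    rw [e1, e3, P.ex_const]
    ring
  unfold val
  rw [a2]
  push_cast
  linarith

end Vale.Agent.P106.U.H513
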