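import Vale.Agent.P106.U.Cell

/-!
# P106 / U / H513 : the difference of two copies (helper513, block PRISEGEO of helper118)

`w0, w1` : two copies with the same ray and the same letter `T i`.

* `DifK i i1 k b m1 w0 w1` : the slab functional of step `i1` of the second copy and the one of step `k` of the
  first copy (both with rounded slope, written at the time `s (k+1) w0`) are not proportional up to the level
  `R i b + m1`: this is what the count on the strip needs.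
* `Dif i i1 b m2 w0 w1` : the same without `k`: own slopes different (regime `rf i ≤ rk i + b`), or normalised
  kappa at the true time of the first copy different (regime `rk i + b ≤ rf i`).
* `dif_difK` : `Dif` implies `DifK` for every `k` with `a i1 + μ ≤ a (k+1)`.
-/

set_option autoImplicit false

namespace Vale.Agent.P106.U.Cell

open Finset Vale.Agent.P127 Vale.Agent.P127.Stk
open Vale.Agent.P127.U.CellD (q2 rd Nb rd_err rd_sub q2_pos q2_add q2_le)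

namespace Fu

/-- kappa at the time `x`, divided by the N-coefficient, of a functional written at the time `s` -/
noncomputable def nk (F : Fu) (l : Ray) (s x : ℝ) : ℝ := (F.ka - (x - s) * F.al) / F.cN l s

lemma nk_sh5 (F : Fu) (l : Ray) (s d x : ℝ) : (F.sh d).nk l (s + d) x = F.nk l s x := by
  unfold nk
  rw [cN_sh]
  unfold sh
  congr 1
  ring

end Fu

namespace Pth

variable {Ω τ : Type} (C : Pth Ω τ)

/-- the slab functional of step `k` with rounded slope, written at the time `s` -/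
noncomputable def Fs (k b : ℕ) (s : ℝ) (ω : Ω) : Fu :=
  (C.Fr k b (C.R k b - 3 * C.μ) ω).sh (s - C.s k ω)

/-- the slabs of the two copies are different at the step `k` -/
def DifK (i i1 k b m1 : ℕ) (w0 w1 : Ω) : Prop :=
  q2 (C.R i b + m1) ≤ |(C.Fs i1 b (C.s (k + 1) w0) w1).cV (C.l w0) (C.s (k + 1) w0) -
      ((C.Fs i1 b (C.s (k + 1) w0) w1).cN (C.l w0) (C.s (k + 1) w0) /
        (C.Fs k b (C.s (k + 1) w0) w0).cN (C.l w0) (C.s (k + 1) w0)) *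
        (C.Fs k b (C.s (k + 1) w0) w0).cV (C.l w0) (C.s (k + 1) w0)| ∨
  q2 (C.R i b + m1) ≤ |(C.Fs i1 b (C.s (k + 1) w0) w1).ka -
      ((C.Fs i1 b (C.s (k + 1) w0) w1).cN (C.l w0) (C.s (k + 1) w0) /
        (C.Fs k b (C.s (k + 1) w0) w0).cN (C.l w0) (C.s (k + 1) w0)) *
        (C.Fs k b (C.s (k + 1) w0) w0).ka| * q2 b

/-- normalised kappa of the slab of step `i` at the time `x` -/
noncomputable def nk (i : ℕ) (ω : Ω) (x : ℝ) : ℝ := (C.F i ω).nk (C.l ω) (C.s i ω) x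

/-- **intrinsic difference of the two copies** -/
def Dif (i i1 b m2 : ℕ) (w0 w1 : Ω) : Prop :=
  (C.rf i ≤ C.rk i + b ∧ q2 (C.rf i + m2) ≤ |C.p w0 - C.p w1|) ∨
  (C.rk i + b ≤ C.rf i ∧ q2 (C.rk i + m2) ≤ |C.nk i1 w1 (C.t w0) - C.nk i1 w0 (C.t w0)|)

/-! ### simple facts -/

lemma ro_err5 (j : Fin 7) (n : ℕ) (y : ℝ) : |C.ro j n y - y| ≤ q2 n := by
  have h := rd_err n (y + C.o j)
  unfold ro
  rwa [show rd n (y + C.o j) - C.o j - y = rd n (y + C.o j) - (y + C.o j) by ring]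

lemma R_phi5 {i b : ℕ} (h : C.rf i ≤ C.rk i + b) : C.R i b = C.rf i := by
  have := C.hkf i
  unfold R bs
  omega

lemma R_kap5 {i b : ℕ} (h : C.rk i + b ≤ C.rf i) : C.R i b = C.rk i + b := by
  unfold R bs
  omega

lemma R_le_rf5 (i b : ℕ) : C.R i b ≤ C.rf i := by
  have := C.hkf i
  unfold R bs
  omega

lemma R_le_rk5 (i b : ℕ) : C.R i b ≤ C.rk i + b := by
  unfold R bs
  omega

lemma R_mono5 {i j : ℕ} (h : i ≤ j) (b : ℕ) : C.R i b ≤ C.R j b := by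
  have h1 := C.hkf i
  have h2 := C.hkf j
  have h3 := C.hk h
  have h4 := C.hf h
  unfold R bs
  omega

/-- the slope of the slab at its ray -/
lemma F_cV5 (i : ℕ) (ω : Ω) : (C.F i ω).cV (C.l ω) (C.s i ω) =
    rd (C.rf i) (C.p ω) * (C.F i ω).cN (C.l ω) (C.s i ω) := by
  have hs : C.tv i (C.T i ω) = C.s i ω := by
    unfold tv s rd
    rw [C.htm]
  unfold F Fv Fu.cV Fu.cN
  simp only [hs]
  ring

lemma Fs_cN5 (k b : ℕ) (s : ℝ) (ω : Ω) (l : Ray) :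
    (C.Fs k b s ω).cN l s = (C.F k ω).cN l (C.s k ω) := by
  have h := Fu.cN_sh (C.Fr k b (C.R k b - 3 * C.μ) ω) l (C.s k ω) (s - C.s k ω)
  rw [show C.s k ω + (s - C.s k ω) = s by ring] at h
  unfold Fs
  rw [h]
  rfl

lemma Fs_cV5 (k b : ℕ) (s : ℝ) (ω : Ω) (l : Ray) :
    (C.Fs k b s ω).cV l s = (C.F k ω).cV l (C.s k ω) +
      (C.ro 4 (C.R k b - 3 * C.μ) (C.sl k b ω) - C.sl k b ω) := by
  have h := Fu.cV_sh (C.Fr k b (C.R k b - 3 * C.μ) ω) l (C.s k ω) (s - C.s k ω)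
  rw [show C.s k ω + (s - C.s k ω) = s by ring] at h
  unfold Fs
  rw [h]
  unfold Fu.cV Fr sl
  simp only
  ring

lemma Fs_ka5 (k b : ℕ) (s : ℝ) (ω : Ω) :
    (C.Fs k b s ω).ka = (C.F k ω).ka - (s - C.s k ω) * (C.F k ω).al := rfl

/-- the slabs of the step `i` of the two copies -/
lemma same5 {i : ℕ} {w0 w1 : Ω} (hT : C.T i w0 = C.T i w1) : C.s i w0 = C.s i w1 := by
  have h0 := C.htm i w0
  have h1 := C.htm i w1
  unfold s rd
  rw [← h0, ← h1, hT]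

lemma same_cN5 {i : ℕ} {w0 w1 : Ω} (hl : C.l w0 = C.l w1) (hT : C.T i w0 = C.T i w1) :
    (C.F i w0).cN (C.l w0) (C.s i w0) = (C.F i w1).cN (C.l w1) (C.s i w1) := by
  have hs := C.same5 hT
  unfold F Fv Fu.cN
  simp only [hs, hl, hT]

lemma same_al5 {i : ℕ} {w0 w1 : Ω} (hT : C.T i w0 = C.T i w1) :
    (C.F i w0).al = (C.F i w1).al := by
  unfold F Fv
  simp only [hT]

/-- times of the same copy -/
lemma s_sub5 {i j : ℕ} (h : i ≤ j) (ω : Ω) : |C.s j ω - C.s i ω| ≤ q2 (C.a i) :=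
  rd_sub (C.ha h) (C.t ω)

lemma s_err5 (i : ℕ) (ω : Ω) : |C.s i ω - C.t ω| ≤ q2 (C.a i) := rd_err _ _

/-! ### quotients -/

lemma inv_sub_le5 {K c c' d : ℝ} (hK : 0 < K) (h1 : 1 ≤ K * c) (h2 : 1 ≤ K * c')
    (h : |c - c'| ≤ d) : |1 / c - 1 / c'| ≤ K ^ 2 * d := by
  have hc : 0 < c := by
    by_contra hcon
    have := mul_nonneg hK.le (by linarith : 0 ≤ -c)
    linarith
  have hc' : 0 < c' := by
    by_contra hcon
    have := mul_nonneg hK.le (by linarith : 0 ≤ -c')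
    linarith
  have e : 1 / c - 1 / c' = (c' - c) * ((1 / c) * (1 / c')) := by
    field_simp
  have i1 : 1 / c ≤ K := by
    rw [div_le_iff₀ hc]
    exact h1
  have i2 : 1 / c' ≤ K := by
    rw [div_le_iff₀ hc']
    exact h2
  have j1 : 0 ≤ 1 / c := by positivity
  have j2 : 0 ≤ 1 / c' := by positivity
  rw [e, abs_mul, abs_mul, abs_of_nonneg j1, abs_of_nonneg j2, abs_sub_comm c' c]
  have hd : 0 ≤ d := (abs_nonneg _).trans h
  calc |c - c'| * ((1 / c) * (1 / c')) ≤ d * (K * K) := by gcongr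
    _ = K ^ 2 * d := by ring

/-- difference of two quotients -/
lemma quot_sub_le5 {K c c' x x' d e M : ℝ} (hK : 0 < K) (h1 : 1 ≤ K * c) (h2 : 1 ≤ K * c')
    (hc : |c - c'| ≤ d) (hx : |x - x'| ≤ e) (hM : |x'| ≤ M) :
    |x / c - x' / c'| ≤ K * e + M * (K ^ 2 * d) := by
  have hc0 : 0 < c := by
    by_contra hcon
    have := mul_nonneg hK.le (by linarith : 0 ≤ -c)
    linarith
  have e1 : x / c - x' / c' = (x - x') * (1 / c) + x' * (1 / c - 1 / c') := by ring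
  have i1 : 1 / c ≤ K := by
    rw [div_le_iff₀ hc0]
    exact h1
  have j1 : 0 ≤ 1 / c := by positivity
  have hM0 : 0 ≤ M := (abs_nonneg _).trans hM
  have he0 : 0 ≤ e := (abs_nonneg _).trans hx
  rw [e1]
  refine (abs_add_le _ _).trans ?_
  rw [abs_mul, abs_mul, abs_of_nonneg j1]
  have h3 := inv_sub_le5 hK h1 h2 hc
  have h4 : |x - x'| * (1 / c) ≤ e * K := by gcongr
  have h5 : |x'| * |1 / c - 1 / c'| ≤ M * (K ^ 2 * d) := by gcongr
  linarith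

/-! ### two real inequalities -/

lemma real_phi5 {K q u v1 v2 cG cF x1 x0 p1 p0 e1 e0 : ℝ} (hK : 1 ≤ K) (hq : 0 < q) (hu : 0 < u)
    (_hv : 0 < v1) (hG : 0 < cG) (hF : 0 < cF) (hn1 : 1 ≤ K * cG) (hn1' : cG ≤ K)
    (hrho : cG / cF ≤ K ^ 2) (hm : K * v1 + 8 * K ^ 4 * u ≤ v2)
    (h1 : |x1 - p1| ≤ q * u) (h0 : |x0 - p0| ≤ q * u) (he1 : |e1| ≤ q * u) (he0 : |e0| ≤ q * u)
    (hD : q * v2 ≤ |p1 - p0|) :
    q * v1 ≤ |x1 * cG + e1 - cG / cF * (x0 * cF + e0)| := by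
  have hK0 : 0 < K := by linarith
  have hK3 : K ^ 3 ≤ K ^ 4 := pow_le_pow_right₀ hK (by norm_num)
  have hK2 : K ^ 2 ≤ K ^ 4 := pow_le_pow_right₀ hK (by norm_num)
  have hK1 : K ≤ K ^ 4 := le_self_pow₀ hK (by norm_num)
  have hrho0 : 0 ≤ cG / cF := by positivity
  have key : x1 * cG + e1 - cG / cF * (x0 * cF + e0) =
      cG * (p1 - p0) - (cG * (x0 - p0) - cG * (x1 - p1) - e1 + cG / cF * e0) := by
    field_simp
    ring
  have hqu : 0 < q * u := by positivity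
  have t1 : |cG * (x1 - p1)| ≤ K * (q * u) := by
    rw [abs_mul, abs_of_pos hG]
    gcongr
  have t2 : |cG * (x0 - p0)| ≤ K * (q * u) := by
    rw [abs_mul, abs_of_pos hG]
    gcongr
  have t3 : |cG / cF * e0| ≤ K ^ 2 * (q * u) := by
    rw [abs_mul, abs_of_nonneg hrho0]
    gcongr
  have t6 : |cG * (x0 - p0) - cG * (x1 - p1) - e1 + cG / cF * e0| ≤
      (2 * K + 1 + K ^ 2) * (q * u) := by
    rw [abs_le] at t1 t2 t3 he1 ⊢
    constructor <;> linarith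
  have t7 := abs_sub_abs_le_abs_sub (cG * (p1 - p0))
    (cG * (x0 - p0) - cG * (x1 - p1) - e1 + cG / cF * e0)
  rw [← key] at t7
  have t5 : |cG * (p1 - p0)| = cG * |p1 - p0| := by rw [abs_mul, abs_of_pos hG]
  have t9 : |p1 - p0| ≤ K * (cG * |p1 - p0|) := by
    have := mul_le_mul_of_nonneg_right hn1 (abs_nonneg (p1 - p0))
    linarith
  have t10 : K * ((2 * K + 1 + K ^ 2) * (q * u)) ≤ 8 * K ^ 4 * (q * u) := by
    have h2 : K * (2 * K + 1 + K ^ 2) ≤ 8 * K ^ 4 := by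
      have : K * (2 * K + 1 + K ^ 2) = 2 * K ^ 2 + K + K ^ 3 := by ring
      rw [this]
      linarith
    calc K * ((2 * K + 1 + K ^ 2) * (q * u)) = (K * (2 * K + 1 + K ^ 2)) * (q * u) := by ring
      _ ≤ _ := by gcongr
  have t11 := mul_le_mul_of_nonneg_left hm hq.le
  have t13 := mul_le_mul_of_nonneg_left t6 hK0.le
  have t14 := mul_le_mul_of_nonneg_left t7 hK0.le
  rw [t5] at t14
  have t15 : K * (q * v1) ≤ K * |x1 * cG + e1 - cG / cF * (x0 * cF + e0)| := by linarith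
  exact le_of_mul_le_mul_left t15 hK0

lemma real_kap5 {K q u v1 v2 cG cF kG kF A B D : ℝ} (hK : 1 ≤ K) (hq : 0 < q)
    (_hv : 0 < v1) (hG : 0 < cG) (hn1 : 1 ≤ K * cG) (hF : 0 < cF)
    (hm : K * v1 + 8 * K ^ 4 * u ≤ v2) (hD : q * v2 ≤ |D|)
    (hA : |A| ≤ 4 * K ^ 4 * (q * u)) (hB : |B| ≤ 4 * K ^ 4 * (q * u))
    (key : kG / cG - kF / cF = D - B - A) :
    q * v1 ≤ |kG - cG / cF * kF| := by
  have hK0 : 0 < K := by linarith
  have D1 : q * v2 - 8 * K ^ 4 * (q * u) ≤ |kG / cG - kF / cF| := by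
    rw [key]
    have h1 := abs_sub_abs_le_abs_sub D (B + A)
    rw [show D - (B + A) = D - B - A by ring] at h1
    have h2 := abs_add_le B A
    linarith
  have D2 : |kG - cG / cF * kF| = cG * |kG / cG - kF / cF| := by
    rw [← abs_of_pos hG, ← abs_mul, abs_of_pos hG]
    congr 1
    field_simp
  have D3 : |kG / cG - kF / cF| ≤ K * |kG - cG / cF * kF| := by
    rw [D2]
    have := mul_le_mul_of_nonneg_right hn1 (abs_nonneg (kG / cG - kF / cF))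
    linarith
  have D4 := mul_le_mul_of_nonneg_left hm hq.le
  have D5 : K * (q * v1) ≤ K * |kG - cG / cF * kF| := by linarith
  exact le_of_mul_le_mul_left D5 hK0

lemma cN_pos5 {K : ℝ} (hK0 : 0 < K) {c : ℝ} (h : 1 ≤ K * c) : 0 < c := by
  by_contra hcon
  have := mul_nonneg hK0.le (by linarith : 0 ≤ -c)
  linarith

/-- kappa of the steps `i1` and `k` of the same copy, at the time `s (k+1)` -/
lemma nk_step5 {K : ℝ} (hK : 1 ≤ K) {i1 k : ℕ} {w0 : Ω} (h0 : C.Ok K w0) (hk : i1 ≤ k) :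
    |C.nk k w0 (C.s (k + 1) w0) - C.nk i1 w0 (C.s (k + 1) w0)| ≤ 4 * K ^ 4 * q2 (C.rk i1) := by
  have hK0 : 0 < K := by linarith
  have hK2 : K ^ 2 ≤ K ^ 4 := pow_le_pow_right₀ hK (by norm_num)
  have hn0 := h0.n1 k
  have hn2 := h0.n1 i1
  have s1 : |C.s (k + 1) w0 - C.s k w0| ≤ q2 (C.a k) := C.s_sub5 (Nat.le_succ k) w0
  have s2 : |C.s (k + 1) w0 - C.s i1 w0| ≤ q2 (C.a i1) := C.s_sub5 (by omega) w0
  have A := h0.ag i1 k hk
  have A1 : |(C.F k w0).cN (C.l w0) (C.s k w0) - (C.F i1 w0).cN (C.l w0) (C.s i1 w0)| ≤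
      K * q2 (C.rk i1) := by
    have h := A.cN
    have e := Fu.cN_sh (C.F i1 w0) (C.l w0) (C.s i1 w0) (C.s k w0 - C.s i1 w0)
    rw [show C.s i1 w0 + (C.s k w0 - C.s i1 w0) = C.s k w0 by ring] at e
    rwa [e] at h
  have A2 : |((C.F k w0).ka - (C.s (k + 1) w0 - C.s k w0) * (C.F k w0).al) -
      ((C.F i1 w0).ka - (C.s (k + 1) w0 - C.s i1 w0) * (C.F i1 w0).al)| ≤
      2 * K * q2 (C.rk i1) := by
    have e : ((C.F k w0).ka - (C.s (k + 1) w0 - C.s k w0) * (C.F k w0).al) -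
        ((C.F i1 w0).ka - (C.s (k + 1) w0 - C.s i1 w0) * (C.F i1 w0).al) =
        ((C.F k w0).ka - ((C.F i1 w0).sh (C.s k w0 - C.s i1 w0)).ka) -
        (C.s (k + 1) w0 - C.s k w0) * ((C.F k w0).al - (C.F i1 w0).al) := by
      unfold Fu.sh
      ring
    rw [e]
    have h2 := A.ka
    have h3 : |(C.s (k + 1) w0 - C.s k w0) * ((C.F k w0).al - (C.F i1 w0).al)| ≤
        K * q2 (C.rk i1) := by
      rw [abs_mul]
      have h4 := A.al
      have h5 : |C.s (k + 1) w0 - C.s k w0| * |(C.F k w0).al - (C.F i1 w0).al| ≤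
          q2 (C.a k) * |(C.F k w0).al - (C.F i1 w0).al| := by gcongr
      have h6 : q2 (C.a k) * |(C.F k w0).al - (C.F i1 w0).al| ≤ K * q2 (C.rk i1) := by
        rw [mul_comm]
        exact h4
      exact h5.trans h6
    rw [abs_le] at h2 h3 ⊢
    constructor <;> linarith
  have A3 : |(C.F i1 w0).ka - (C.s (k + 1) w0 - C.s i1 w0) * (C.F i1 w0).al| ≤ 2 * K := by
    have h2 := h0.k1 i1
    have h3 := h0.a1 i1
    have h4 : |(C.s (k + 1) w0 - C.s i1 w0) * (C.F i1 w0).al| ≤ K := by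
      rw [abs_mul]
      have h5 : |C.s (k + 1) w0 - C.s i1 w0| * |(C.F i1 w0).al| ≤
          q2 (C.a i1) * |(C.F i1 w0).al| := by gcongr
      have h6 : q2 (C.a i1) * |(C.F i1 w0).al| ≤ K := by
        rw [mul_comm]
        exact h3
      exact h5.trans h6
    rw [abs_le] at h2 h4 ⊢
    constructor <;> linarith
  have h2 := quot_sub_le5 hK0 hn0 hn2 A1 A2 A3
  unfold nk Fu.nk
  refine h2.trans ?_
  have h3 : K * (2 * K * q2 (C.rk i1)) + 2 * K * (K ^ 2 * (K * q2 (C.rk i1))) =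
      (2 * K ^ 2 + 2 * K ^ 4) * q2 (C.rk i1) := by ring
  rw [h3]
  have h4 : 0 ≤ q2 (C.rk i1) := (q2_pos _).le
  gcongr
  linarith

/-- the alphas of the two copies at the step `i1` -/
lemma al_copy5 {K : ℝ} (hK : 1 ≤ K) {i i1 : ℕ} {w0 w1 : Ω}
    (h0 : C.Ok K w0) (h1 : C.Ok K w1) (hl : C.l w0 = C.l w1) (hT : C.T i w0 = C.T i w1)
    (hi : i ≤ i1) :
    q2 (C.a i1) * |(C.F i1 w1).al / (C.F i1 w1).cN (C.l w1) (C.s i1 w1) -
      (C.F i1 w0).al / (C.F i1 w0).cN (C.l w0) (C.s i1 w0)| ≤ 4 * K ^ 4 * q2 (C.rk i) := by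
  have hK0 : 0 < K := by linarith
  have hK2 : K ^ 2 ≤ K ^ 4 := pow_le_pow_right₀ hK (by norm_num)
  have hn1 := h1.n1 i1
  have hn2 := h0.n1 i1
  have B0 := h0.ag i i1 hi
  have B1 := h1.ag i i1 hi
  have B2 : |(C.F i1 w1).cN (C.l w1) (C.s i1 w1) - (C.F i1 w0).cN (C.l w0) (C.s i1 w0)| ≤
      2 * K * q2 (C.rk i) := by
    have h2 := B0.cN
    have h3 := B1.cN
    have e0 := Fu.cN_sh (C.F i w0) (C.l w0) (C.s i w0) (C.s i1 w0 - C.s i w0)
    rw [show C.s i w0 + (C.s i1 w0 - C.s i w0) = C.s i1 w0 by ring] at e0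
    have e1 := Fu.cN_sh (C.F i w1) (C.l w1) (C.s i w1) (C.s i1 w1 - C.s i w1)
    rw [show C.s i w1 + (C.s i1 w1 - C.s i w1) = C.s i1 w1 by ring] at e1
    rw [e0, C.same_cN5 hl hT] at h2
    rw [e1] at h3
    rw [abs_le] at h2 h3 ⊢
    constructor <;> linarith
  have B3 : |(C.F i1 w1).al - (C.F i1 w0).al| * q2 (C.a i1) ≤ 2 * K * q2 (C.rk i) := by
    have h2 := B0.al
    have h3 := B1.al
    have e0 : ((C.F i w0).sh (C.s i1 w0 - C.s i w0)).al = (C.F i w1).al := C.same_al5 hT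
    have e1 : ((C.F i w1).sh (C.s i1 w1 - C.s i w1)).al = (C.F i w1).al := rfl
    rw [e0] at h2
    rw [e1] at h3
    have h4 : |(C.F i1 w1).al - (C.F i1 w0).al| ≤
        |(C.F i1 w1).al - (C.F i w1).al| + |(C.F i1 w0).al - (C.F i w1).al| := by
      have := abs_sub ((C.F i1 w1).al - (C.F i w1).al) ((C.F i1 w0).al - (C.F i w1).al)
      simpa using this
    have h5 := mul_le_mul_of_nonneg_right h4 (q2_pos (C.a i1)).le
    linarith
  have hx : |(C.F i1 w1).al * q2 (C.a i1) - (C.F i1 w0).al * q2 (C.a i1)| ≤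
      2 * K * q2 (C.rk i) := by
    rw [← sub_mul, abs_mul, abs_of_pos (q2_pos (C.a i1))]
    exact B3
  have hM : |(C.F i1 w0).al * q2 (C.a i1)| ≤ K := by
    rw [abs_mul, abs_of_pos (q2_pos (C.a i1))]
    exact h0.a1 i1
  have e : |(C.F i1 w1).al * q2 (C.a i1) / (C.F i1 w1).cN (C.l w1) (C.s i1 w1) -
      (C.F i1 w0).al * q2 (C.a i1) / (C.F i1 w0).cN (C.l w0) (C.s i1 w0)| =
      q2 (C.a i1) * |(C.F i1 w1).al / (C.F i1 w1).cN (C.l w1) (C.s i1 w1) -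
      (C.F i1 w0).al / (C.F i1 w0).cN (C.l w0) (C.s i1 w0)| := by
    rw [show (C.F i1 w1).al * q2 (C.a i1) / (C.F i1 w1).cN (C.l w1) (C.s i1 w1) -
        (C.F i1 w0).al * q2 (C.a i1) / (C.F i1 w0).cN (C.l w0) (C.s i1 w0) =
      q2 (C.a i1) * ((C.F i1 w1).al / (C.F i1 w1).cN (C.l w1) (C.s i1 w1) -
        (C.F i1 w0).al / (C.F i1 w0).cN (C.l w0) (C.s i1 w0)) by ring, abs_mul,
      abs_of_pos (q2_pos (C.a i1))]
  rw [← e]
  refine (quot_sub_le5 hK0 hn1 hn2 B2 hx hM).trans ?_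
  have h5 : K * (2 * K * q2 (C.rk i)) + K * (K ^ 2 * (2 * K * q2 (C.rk i))) =
      (2 * K ^ 2 + 2 * K ^ 4) * q2 (C.rk i) := by ring
  rw [h5]
  have h4 : 0 ≤ q2 (C.rk i) := (q2_pos _).le
  gcongr
  linarith

/-- own slopes of the two copies -/
lemma dif_phi5 {K : ℝ} (hK : 1 ≤ K) {i i1 k b m1 m2 : ℕ} {w0 w1 : Ω}
    (h0 : C.Ok K w0) (h1 : C.Ok K w1) (hl : C.l w0 = C.l w1) (hk : i1 ≤ k)
    (hR : C.R i b + 4 * C.μ ≤ C.R i1 b)
    (hm : K * q2 m1 + 8 * K ^ 4 * q2 C.μ ≤ q2 m2) (hreg : C.rf i ≤ C.rk i + b)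
    (hD : q2 (C.rf i + m2) ≤ |C.p w0 - C.p w1|) : C.DifK i i1 k b m1 w0 w1 := by
  have hK0 : 0 < K := by linarith
  have hμ0 := q2_pos C.μ
  have hn0 := h0.n1 k
  have hn1 := h1.n1 i1
  have hn1' := h1.n2 i1
  have hcG0 := cN_pos5 hK0 hn1
  have hcF0 := cN_pos5 hK0 hn0
  have eG : (C.Fs i1 b (C.s (k + 1) w0) w1).cN (C.l w0) (C.s (k + 1) w0) =
      (C.F i1 w1).cN (C.l w1) (C.s i1 w1) := by
    rw [Fs_cN5, hl]
  have eF : (C.Fs k b (C.s (k + 1) w0) w0).cN (C.l w0) (C.s (k + 1) w0) =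
      (C.F k w0).cN (C.l w0) (C.s k w0) := Fs_cN5 _ _ _ _ _ _
  left
  rw [eG, eF, Fs_cV5, Fs_cV5, hl, F_cV5, ← hl, F_cV5, hl]
  rw [hl] at hcF0
  generalize hcG : (C.F i1 w1).cN (C.l w1) (C.s i1 w1) = cG at *
  generalize hcF : (C.F k w0).cN (C.l w1) (C.s k w0) = cF at *
  have iF : 1 / cF ≤ K := by
    rw [div_le_iff₀ hcF0]
    rw [hl, hcF] at hn0
    exact hn0
  have hrho : cG / cF ≤ K ^ 2 := by
    have : cG / cF = cG * (1 / cF) := by ring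
    rw [this]
    have h3 : 0 ≤ 1 / cF := by positivity
    calc cG * (1 / cF) ≤ K * K := by gcongr
      _ = K ^ 2 := by ring
  have hrho0 : 0 ≤ cG / cF := by positivity
  have hRi := C.R_phi5 hreg
  have f1 := C.R_le_rf5 i1 b
  have hK3 : K ^ 3 ≤ K ^ 4 := pow_le_pow_right₀ hK (by norm_num)
  have hK2 : K ^ 2 ≤ K ^ 4 := pow_le_pow_right₀ hK (by norm_num)
  have hK1 : K ≤ K ^ 4 := le_self_pow₀ hK (by norm_num)
  have r1 := C.ro_err5 4 (C.R i1 b - 3 * C.μ) (C.sl i1 b w1)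
  have r0 := C.ro_err5 4 (C.R k b - 3 * C.μ) (C.sl k b w0)
  have g0 : q2 (C.R k b - 3 * C.μ) ≤ q2 (C.rf i) * q2 C.μ := by
    rw [← q2_add]
    refine q2_le ?_
    have := C.R_mono5 hk b
    omega
  have g1 : q2 (C.R i1 b - 3 * C.μ) ≤ q2 (C.rf i) * q2 C.μ := by
    rw [← q2_add]
    exact q2_le (by omega)
  have p1 := rd_err (C.rf i1) (C.p w1)
  have p0 := rd_err (C.rf k) (C.p w0)
  have g2 : q2 (C.rf i1) ≤ q2 (C.rf i) * q2 C.μ := by
    rw [← q2_add]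
    exact q2_le (by omega)
  have g3 : q2 (C.rf k) ≤ q2 (C.rf i) * q2 C.μ := by
    rw [← q2_add]
    refine q2_le ?_
    have := C.hf hk
    omega
  generalize C.ro 4 (C.R i1 b - 3 * C.μ) (C.sl i1 b w1) - C.sl i1 b w1 = e1 at *
  generalize C.ro 4 (C.R k b - 3 * C.μ) (C.sl k b w0) - C.sl k b w0 = e0 at *
  have hq0 := q2_pos (C.rf i)
  have t8 : q2 (C.rf i) * q2 m2 ≤ |C.p w1 - C.p w0| := by
    rw [← q2_add, abs_sub_comm]; exact hD
  rw [hRi, q2_add]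
  replace p1 := p1.trans g2
  replace p0 := p0.trans g3
  replace r0 := r0.trans g0
  replace r1 := r1.trans g1
  exact real_phi5 hK hq0 hμ0 (q2_pos m1) hcG0 hcF0 hn1 hn1' hrho hm p1 p0 r1 r0 t8

/-- **the intrinsic difference gives the difference of the slabs of the steps `i1` and `k`** -/
theorem dif_difK {K : ℝ} (hK : 1 ≤ K) {i i1 k b m1 m2 : ℕ} {w0 w1 : Ω}
    (h0 : C.Ok K w0) (h1 : C.Ok K w1) (hl : C.l w0 = C.l w1) (hT : C.T i w0 = C.T i w1)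
    (hi : i ≤ i1) (hk : i1 ≤ k) (ha : C.a i1 + C.μ ≤ C.a (k + 1))
    (hR : C.R i b + 4 * C.μ ≤ C.R i1 b)
    (hm : K * q2 m1 + 8 * K ^ 4 * q2 C.μ ≤ q2 m2)
    (hD : C.Dif i i1 b m2 w0 w1) : C.DifK i i1 k b m1 w0 w1 := by
  rcases hD with ⟨hreg, hD⟩ | ⟨hreg, hD⟩
  · exact C.dif_phi5 hK h0 h1 hl hk hR hm hreg hD
  have hK0 : 0 < K := by linarith
  have hμ0 := q2_pos C.μ
  have hn0 := h0.n1 k
  have hn1 := h1.n1 i1
  have hcG0 := cN_pos5 hK0 hn1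
  have hcF0 := cN_pos5 hK0 hn0
  have eG : (C.Fs i1 b (C.s (k + 1) w0) w1).cN (C.l w0) (C.s (k + 1) w0) =
      (C.F i1 w1).cN (C.l w1) (C.s i1 w1) := by
    rw [Fs_cN5, hl]
  have eF : (C.Fs k b (C.s (k + 1) w0) w0).cN (C.l w0) (C.s (k + 1) w0) =
      (C.F k w0).cN (C.l w0) (C.s k w0) := Fs_cN5 _ _ _ _ _ _
  right
  have hRi := C.R_kap5 hreg
  have f1 := C.R_le_rk5 i1 b
  have frk : C.rk i + C.μ ≤ C.rk i1 := by omega
  rw [eG, eF, hRi, show C.rk i + b + m1 = (C.rk i + m1) + b by ring, q2_add]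
  refine mul_le_mul_of_nonneg_right ?_ (q2_pos b).le
  rw [Fs_ka5, Fs_ka5]
  have hqr : q2 (C.rk i1) ≤ q2 (C.rk i) * q2 C.μ := by
    rw [← q2_add]
    exact q2_le frk
  have s3 : |C.s (k + 1) w0 - C.t w0| ≤ q2 (C.a i1) * q2 C.μ := by
    rw [← q2_add]
    exact (C.s_err5 (k + 1) w0).trans (q2_le ha)
  have A4 := (C.nk_step5 hK h0 hk).trans (mul_le_mul_of_nonneg_left hqr
    (by positivity : 0 ≤ 4 * K ^ 4))
  have B4 := C.al_copy5 hK h0 h1 hl hT hi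
  have hq0 := q2_pos (C.rk i)
  have B5 : |(C.s (k + 1) w0 - C.t w0) * ((C.F i1 w1).al / (C.F i1 w1).cN (C.l w1) (C.s i1 w1) -
      (C.F i1 w0).al / (C.F i1 w0).cN (C.l w0) (C.s i1 w0))| ≤
      4 * K ^ 4 * (q2 (C.rk i) * q2 C.μ) := by
    rw [abs_mul]
    calc |C.s (k + 1) w0 - C.t w0| * |(C.F i1 w1).al / (C.F i1 w1).cN (C.l w1) (C.s i1 w1) -
      (C.F i1 w0).al / (C.F i1 w0).cN (C.l w0) (C.s i1 w0)|
        ≤ (q2 (C.a i1) * q2 C.μ) * |(C.F i1 w1).al / (C.F i1 w1).cN (C.l w1) (C.s i1 w1) -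
      (C.F i1 w0).al / (C.F i1 w0).cN (C.l w0) (C.s i1 w0)| := by gcongr
      _ = q2 C.μ * (q2 (C.a i1) * |(C.F i1 w1).al / (C.F i1 w1).cN (C.l w1) (C.s i1 w1) -
      (C.F i1 w0).al / (C.F i1 w0).cN (C.l w0) (C.s i1 w0)|) := by ring
      _ ≤ q2 C.μ * (4 * K ^ 4 * q2 (C.rk i)) := by gcongr
      _ = _ := by ring
  have D1 : C.nk i1 w1 (C.s (k + 1) w0) - C.nk k w0 (C.s (k + 1) w0) =
      (C.nk i1 w1 (C.t w0) - C.nk i1 w0 (C.t w0)) -
      (C.s (k + 1) w0 - C.t w0) * ((C.F i1 w1).al / (C.F i1 w1).cN (C.l w1) (C.s i1 w1) -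
        (C.F i1 w0).al / (C.F i1 w0).cN (C.l w0) (C.s i1 w0)) -
      (C.nk k w0 (C.s (k + 1) w0) - C.nk i1 w0 (C.s (k + 1) w0)) := by
    unfold nk Fu.nk
    ring
  have D1' : C.nk i1 w1 (C.s (k + 1) w0) - C.nk k w0 (C.s (k + 1) w0) =
      ((C.F i1 w1).ka - (C.s (k + 1) w0 - C.s i1 w1) * (C.F i1 w1).al) /
        (C.F i1 w1).cN (C.l w1) (C.s i1 w1) -
      ((C.F k w0).ka - (C.s (k + 1) w0 - C.s k w0) * (C.F k w0).al) /
        (C.F k w0).cN (C.l w0) (C.s k w0) := rfl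
  rw [D1'] at D1
  rw [q2_add] at hD ⊢
  exact real_kap5 hK hq0 (q2_pos m1) hcG0 hn1 hcF0 hm hD A4 B5 D1

end Pth

end Vale.Agent.P106.U.Cell
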