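import Vale.Agent.P106.U.H513.Dif
import Vale.Agent.P106.U.H118.Rise
import Vale.Agent.P106.U.H824.StripL

/-!
# P106 / U / H513 : the difference of two copies, general level, and its probability (helper513)

* `DifR r i1 k b w0 w1` : the slabs of the steps `i1` (second copy) and `k` (first copy) are different at the
  level `r` (`DifK` of `Dif.lean` = level `R i b + m1`).
* `difR_phi`, `difR_kap` : from the own slopes, resp. from the normalised kappa `nk` at the time of the first copy;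
  the agreement of the alphas of the two copies is a hypothesis (`al_copy5` : same letter `T i`).
* `two_ex5`, `two_line5`, `two_near5` : pairs of copies.
* `pr_phi`, `pr_line` : probability that the two copies are not different; input of `pr_line` : no line is heavy
  given `X` (strips of helper824), colp of the time block.
* `pr_difR_phi`, `pr_difR_kap` : both together.
-/

set_option autoImplicit false

namespace Vale.Agent.P106.U.Cell

open Finset Vale.Agent.P127 Vale.Agent.P127.Stk Vale.Agent.P127.U.Mic Vale.Agent.P127.U.Pin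
open Vale.Agent.P127.U.CellD (q2 rd Nb rd_err rd_sub q2_pos q2_add q2_le q2_mul_pow)
open Vale.Agent.P106.U.H118 (two)

namespace Pth

variable {Ω τ : Type} (C : Pth Ω τ)

/-- the slabs of the steps `i1` (second copy) and `k` (first copy) are different at the level `r` -/
def DifR (r i1 k b : ℕ) (w0 w1 : Ω) : Prop :=
  q2 r ≤ |(C.Fs i1 b (C.s (k + 1) w0) w1).cV (C.l w0) (C.s (k + 1) w0) -
      ((C.Fs i1 b (C.s (k + 1) w0) w1).cN (C.l w0) (C.s (k + 1) w0) /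
        (C.Fs k b (C.s (k + 1) w0) w0).cN (C.l w0) (C.s (k + 1) w0)) *
        (C.Fs k b (C.s (k + 1) w0) w0).cV (C.l w0) (C.s (k + 1) w0)| ∨
  q2 r ≤ |(C.Fs i1 b (C.s (k + 1) w0) w1).ka -
      ((C.Fs i1 b (C.s (k + 1) w0) w1).cN (C.l w0) (C.s (k + 1) w0) /
        (C.Fs k b (C.s (k + 1) w0) w0).cN (C.l w0) (C.s (k + 1) w0)) *
        (C.Fs k b (C.s (k + 1) w0) w0).ka| * q2 b

theorem difK_iff {i i1 k b m1 : ℕ} {w0 w1 : Ω} :
    C.DifK i i1 k b m1 w0 w1 ↔ C.DifR (C.R i b + m1) i1 k b w0 w1 := Iff.rfl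

/-- own slopes -/
theorem difR_phi {K : ℝ} (hK : 1 ≤ K) {i1 k b m1 e x : ℕ} {w0 w1 : Ω}
    (h0 : C.Ok K w0) (h1 : C.Ok K w1) (hl : C.l w0 = C.l w1) (hk : i1 ≤ k)
    (hR : e + x + 3 * C.μ ≤ C.R i1 b)
    (hm : K * q2 m1 + 8 * K ^ 4 * q2 x ≤ 1)
    (hD : q2 e ≤ |C.p w0 - C.p w1|) : C.DifR (e + m1) i1 k b w0 w1 := by
  have hK0 : 0 < K := by linarith
  have hn0 := h0.n1 k
  have hn1 := h1.n1 i1
  have hn1' := h1.n2 i1
  have hcG0 := cN_pos5 hK0 hn1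
  have hcF0 := cN_pos5 hK0 hn0
  have eG : (C.Fs i1 b (C.s (k + 1) w0) w1).cN (C.l w0) (C.s (k + 1) w0) =
      (C.F i1 w1).cN (C.l w1) (C.s i1 w1) := by
    rw [Fs_cN5, hl]
  have eF : (C.Fs k b (C.s (k + 1) w0) w0).cN (C.l w0) (C.s (k + 1) w0) =
      (C.F k w0).cN (C.l w0) (C.s k w0) := Fs_cN5 _ _ _ _ _ _
  left
  rw [eG, eF, Fs_cV5, Fs_cV5, hl, F_cV5, ← hl, F_cV5, hl]
  rw [hl] at hcF0
  generalize hcG : (C.F i1 w1).cN (C.l w1) (C.s i1 w1) = cG at *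
  generalize hcF : (C.F k w0).cN (C.l w1) (C.s k w0) = cF at *
  have iF : 1 / cF ≤ K := by
    rw [div_le_iff₀ hcF0]
    rw [hl, hcF] at hn0
    exact hn0
  have hrho : cG / cF ≤ K ^ 2 := by
    have : cG / cF = cG * (1 / cF) := by ring
    rw [this]
    have h3 : 0 ≤ 1 / cF := by positivity
    calc cG * (1 / cF) ≤ K * K := by gcongr
      _ = K ^ 2 := by ring
  have f1 := C.R_le_rf5 i1 b
  have r1 := C.ro_err5 4 (C.R i1 b - 3 * C.μ) (C.sl i1 b w1)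
  have r0 := C.ro_err5 4 (C.R k b - 3 * C.μ) (C.sl k b w0)
  have g0 : q2 (C.R k b - 3 * C.μ) ≤ q2 e * q2 x := by
    rw [← q2_add]
    refine q2_le ?_
    have := C.R_mono5 hk b
    omega
  have g1 : q2 (C.R i1 b - 3 * C.μ) ≤ q2 e * q2 x := by
    rw [← q2_add]
    exact q2_le (by omega)
  have p1 := rd_err (C.rf i1) (C.p w1)
  have p0 := rd_err (C.rf k) (C.p w0)
  have g2 : q2 (C.rf i1) ≤ q2 e * q2 x := by
    rw [← q2_add]
    exact q2_le (by omega)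
  have g3 : q2 (C.rf k) ≤ q2 e * q2 x := by
    rw [← q2_add]
    refine q2_le ?_
    have := C.hf hk
    omega
  generalize C.ro 4 (C.R i1 b - 3 * C.μ) (C.sl i1 b w1) - C.sl i1 b w1 = e1 at *
  generalize C.ro 4 (C.R k b - 3 * C.μ) (C.sl k b w0) - C.sl k b w0 = e0 at *
  have hq0 := q2_pos e
  have t8 : q2 e * 1 ≤ |C.p w1 - C.p w0| := by
    rw [mul_one, abs_sub_comm]; exact hD
  rw [q2_add]
  replace p1 := p1.trans g2
  replace p0 := p0.trans g3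
  replace r0 := r0.trans g0
  replace r1 := r1.trans g1
  exact real_phi5 hK hq0 (q2_pos x) (q2_pos m1) hcG0 hcF0 hn1 hn1' hrho hm p1 p0 r1 r0 t8

/-- normalised kappa at the true time of the first copy; `hal` : agreement of the alphas of the copies -/
theorem difR_kap {K : ℝ} (hK : 1 ≤ K) {i1 k b m1 e x y kI : ℕ} {w0 w1 : Ω}
    (h0 : C.Ok K w0) (h1 : C.Ok K w1) (hl : C.l w0 = C.l w1)
    (hal : q2 (C.a i1) * |(C.F i1 w1).al / (C.F i1 w1).cN (C.l w1) (C.s i1 w1) -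
      (C.F i1 w0).al / (C.F i1 w0).cN (C.l w0) (C.s i1 w0)| ≤ 4 * K ^ 4 * q2 kI)
    (hk : i1 ≤ k) (ha : C.a i1 + y ≤ C.a (k + 1)) (hx : e + x ≤ C.rk i1) (hy : e + x ≤ kI + y)
    (hm : K * q2 m1 + 8 * K ^ 4 * q2 x ≤ 1)
    (hD : q2 e ≤ |C.nk i1 w1 (C.t w0) - C.nk i1 w0 (C.t w0)|) :
    C.DifR (e + b + m1) i1 k b w0 w1 := by
  have hK0 : 0 < K := by linarith
  have hn0 := h0.n1 k
  have hn1 := h1.n1 i1
  have hcG0 := cN_pos5 hK0 hn1
  have hcF0 := cN_pos5 hK0 hn0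
  have eG : (C.Fs i1 b (C.s (k + 1) w0) w1).cN (C.l w0) (C.s (k + 1) w0) =
      (C.F i1 w1).cN (C.l w1) (C.s i1 w1) := by
    rw [Fs_cN5, hl]
  have eF : (C.Fs k b (C.s (k + 1) w0) w0).cN (C.l w0) (C.s (k + 1) w0) =
      (C.F k w0).cN (C.l w0) (C.s k w0) := Fs_cN5 _ _ _ _ _ _
  right
  rw [eG, eF, show e + b + m1 = (e + m1) + b by ring, q2_add]
  refine mul_le_mul_of_nonneg_right ?_ (q2_pos b).le
  rw [Fs_ka5, Fs_ka5]
  have hqr : q2 (C.rk i1) ≤ q2 e * q2 x := by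
    rw [← q2_add]
    exact q2_le hx
  have s3 : |C.s (k + 1) w0 - C.t w0| ≤ q2 (C.a i1) * q2 y := by
    rw [← q2_add]
    exact (C.s_err5 (k + 1) w0).trans (q2_le ha)
  have A4 := (C.nk_step5 hK h0 hk).trans (mul_le_mul_of_nonneg_left hqr
    (by positivity : 0 ≤ 4 * K ^ 4))
  have hq0 := q2_pos e
  have hq1 := q2_pos y
  have hyy : q2 y * q2 kI ≤ q2 e * q2 x := by
    rw [← q2_add, ← q2_add]
    exact q2_le (by omega)
  have B5 : |(C.s (k + 1) w0 - C.t w0) * ((C.F i1 w1).al / (C.F i1 w1).cN (C.l w1) (C.s i1 w1) -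
      (C.F i1 w0).al / (C.F i1 w0).cN (C.l w0) (C.s i1 w0))| ≤
      4 * K ^ 4 * (q2 e * q2 x) := by
    rw [abs_mul]
    calc |C.s (k + 1) w0 - C.t w0| * |(C.F i1 w1).al / (C.F i1 w1).cN (C.l w1) (C.s i1 w1) -
      (C.F i1 w0).al / (C.F i1 w0).cN (C.l w0) (C.s i1 w0)|
        ≤ (q2 (C.a i1) * q2 y) * |(C.F i1 w1).al / (C.F i1 w1).cN (C.l w1) (C.s i1 w1) -
      (C.F i1 w0).al / (C.F i1 w0).cN (C.l w0) (C.s i1 w0)| := by gcongr
      _ = q2 y * (q2 (C.a i1) * |(C.F i1 w1).al / (C.F i1 w1).cN (C.l w1) (C.s i1 w1) -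
      (C.F i1 w0).al / (C.F i1 w0).cN (C.l w0) (C.s i1 w0)|) := by ring
      _ ≤ q2 y * (4 * K ^ 4 * q2 kI) := by gcongr
      _ = 4 * K ^ 4 * (q2 y * q2 kI) := by ring
      _ ≤ _ := by gcongr
  have D1 : C.nk i1 w1 (C.s (k + 1) w0) - C.nk k w0 (C.s (k + 1) w0) =
      (C.nk i1 w1 (C.t w0) - C.nk i1 w0 (C.t w0)) -
      (C.s (k + 1) w0 - C.t w0) * ((C.F i1 w1).al / (C.F i1 w1).cN (C.l w1) (C.s i1 w1) -
        (C.F i1 w0).al / (C.F i1 w0).cN (C.l w0) (C.s i1 w0)) -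
      (C.nk k w0 (C.s (k + 1) w0) - C.nk i1 w0 (C.s (k + 1) w0)) := by
    unfold nk Fu.nk
    ring
  have D1' : C.nk i1 w1 (C.s (k + 1) w0) - C.nk k w0 (C.s (k + 1) w0) =
      ((C.F i1 w1).ka - (C.s (k + 1) w0 - C.s i1 w1) * (C.F i1 w1).al) /
        (C.F i1 w1).cN (C.l w1) (C.s i1 w1) -
      ((C.F k w0).ka - (C.s (k + 1) w0 - C.s k w0) * (C.F k w0).al) /
        (C.F k w0).cN (C.l w0) (C.s k w0) := rfl
  rw [D1'] at D1
  have hD' : q2 e * 1 ≤ |C.nk i1 w1 (C.t w0) - C.nk i1 w0 (C.t w0)| := by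
    rw [mul_one]; exact hD
  rw [q2_add]
  exact real_kap5 hK hq0 (q2_pos m1) hcG0 hn1 hcF0 hm hD' A4 B5 D1

end Pth

/-! ### pairs of copies -/

section pairs

variable {Ω : Type} [Fintype Ω] {S : Type*}

/-- expectation over two copies -/
theorem two_ex5 (Q : Law Ω) (X : Ω → S) (F : Ω → Ω → ℝ) :
    (two Q X).ex (fun p => F p.fst p.snd) =
      Q.ex (fun a => (Q.cond X (X a)).ex (fun b => F a b)) := by
  classical
  unfold Law.ex
  show ∑ p : Law.GT X X, Q.w p.fst * Q.w p.snd / Q.pr X (X p.fst) * F p.fst p.snd = _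
  rw [Law.GT_sum X X (fun a b => Q.w a * Q.w b / Q.pr X (X a) * F a b)]
  refine Finset.sum_congr rfl fun a _ => ?_
  rcases (Q.nn a).eq_or_lt with h0 | h0
  · simp [← h0]
  · have h1 := Q.pr_pos X h0
    rw [Finset.sum_filter, Finset.mul_sum]
    refine Finset.sum_congr rfl fun b _ => ?_
    rw [Q.cond_w X (X a) h1]
    by_cases hb : X b = X a
    · rw [if_pos hb, if_pos hb]
      ring
    · rw [if_neg hb, if_neg hb]
      ring

/-- the same, second copy first -/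
theorem two_ex5' (Q : Law Ω) (X : Ω → S) (F : Ω → Ω → ℝ) :
    (two Q X).ex (fun p => F p.fst p.snd) =
      Q.ex (fun b => (Q.cond X (X b)).ex (fun a => F a b)) := by
  rw [← two_ex5 Q X (fun a b => F b a)]
  unfold Law.ex
  refine Fintype.sum_equiv (Law.GT.swapE X X) _ _ fun p => ?_
  have h1 : (two Q X).w p = (two Q X).w (Law.GT.swapE X X p) := by
    show Q.w p.fst * Q.w p.snd / Q.pr X (X p.fst) = Q.w p.snd * Q.w p.fst / Q.pr X (X p.snd)
    rw [← p.eq, mul_comm (Q.w p.fst)]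
  rw [h1]
  rfl

theorem prE_ex5 {Ω' : Type} [Fintype Ω'] (Q : Law Ω') (E : Ω' → Prop) :
    prE Q E = Q.ex (fun ω => Law.ind (E ω)) := by
  classical
  unfold prE Law.ex
  rw [Finset.sum_filter]
  refine Finset.sum_congr rfl fun ω _ => ?_
  by_cases h : E ω
  · beta_reduce
    rw [if_pos h, Law.ind_of h, mul_one]
  · beta_reduce
    rw [if_neg h, Law.ind_not h, mul_zero]

theorem prE_mono5' {Ω' : Type} [Fintype Ω'] (Q : Law Ω') {E F : Ω' → Prop}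
    (h : ∀ ω, 0 < Q.w ω → E ω → F ω) : prE Q E ≤ prE Q F := by
  rw [prE_ex5, prE_ex5]
  exact Q.ex_mono fun ω hω => ind_mono (h ω hω)

theorem prE_or5 {Ω' : Type} [Fintype Ω'] (Q : Law Ω') (E F : Ω' → Prop) :
    prE Q (fun ω => E ω ∨ F ω) ≤ prE Q E + prE Q F := by
  rw [prE_ex5, prE_ex5, prE_ex5, ← Q.ex_add]
  refine Q.ex_mono fun ω _ => ?_
  by_cases h1 : E ω
  · rw [Law.ind_of (p := E ω ∨ F ω) (Or.inl h1), Law.ind_of h1]
    linarith [ind_nonneg (F ω)]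
  · by_cases h2 : F ω
    · rw [Law.ind_of (p := E ω ∨ F ω) (Or.inr h2), Law.ind_of h2]
      linarith [ind_nonneg (E ω)]
    · rw [Law.ind_not (p := E ω ∨ F ω) (by tauto)]
      linarith [ind_nonneg (E ω), ind_nonneg (F ω)]

theorem prE_fst5 (Q : Law Ω) (X : Ω → S) (E : Ω → Prop) :
    prE (two Q X) (fun p => E p.fst) = prE Q E := by
  rw [prE_ex5, prE_ex5]
  exact Law.glue_ex (fun _ => rfl) (fun a => Law.ind (E a))

theorem prE_snd5 (Q : Law Ω) (X : Ω → S) (E : Ω → Prop) :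
    prE (two Q X) (fun p => E p.snd) = prE Q E := by
  rw [prE_ex5, prE_ex5]
  exact Law.glue_ex' (fun _ => rfl) (fun a => Law.ind (E a))

/-- **a line of the second copy is light for the first copy** -/
theorem two_line5 (Q : Law Ω) (X : Ω → S) {ι V : Type*} (mem : ι → V → Prop) (v : Ω → V)
    (b : Ω → ι) {κ : ℝ} (h : ∀ s : S → ι, prE Q (fun ω => mem (s (X ω)) (v ω)) ≤ κ) :
    prE (two Q X) (fun p => mem (b p.snd) (v p.fst)) ≤ κ := by
  classical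
  have hne : Nonempty Ω := by
    by_contra hcon
    rw [not_nonempty_iff] at hcon
    have := Q.sum_one
    simp at this
  -- the best line for every value of `X`
  have hmax : ∀ x : S, ∃ w : Ω, ∀ w' : Ω,
      (Q.cond X x).ex (fun a => Law.ind (mem (b w') (v a))) ≤
        (Q.cond X x).ex (fun a => Law.ind (mem (b w) (v a))) := fun x =>
    (Finite.exists_max fun w' : Ω => (Q.cond X x).ex (fun a => Law.ind (mem (b w') (v a))))
  choose w hw using hmax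
  have h1 := h fun x => b (w x)
  refine le_trans ?_ h1
  rw [prE_ex5, two_ex5' Q X (fun a b' => Law.ind (mem (b b') (v a))), prE_ex5,
    ← ex_cond Q X (fun ω => Law.ind (mem (b (w (X ω))) (v ω)))]
  refine Q.ex_mono fun ω hω => (hw (X ω) ω).trans (le_of_eq ?_)
  refine Law.ex_congr _ fun ω' hω' => ?_
  rw [(cond_supp Q X (Q.pr_pos X hω) hω').1]

/-- two copies of an integer variable at distance at most `k` -/
theorem two_near5 (Q : Law Ω) (X : Ω → S) (Y : Ω → ℤ) (k : ℕ) :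
    prE (two Q X) (fun p => |Y p.fst - Y p.snd| ≤ k) ≤ (2 * k + 1) * colp Q Y X := by
  rw [prE_ex5, two_ex5 Q X (fun a b => Law.ind (|Y a - Y b| ≤ k))]
  exact pair_near_le Q Y X k

end pairs

/-- floors of numbers whose distance is at most `c` units -/
lemma floor_near5 {x y : ℝ} {c : ℕ} (h : |x - y| < c) : |⌊x⌋ - ⌊y⌋| ≤ (c : ℤ) := by
  rw [abs_lt] at h
  have h1 := Int.floor_le x
  have h2 := Int.lt_floor_add_one x
  have h3 := Int.floor_le y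
  have h4 := Int.lt_floor_add_one y
  have h5 : ((⌊x⌋ - ⌊y⌋ : ℤ) : ℝ) < ((c + 1 : ℤ) : ℝ) := by push_cast; linarith
  have h6 : ((⌊y⌋ - ⌊x⌋ : ℤ) : ℝ) < ((c + 1 : ℤ) : ℝ) := by push_cast; linarith
  have h7 : ⌊x⌋ - ⌊y⌋ < c + 1 := by exact_mod_cast h5
  have h8 : ⌊y⌋ - ⌊x⌋ < c + 1 := by exact_mod_cast h6
  rw [abs_le]
  omega

namespace Pth

open Vale.Agent.P106.U.StripL (Ld inc)

variable {Ω τ : Type} [Fintype Ω] (C : Pth Ω τ) {S : Type*}

/-- **probability that the own slopes agree** -/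
theorem pr_phi (Q : Law Ω) (X : Ω → S) (e : ℕ) :
    prE (two Q X) (fun p => ¬ q2 e ≤ |C.p p.fst - C.p p.snd|) ≤
      3 * colp Q (fun ω => fl1 e (C.p ω)) X := by
  have h1 := two_near5 Q X (fun ω => fl1 e (C.p ω)) 1
  refine le_trans (prE_mono5' _ fun p _ hp => ?_) (h1.trans (le_of_eq (by norm_num)))
  push Not at hp
  have h2 : |(2 : ℝ) ^ e * C.p p.fst - (2 : ℝ) ^ e * C.p p.snd| < (1 : ℕ) := by
    rw [← mul_sub, abs_mul, abs_of_pos (by positivity : (0 : ℝ) < 2 ^ e)]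
    calc (2 : ℝ) ^ e * |C.p p.fst - C.p p.snd| < 2 ^ e * q2 e := by gcongr
      _ = ((1 : ℕ) : ℝ) := by rw [q2_mul_pow]; norm_num
  exact floor_near5 h2

/-- the net line of the second copy in the strip `d` -/
noncomputable def lnI (m i1 : ℕ) (d : Ld) (ω : Ω) : ℤ × ℤ :=
  (⌊2 ^ (m + 4) * (2 ^ d.k * (C.nk i1 ω d.s0 - d.k0))⌋,
    ⌊2 ^ (m + 4) * (2 ^ d.k * ((C.nk i1 ω (d.s0 + 1 / 2 ^ d.a) - C.nk i1 ω d.s0) -
      d.al / 2 ^ d.a))⌋)

omit [Fintype Ω] in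
/-- the line of the slab in normalised coordinates of the strip -/
lemma nk_line5 (i1 : ℕ) (d : Ld) (ω : Ω) (x : ℝ) :
    2 ^ d.k * (C.nk i1 ω x - d.line x) = 2 ^ d.k * (C.nk i1 ω d.s0 - d.k0) +
      2 ^ d.k * ((C.nk i1 ω (d.s0 + 1 / 2 ^ d.a) - C.nk i1 ω d.s0) - d.al / 2 ^ d.a) * d.sN x := by
  have h0 : (2 : ℝ) ^ d.a ≠ 0 := by positivity
  unfold nk Fu.nk Ld.line Ld.sN
  field_simp
  ring

omit [Fintype Ω] in
/-- two copies which are not different: the net line of the second copy passes through the cell of the first copy,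
or the time blocks are close -/
theorem line_or_near5 {m i1 : ℕ} {d : Ld} {κ : Ω → ℝ} {w0 w1 : Ω}
    (i0 : d.In (C.t w0) (κ w0)) (i1' : d.In (C.t w1) (κ w1))
    (c0 : |κ w0 - C.nk i1 w0 (C.t w0)| ≤ q2 (d.k + m + 4))
    (c1 : |κ w1 - C.nk i1 w1 (C.t w1)| ≤ q2 (d.k + m + 4))
    (h : ¬ q2 (d.k + m + 3) ≤ |C.nk i1 w1 (C.t w0) - C.nk i1 w0 (C.t w0)|) :
    inc m (C.lnI m i1 d w1) (d.cl m (C.t w0) (κ w0)) ∨
      |d.tB m (C.t w0) - d.tB m (C.t w1)| ≤ 3 := by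
  push Not at h
  have hp : (0 : ℝ) < 2 ^ d.k := by positivity
  have hpm : (0 : ℝ) < 2 ^ m := by positivity
  have e4 : (2 : ℝ) ^ d.k * q2 (d.k + m + 4) = 1 / 2 ^ (m + 4) := by
    rw [show d.k + m + 4 = d.k + (m + 4) by ring, q2_add, ← mul_assoc, q2_mul_pow, one_mul]
    unfold q2
    rw [one_div_pow]
  have e3 : (2 : ℝ) ^ d.k * q2 (d.k + m + 3) = 1 / 2 ^ (m + 3) := by
    rw [show d.k + m + 3 = d.k + (m + 3) by ring, q2_add, ← mul_assoc, q2_mul_pow, one_mul]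
    unfold q2
    rw [one_div_pow]
  have E4 : (1 : ℝ) / 2 ^ (m + 4) = (1 / 2 ^ m) / 16 := by rw [pow_add]; field_simp; norm_num
  have E3 : (1 : ℝ) / 2 ^ (m + 3) = (1 / 2 ^ m) / 8 := by rw [pow_add]; field_simp; norm_num
  have E2 : (1 : ℝ) / 2 ^ (m + 2) = (1 / 2 ^ m) / 4 := by rw [pow_add]; field_simp; norm_num
  have E1 : (1 : ℝ) / 2 ^ m ≤ 1 := by
    rw [div_le_one hpm]
    exact one_le_pow₀ (by norm_num)
  have E0 : (0 : ℝ) < 1 / 2 ^ m := by positivity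
  set A := 2 ^ d.k * (C.nk i1 w1 d.s0 - d.k0) with hA
  set B := 2 ^ d.k * ((C.nk i1 w1 (d.s0 + 1 / 2 ^ d.a) - C.nk i1 w1 d.s0) - d.al / 2 ^ d.a) with hB
  have l0 := C.nk_line5 i1 d w1 (C.t w0)
  have l1 := C.nk_line5 i1 d w1 (C.t w1)
  rw [← hA, ← hB] at l0 l1
  -- the first copy
  have u0 : |d.uN (C.t w0) (κ w0) - (A + B * d.sN (C.t w0))| ≤ 1 / 2 ^ (m + 2) := by
    rw [← l0]
    unfold Ld.uN
    rw [show 2 ^ d.k * (κ w0 - d.line (C.t w0)) - 2 ^ d.k * (C.nk i1 w1 (C.t w0) -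
      d.line (C.t w0)) = 2 ^ d.k * ((κ w0 - C.nk i1 w0 (C.t w0)) -
        (C.nk i1 w1 (C.t w0) - C.nk i1 w0 (C.t w0))) by ring, abs_mul, abs_of_pos hp]
    have h1 := abs_sub (κ w0 - C.nk i1 w0 (C.t w0)) (C.nk i1 w1 (C.t w0) - C.nk i1 w0 (C.t w0))
    have h2 : (2 : ℝ) ^ d.k * |(κ w0 - C.nk i1 w0 (C.t w0)) -
        (C.nk i1 w1 (C.t w0) - C.nk i1 w0 (C.t w0))| ≤
        2 ^ d.k * (q2 (d.k + m + 4) + q2 (d.k + m + 3)) := by
      gcongr
      linarith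
    rw [mul_add, e4, e3] at h2
    rw [E4, E3] at h2
    rw [E2]
    linarith
  -- the second copy
  have u1 : |d.uN (C.t w1) (κ w1) - (A + B * d.sN (C.t w1))| ≤ 1 / 2 ^ (m + 4) := by
    rw [← l1]
    unfold Ld.uN
    rw [show 2 ^ d.k * (κ w1 - d.line (C.t w1)) - 2 ^ d.k * (C.nk i1 w1 (C.t w1) -
      d.line (C.t w1)) = 2 ^ d.k * (κ w1 - C.nk i1 w1 (C.t w1)) by ring, abs_mul, abs_of_pos hp]
    have h2 : (2 : ℝ) ^ d.k * |κ w1 - C.nk i1 w1 (C.t w1)| ≤ 2 ^ d.k * q2 (d.k + m + 4) := by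
      gcongr
    rwa [e4] at h2
  by_cases hs : |B| ≤ 2 ^ m
  · left
    rw [Ld.cl_eq]
    exact StripL.inc_of_near (Ld.sN_nonneg i0) (Ld.sN_lt i0).le hs u0
  · right
    push Not at hs
    have v0 := Ld.uN_le i0
    have v1 := Ld.uN_le i1'
    have h1 : |B * (d.sN (C.t w0) - d.sN (C.t w1))| < 3 := by
      rw [E2] at u0
      rw [E4] at u1
      rw [abs_le] at u0 u1 v0 v1
      rw [show B * (d.sN (C.t w0) - d.sN (C.t w1)) =
        (A + B * d.sN (C.t w0)) - (A + B * d.sN (C.t w1)) by ring, abs_lt]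
      constructor <;> linarith
    rw [abs_mul] at h1
    have h2 : 2 ^ m * |d.sN (C.t w0) - d.sN (C.t w1)| < 3 := by
      refine lt_of_le_of_lt ?_ h1
      gcongr
    have e5 : ∀ x : ℝ, 2 ^ (d.a + m) * (x - d.s0) = 2 ^ m * d.sN x := by
      intro x
      unfold Ld.sN
      rw [pow_add]
      ring
    unfold Ld.tB
    have h3 : |2 ^ (d.a + m) * (C.t w0 - d.s0) - 2 ^ (d.a + m) * (C.t w1 - d.s0)| < (3 : ℕ) := by
      rw [e5, e5, ← mul_sub, abs_mul, abs_of_pos hpm]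
      exact_mod_cast h2
    exact_mod_cast floor_near5 h3

/-- **probability that the lines agree** : `hline` : no line is heavy given `X` -/
theorem pr_line (Q : Law Ω) (X : Ω → S) {m i1 kI : ℕ} (d : S → Ld) (κ : Ω → ℝ) (B : Ω → Prop)
    (hd : ∀ ω, 0 < Q.w ω → (d (X ω)).k = kI)
    (hin : ∀ ω, 0 < Q.w ω → (d (X ω)).In (C.t ω) (κ ω))
    (hc : ∀ ω, 0 < Q.w ω → ¬ B ω → |κ ω - C.nk i1 ω (C.t ω)| ≤ q2 (kI + m + 4))
    {κ1 : ℝ} (hline : ∀ s : S → ℤ × ℤ,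
      prE Q (fun ω => inc m (s (X ω)) ((d (X ω)).cl m (C.t ω) (κ ω))) ≤ κ1) :
    prE (two Q X) (fun p => ¬ (q2 (kI + m + 3) ≤
        |C.nk i1 p.snd (C.t p.fst) - C.nk i1 p.fst (C.t p.fst)|) ∨ B p.fst ∨ B p.snd) ≤
      κ1 + 7 * colp Q (fun ω => (d (X ω)).tB m (C.t ω)) X + 2 * prE Q B := by
  have h1 := two_line5 Q X (inc m) (fun ω => (d (X ω)).cl m (C.t ω) (κ ω))
    (fun ω => C.lnI m i1 (d (X ω)) ω) hline
  have h2 := two_near5 Q X (fun ω => (d (X ω)).tB m (C.t ω)) 3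
  have h3 := prE_fst5 Q X B
  have h4 := prE_snd5 Q X B
  have h5 : prE (two Q X) (fun p => ¬ (q2 (kI + m + 3) ≤
        |C.nk i1 p.snd (C.t p.fst) - C.nk i1 p.fst (C.t p.fst)|) ∨ B p.fst ∨ B p.snd) ≤
      prE (two Q X) (fun p => (inc m (C.lnI m i1 (d (X p.snd)) p.snd)
          ((d (X p.fst)).cl m (C.t p.fst) (κ p.fst)) ∨
        |(d (X p.fst)).tB m (C.t p.fst) - (d (X p.snd)).tB m (C.t p.snd)| ≤ (3 : ℕ)) ∨
        (B p.fst ∨ B p.snd)) := by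
    refine prE_mono5' _ fun p hp h => ?_
    by_cases hB : B p.fst ∨ B p.snd
    · exact Or.inr hB
    · push Not at hB
      rcases h with h | h | h
      · left
        obtain ⟨w0, w1⟩ := H118.two_supp hp
        have ex : X p.fst = X p.snd := p.eq
        have k0 := hd p.fst w0
        have := C.line_or_near5 (m := m) (i1 := i1) (d := d (X p.fst)) (κ := κ) (w0 := p.fst)
          (w1 := p.snd) (hin _ w0) (by rw [ex]; exact hin _ w1)
          (by rw [k0]; exact hc _ w0 hB.1) (by rw [k0]; exact hc _ w1 hB.2)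
          (by rw [k0]; exact h)
        rw [← ex]
        exact_mod_cast this
      · exact absurd h hB.1
      · exact absurd h hB.2
  have h6 := prE_or5 (two Q X) (fun p => inc m (C.lnI m i1 (d (X p.snd)) p.snd)
          ((d (X p.fst)).cl m (C.t p.fst) (κ p.fst)) ∨
        |(d (X p.fst)).tB m (C.t p.fst) - (d (X p.snd)).tB m (C.t p.snd)| ≤ (3 : ℕ))
        (fun p => B p.fst ∨ B p.snd)
  have h7 := prE_or5 (two Q X) (fun p => inc m (C.lnI m i1 (d (X p.snd)) p.snd)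
          ((d (X p.fst)).cl m (C.t p.fst) (κ p.fst)))
        (fun p => |(d (X p.fst)).tB m (C.t p.fst) - (d (X p.snd)).tB m (C.t p.snd)| ≤ (3 : ℕ))
  have h8 := prE_or5 (two Q X) (fun p => B p.fst) (fun p => B p.snd)
  rw [h3, h4] at h8
  have h9 : (2 * ((3 : ℕ) : ℝ) + 1) = 7 := by norm_num
  rw [h9] at h2
  linarith

/-- **DIF, own slopes** : outside an event of small probability the two copies are different at the level `e + m1`
for all `k ≥ i1` -/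
theorem pr_difR_phi {K : ℝ} (hK : 1 ≤ K) (Q : Law Ω) (X : Ω → S) {i1 b m1 e x : ℕ} (B : Ω → Prop)
    (hl : ∀ ω ω', 0 < Q.w ω → 0 < Q.w ω' → X ω = X ω' → C.l ω = C.l ω')
    (hok : ∀ ω, 0 < Q.w ω → ¬ B ω → C.Ok K ω)
    (hR : e + x + 3 * C.μ ≤ C.R i1 b) (hm : K * q2 m1 + 8 * K ^ 4 * q2 x ≤ 1) :
    prE (two Q X) (fun p => ¬ ((C.Ok K p.fst ∧ C.Ok K p.snd) ∧
        ∀ k, i1 ≤ k → C.DifR (e + m1) i1 k b p.fst p.snd)) ≤
      3 * colp Q (fun ω => fl1 e (C.p ω)) X + 2 * prE Q B := by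
  have h1 := C.pr_phi Q X e
  have h3 := prE_fst5 Q X B
  have h4 := prE_snd5 Q X B
  have h5 : prE (two Q X) (fun p => ¬ ((C.Ok K p.fst ∧ C.Ok K p.snd) ∧
        ∀ k, i1 ≤ k → C.DifR (e + m1) i1 k b p.fst p.snd)) ≤
      prE (two Q X) (fun p => (¬ q2 e ≤ |C.p p.fst - C.p p.snd|) ∨ (B p.fst ∨ B p.snd)) := by
    refine prE_mono5' _ fun p hp h => ?_
    by_contra hcon
    push Not at hcon
    obtain ⟨g1, g2, g3⟩ := hcon
    obtain ⟨w0, w1⟩ := H118.two_supp hp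
    have o0 := hok _ w0 g2
    have o1 := hok _ w1 g3
    exact h ⟨⟨o0, o1⟩, fun k hk => C.difR_phi hK o0 o1 (hl _ _ w0 w1 p.eq) hk hR hm g1⟩
  have h6 := prE_or5 (two Q X) (fun p => ¬ q2 e ≤ |C.p p.fst - C.p p.snd|)
    (fun p => B p.fst ∨ B p.snd)
  have h8 := prE_or5 (two Q X) (fun p => B p.fst) (fun p => B p.snd)
  rw [h3, h4] at h8
  linarith

/-- **DIF, lines** : outside an event of small probability the two copies are different at the level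
`kI + m + 3 + b + m1` for all `k ≥ i1` with `a i1 + y ≤ a (k + 1)` -/
theorem pr_difR_kap {K : ℝ} (hK : 1 ≤ K) (Q : Law Ω) (X : Ω → S) {m i1 kI b m1 x y : ℕ}
    (d : S → Ld) (κ : Ω → ℝ) (B : Ω → Prop)
    (hl : ∀ ω ω', 0 < Q.w ω → 0 < Q.w ω' → X ω = X ω' → C.l ω = C.l ω')
    (hok : ∀ ω, 0 < Q.w ω → ¬ B ω → C.Ok K ω)
    (hd : ∀ ω, 0 < Q.w ω → (d (X ω)).k = kI)
    (hin : ∀ ω, 0 < Q.w ω → (d (X ω)).In (C.t ω) (κ ω))
    (hc : ∀ ω, 0 < Q.w ω → ¬ B ω → |κ ω - C.nk i1 ω (C.t ω)| ≤ q2 (kI + m + 4))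
    (hal : ∀ ω ω', 0 < Q.w ω → 0 < Q.w ω' → ¬ B ω → ¬ B ω' → X ω = X ω' →
      q2 (C.a i1) * |(C.F i1 ω').al / (C.F i1 ω').cN (C.l ω') (C.s i1 ω') -
        (C.F i1 ω).al / (C.F i1 ω).cN (C.l ω) (C.s i1 ω)| ≤ 4 * K ^ 4 * q2 kI)
    (hx : kI + m + 3 + x ≤ C.rk i1) (hy : m + 3 + x ≤ y)
    (hm : K * q2 m1 + 8 * K ^ 4 * q2 x ≤ 1)
    {κ1 : ℝ} (hline : ∀ s : S → ℤ × ℤ,
      prE Q (fun ω => inc m (s (X ω)) ((d (X ω)).cl m (C.t ω) (κ ω))) ≤ κ1) :
    prE (two Q X) (fun p => ¬ ((C.Ok K p.fst ∧ C.Ok K p.snd) ∧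
        ∀ k, i1 ≤ k → C.a i1 + y ≤ C.a (k + 1) →
          C.DifR (kI + m + 3 + b + m1) i1 k b p.fst p.snd)) ≤
      κ1 + 7 * colp Q (fun ω => (d (X ω)).tB m (C.t ω)) X + 2 * prE Q B := by
  refine le_trans (prE_mono5' _ fun p hp h => ?_) (C.pr_line Q X (m := m) (i1 := i1) (kI := kI)
    d κ B hd hin hc hline)
  by_contra hcon
  push Not at hcon
  obtain ⟨g1, g2, g3⟩ := hcon
  obtain ⟨w0, w1⟩ := H118.two_supp hp
  have o0 := hok _ w0 g2
  have o1 := hok _ w1 g3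
  exact h ⟨⟨o0, o1⟩, fun k hk hak => C.difR_kap hK o0 o1 (hl _ _ w0 w1 p.eq)
    (hal _ _ w0 w1 g2 g3 p.eq) hk hak hx (by omega) hm g1⟩

end Pth

end Vale.Agent.P106.U.Cell
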