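import Vale.Agent.P106.U.H513.Dif2
import Vale.Agent.P106.U.H118.RiseC
import Vale.Agent.P106.U.S3.Props

/-!
# P106 / U / H513 : the difference of two copies for a run (helper513)

`hb_run` : hypothesis `hb` of helper118's `rise_cell` for a `Run` of helper404: `i` a good time step at the cap `b`,
`X = (Z i, cell i b)`; outside probability `3 ε` the slabs of the steps `i1` (second copy) and `k` (first copy) are
different at the level `min (rf i) (rI i + b) + m + 2 c`.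
-/

set_option autoImplicit false

namespace Vale.Agent.P106.U.Cell

open Finset Vale.Agent.P127 Vale.Agent.P127.Stk Vale.Agent.P127.U.Mic Vale.Agent.P127.U.Pin
open Vale.Agent.P127.U.CellD (q2 rd Nb rd_err rd_sub q2_pos q2_add q2_le q2_mul_pow)
open Vale.Agent.P106.U.H118 (two)

namespace Pth

variable {Ω τ : Type} (C : Pth Ω τ)

theorem difR_mono5 {r r' i1 k b : ℕ} {w0 w1 : Ω} (h : r ≤ r') (hD : C.DifR r i1 k b w0 w1) :
    C.DifR r' i1 k b w0 w1 := by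
  rcases hD with h1 | h1
  · exact Or.inl ((q2_le h).trans h1)
  · exact Or.inr ((q2_le h).trans h1)

/-- normalised kappa at any time `θ` close to the time of the count -/
theorem difR_kapT {K : ℝ} (hK : 1 ≤ K) {i1 k b m1 e x y kI : ℕ} {w0 w1 : Ω} {θ : ℝ}
    (h0 : C.Ok K w0) (h1 : C.Ok K w1) (hl : C.l w0 = C.l w1)
    (hal : q2 (C.a i1) * |(C.F i1 w1).al / (C.F i1 w1).cN (C.l w1) (C.s i1 w1) -
      (C.F i1 w0).al / (C.F i1 w0).cN (C.l w0) (C.s i1 w0)| ≤ 4 * K ^ 4 * q2 kI)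
    (hk : i1 ≤ k) (hθ : |C.s (k + 1) w0 - θ| ≤ q2 (C.a i1) * q2 y)
    (hx : e + x ≤ C.rk i1) (hy : e + x ≤ kI + y)
    (hm : K * q2 m1 + 8 * K ^ 4 * q2 x ≤ 1)
    (hD : q2 e ≤ |C.nk i1 w1 θ - C.nk i1 w0 θ|) :
    C.DifR (e + b + m1) i1 k b w0 w1 := by
  have hK0 : 0 < K := by linarith
  have hn0 := h0.n1 k
  have hn1 := h1.n1 i1
  have hcG0 := cN_pos5 hK0 hn1
  have hcF0 := cN_pos5 hK0 hn0
  have eG : (C.Fs i1 b (C.s (k + 1) w0) w1).cN (C.l w0) (C.s (k + 1) w0) =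
      (C.F i1 w1).cN (C.l w1) (C.s i1 w1) := by
    rw [Fs_cN5, hl]
  have eF : (C.Fs k b (C.s (k + 1) w0) w0).cN (C.l w0) (C.s (k + 1) w0) =
      (C.F k w0).cN (C.l w0) (C.s k w0) := Fs_cN5 _ _ _ _ _ _
  right
  rw [eG, eF, show e + b + m1 = (e + m1) + b by ring, q2_add]
  refine mul_le_mul_of_nonneg_right ?_ (q2_pos b).le
  rw [Fs_ka5, Fs_ka5]
  have hqr : q2 (C.rk i1) ≤ q2 e * q2 x := by
    rw [← q2_add]
    exact q2_le hx
  have A4 := (C.nk_step5 hK h0 hk).trans (mul_le_mul_of_nonneg_left hqr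
    (by positivity : 0 ≤ 4 * K ^ 4))
  have hq0 := q2_pos e
  have hq1 := q2_pos y
  have hyy : q2 y * q2 kI ≤ q2 e * q2 x := by
    rw [← q2_add, ← q2_add]
    exact q2_le (by omega)
  have B5 : |(C.s (k + 1) w0 - θ) * ((C.F i1 w1).al / (C.F i1 w1).cN (C.l w1) (C.s i1 w1) -
      (C.F i1 w0).al / (C.F i1 w0).cN (C.l w0) (C.s i1 w0))| ≤
      4 * K ^ 4 * (q2 e * q2 x) := by
    rw [abs_mul]
    calc |C.s (k + 1) w0 - θ| * |(C.F i1 w1).al / (C.F i1 w1).cN (C.l w1) (C.s i1 w1) -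
      (C.F i1 w0).al / (C.F i1 w0).cN (C.l w0) (C.s i1 w0)|
        ≤ (q2 (C.a i1) * q2 y) * |(C.F i1 w1).al / (C.F i1 w1).cN (C.l w1) (C.s i1 w1) -
      (C.F i1 w0).al / (C.F i1 w0).cN (C.l w0) (C.s i1 w0)| := by gcongr
      _ = q2 y * (q2 (C.a i1) * |(C.F i1 w1).al / (C.F i1 w1).cN (C.l w1) (C.s i1 w1) -
      (C.F i1 w0).al / (C.F i1 w0).cN (C.l w0) (C.s i1 w0)|) := by ring
      _ ≤ q2 y * (4 * K ^ 4 * q2 kI) := by gcongr
      _ = 4 * K ^ 4 * (q2 y * q2 kI) := by ring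
      _ ≤ _ := by gcongr
  have D1 : C.nk i1 w1 (C.s (k + 1) w0) - C.nk k w0 (C.s (k + 1) w0) =
      (C.nk i1 w1 θ - C.nk i1 w0 θ) -
      (C.s (k + 1) w0 - θ) * ((C.F i1 w1).al / (C.F i1 w1).cN (C.l w1) (C.s i1 w1) -
        (C.F i1 w0).al / (C.F i1 w0).cN (C.l w0) (C.s i1 w0)) -
      (C.nk k w0 (C.s (k + 1) w0) - C.nk i1 w0 (C.s (k + 1) w0)) := by
    unfold nk Fu.nk
    ring
  have D1' : C.nk i1 w1 (C.s (k + 1) w0) - C.nk k w0 (C.s (k + 1) w0) =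
      ((C.F i1 w1).ka - (C.s (k + 1) w0 - C.s i1 w1) * (C.F i1 w1).al) /
        (C.F i1 w1).cN (C.l w1) (C.s i1 w1) -
      ((C.F k w0).ka - (C.s (k + 1) w0 - C.s k w0) * (C.F k w0).al) /
        (C.F k w0).cN (C.l w0) (C.s k w0) := rfl
  rw [D1'] at D1
  have hD' : q2 e * 1 ≤ |C.nk i1 w1 θ - C.nk i1 w0 θ| := by
    rw [mul_one]; exact hD
  rw [q2_add]
  exact real_kap5 hK hq0 (q2_pos m1) hcG0 hn1 hcF0 hm hD' A4 B5 D1

end Pth

/-! ### real inequalities -/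

/-- N-coefficients of two unit functionals with close own slopes -/
lemma cN_close5 {K δ c0 c1 p0 p1 : ℝ} (hK : 0 < K) (h0 : 1 ≤ 2 * K * c0) (h1 : 1 ≤ 2 * K * c1)
    (n0 : |c0 ^ 2 + (p0 * c0) ^ 2 - 1| ≤ δ) (n1 : |c1 ^ 2 + (p1 * c1) ^ 2 - 1| ≤ δ) (hδ : δ ≤ 1)
    (b0 : |p0| ≤ 1) (b1 : |p1| ≤ 1) : |c0 - c1| ≤ K * (2 * δ + 4 * |p0 - p1|) := by
  have hδ0 : 0 ≤ δ := (abs_nonneg _).trans n0
  have hc0 : 0 < c0 := by
    by_contra hcon
    have := mul_nonneg (by positivity : (0:ℝ) ≤ 2 * K) (by linarith : 0 ≤ -c0)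
    linarith
  have hc1 : 0 < c1 := by
    by_contra hcon
    have := mul_nonneg (by positivity : (0:ℝ) ≤ 2 * K) (by linarith : 0 ≤ -c1)
    linarith
  have e : (c0 ^ 2 - c1 ^ 2) * (1 + p0 ^ 2) = ((c0 ^ 2 + (p0 * c0) ^ 2 - 1) -
      (c1 ^ 2 + (p1 * c1) ^ 2 - 1)) + c1 ^ 2 * ((p1 - p0) * (p1 + p0)) := by ring
  have hc1s : c1 ^ 2 ≤ 2 := by
    have := (abs_le.1 n1).2
    nlinarith [sq_nonneg (p1 * c1)]
  have h2 : |c0 ^ 2 - c1 ^ 2| ≤ 2 * δ + 4 * |p0 - p1| := by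
    have h3 : |c0 ^ 2 - c1 ^ 2| ≤ |(c0 ^ 2 - c1 ^ 2) * (1 + p0 ^ 2)| := by
      rw [abs_mul, abs_of_pos (by positivity : (0:ℝ) < 1 + p0 ^ 2)]
      have := abs_nonneg (c0 ^ 2 - c1 ^ 2)
      nlinarith [sq_nonneg p0]
    refine h3.trans ?_
    rw [e]
    refine (abs_add_le _ _).trans ?_
    have h4 := abs_sub (c0 ^ 2 + (p0 * c0) ^ 2 - 1) (c1 ^ 2 + (p1 * c1) ^ 2 - 1)
    have h5 : |c1 ^ 2 * ((p1 - p0) * (p1 + p0))| ≤ 2 * (|p0 - p1| * 2) := by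
      rw [abs_mul, abs_mul, abs_of_nonneg (sq_nonneg c1), abs_sub_comm p1 p0]
      have h6 : |p1 + p0| ≤ 2 := (abs_add_le _ _).trans (by linarith)
      gcongr
    linarith
  have h7 : |c0 ^ 2 - c1 ^ 2| = |c0 - c1| * (c0 + c1) := by
    rw [show c0 ^ 2 - c1 ^ 2 = (c0 - c1) * (c0 + c1) by ring, abs_mul,
      abs_of_pos (by linarith : 0 < c0 + c1)]
  have h8 : 1 ≤ K * (c0 + c1) := by linarith
  have h9 := mul_le_mul_of_nonneg_right h8 (abs_nonneg (c0 - c1))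
  have h10 := mul_le_mul_of_nonneg_left h2 hK.le
  rw [h7] at h10
  linarith

/-- quotients of different numbers by close numbers -/
lemma quot_ge5 {K c0 c1 k0 k1 g d : ℝ} (hK : 1 ≤ K) (n0 : 1 ≤ K * c0) (n1 : 1 ≤ K * c1)
    (u1 : c1 ≤ K) (hk0 : |k0| ≤ 2 * K) (hg : g ≤ |k1 - k0|) (hd : |c0 - c1| ≤ d) :
    g - 2 * K ^ 4 * d ≤ K * |k1 / c1 - k0 / c0| := by
  have hK0 : 0 < K := by linarith
  have hc1 : 0 < c1 := by
    by_contra hcon
    have := mul_nonneg hK0.le (by linarith : 0 ≤ -c1)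
    linarith
  have hc0 : 0 < c0 := by
    by_contra hcon
    have := mul_nonneg hK0.le (by linarith : 0 ≤ -c0)
    linarith
  have hd0 : 0 ≤ d := (abs_nonneg _).trans hd
  have e : k1 - k0 = c1 * (k1 / c1 - k0 / c0) + k0 * ((c1 - c0) * (1 / c0)) := by
    field_simp
    ring
  have i0 : 1 / c0 ≤ K := by
    rw [div_le_iff₀ hc0]
    exact n0
  have j0 : 0 ≤ 1 / c0 := by positivity
  have h1 : |k1 - k0| ≤ c1 * |k1 / c1 - k0 / c0| + 2 * K * (d * K) := by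
    rw [e]
    refine (abs_add_le _ _).trans ?_
    rw [abs_mul, abs_of_pos hc1, abs_mul, abs_mul, abs_of_nonneg j0, abs_sub_comm c1 c0]
    have h2 : |k0| * (|c0 - c1| * (1 / c0)) ≤ 2 * K * (d * K) := by gcongr
    linarith
  have h3 : c1 * |k1 / c1 - k0 / c0| ≤ K * |k1 / c1 - k0 / c0| := by gcongr
  have h4 : 2 * K * (d * K) ≤ 2 * K ^ 4 * d := by
    have : K ^ 2 ≤ K ^ 4 := pow_le_pow_right₀ hK (by norm_num)
    nlinarith
  linarith

end Vale.Agent.P106.U.Cell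

namespace Vale.Agent.P106.U.S3

open Finset Vale.Agent.P127 Vale.Agent.P127.Stk Vale.Agent.P127.U.Mic Vale.Agent.P127.U.Pin
open Vale.Agent.P127.U.CellD (q2 rd Nb rd_err rd_sub q2_pos q2_add q2_le q2_mul_pow)
open Vale.Agent.P106.U.H118 (two)
open Vale.Agent.P106.U.Cell (Pth Ray Fu cN_close5 quot_ge5 two_line5 prE_mono5' prE_ex5)

namespace Run

variable {Ω : Type} [Fintype Ω] {τ υ : Type} (R : Run Ω τ υ)

/-- the letter of the copies at the step `i` -/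
noncomputable def XZ (i b : ℕ) (ω : Ω) : (Vale.Agent.P106.K.Ry × υ) × (τ × Pth.Dg) :=
  (R.Z i ω, R.C.cell i b ω)

variable {R}

lemma XZ_l {p : Num} {K c' g' gU : ℝ} (h : R.Ok p K c' g' gU) {i b : ℕ} {ω ω' : Ω}
    (e : R.XZ i b ω = R.XZ i b ω') : R.C.l ω = R.C.l ω' ∧ R.C.T i ω = R.C.T i ω' := by
  unfold XZ at e
  obtain ⟨e1, e2⟩ := Prod.mk.inj e
  unfold Z at e1
  obtain ⟨e3, _⟩ := Prod.mk.inj e1
  refine ⟨by rw [h.Cl, h.Cl, e3], ?_⟩
  exact (Prod.mk.inj e2).1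

/-- kappa of the slab of step `i1` at the time `tW` -/
noncomputable def kL (R : Run Ω τ υ) (i1 : ℕ) (ω : Ω) (x : ℝ) : ℝ :=
  (R.C.F i1 ω).ka - (x - R.C.s i1 ω) * (R.C.F i1 ω).al

/-- the N-coefficients of the slabs of the step `i1` of two copies -/
lemma cN_copies {p : Num} {K c' g' gU : ℝ} (h : R.Ok p K c' g' gU) (hK : 1 ≤ K) {i i1 x : ℕ}
    (hi : i ≤ i1) (hi1 : i1 ≤ R.n) (hq : K * q2 R.q ≤ 1) (hx : 2 * K ^ 2 * q2 x ≤ 1)
    (hxk : x ≤ R.C.rk i1) {w0 w1 : Ω} (s0 : 0 < R.Q.w w0) (s1 : 0 < R.Q.w w1)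
    (hZ : R.Z i w0 = R.Z i w1) :
    |(R.C.F i1 w0).cN (R.C.l w0) (R.C.s i1 w0) - (R.C.F i1 w1).cN (R.C.l w1) (R.C.s i1 w1)| ≤
      6 * K ^ 2 * q2 (R.C.rf i) + 2 * K * q2 (R.C.rk i1) := by
  have hK0 : 0 < K := by linarith
  have hcW : ∀ w, 0 < R.Q.w w →
      |(R.FW w).cN (R.C.l w) (R.tW w) - (R.C.F i1 w).cN (R.C.l w) (R.C.s i1 w)| ≤
        K * q2 (R.C.rk i1) := by
    intro w hw
    have h1 := (h.agW w hw i1 hi1).cN
    have e := Fu.cN_sh (R.C.F i1 w) (R.C.l w) (R.C.s i1 w) (R.tW w - R.C.s i1 w)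
    rw [show R.C.s i1 w + (R.tW w - R.C.s i1 w) = R.tW w by ring] at e
    rwa [e] at h1
  have hxx : K * q2 (R.C.rk i1) ≤ K * q2 x := mul_le_mul_of_nonneg_left (q2_le hxk) hK0.le
  have hlow : ∀ w, 0 < R.Q.w w → 1 ≤ 2 * K * (R.FW w).cN (R.C.l w) (R.tW w) := by
    intro w hw
    have h1 := (h.ok w hw).n1 i1
    have h2 := (abs_le.1 (hcW w hw)).1
    have h3 : K * ((R.C.F i1 w).cN (R.C.l w) (R.C.s i1 w) -
        (R.FW w).cN (R.C.l w) (R.tW w)) ≤ K * (K * q2 x) :=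
      mul_le_mul_of_nonneg_left (by linarith) hK0.le
    nlinarith
  have hn : ∀ w, 0 < R.Q.w w → |(R.FW w).cN (R.C.l w) (R.tW w) ^ 2 +
      (R.C.p w * (R.FW w).cN (R.C.l w) (R.tW w)) ^ 2 - 1| ≤ K * q2 R.q := by
    intro w hw
    rw [h.Cp w hw]
    exact h.FWn w hw
  have hp : ∀ w, 0 < R.Q.w w → |R.C.p w| ≤ 1 := by
    intro w hw
    refine (h.ok w hw).p1.trans ?_
    unfold q2
    exact pow_le_one₀ (by norm_num) (by norm_num)
  have h1 := cN_close5 hK0 (hlow w0 s0) (hlow w1 s1) (hn w0 s0) (hn w1 s1) hq (hp w0 s0) (hp w1 s1)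
  -- the own slopes
  have hpp : |R.C.p w0 - R.C.p w1| ≤ q2 (R.C.rf i) := by
    have e := h.Uf i (by omega) w0 w1 s0 s1 hZ
    have e' : rd (R.C.rf i) (R.C.p w0) = rd (R.C.rf i) (R.C.p w1) := by
      unfold rd
      exact congrArg (fun z : ℤ => (z : ℝ) / 2 ^ R.C.rf i) e
    have a1 := Vale.Agent.P127.U.CellD.rd_le (R.C.rf i) (R.C.p w0)
    have a2 := Vale.Agent.P127.U.CellD.lt_rd (R.C.rf i) (R.C.p w0)
    have a3 := Vale.Agent.P127.U.CellD.rd_le (R.C.rf i) (R.C.p w1)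
    have a4 := Vale.Agent.P127.U.CellD.lt_rd (R.C.rf i) (R.C.p w1)
    rw [e'] at a1 a2
    rw [abs_le]
    constructor <;> linarith
  have hqf : q2 R.q ≤ q2 (R.C.rf i) := by
    refine q2_le ?_
    have := h.pth.leF i (by omega)
    have := h.pth.rF
    omega
  have h2 : K * (2 * (K * q2 R.q) + 4 * |R.C.p w0 - R.C.p w1|) ≤ 6 * K ^ 2 * q2 (R.C.rf i) := by
    have h3 : K * q2 R.q ≤ K * q2 (R.C.rf i) := mul_le_mul_of_nonneg_left hqf hK0.le
    have h4 : |R.C.p w0 - R.C.p w1| ≤ K * q2 (R.C.rf i) := by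
      have := q2_pos (R.C.rf i)
      nlinarith
    calc K * (2 * (K * q2 R.q) + 4 * |R.C.p w0 - R.C.p w1|)
        ≤ K * (2 * (K * q2 (R.C.rf i)) + 4 * (K * q2 (R.C.rf i))) := by gcongr
      _ = _ := by ring
  have h5 := hcW w0 s0
  have h6 := hcW w1 s1
  rw [abs_le] at h1 h5 h6 ⊢
  constructor <;> linarith

/-- **DIF for a run** = hypothesis `hb` of `rise_cell` -/
theorem hb_run {p : Num} {K c' g' gU : ℝ} (h : R.Ok p K c' g' gU) (hK : 1 ≤ K) {ε : ℝ}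
    {b i i1 k c x y m' : ℕ} (hg : R.Good p ε b i) (hi : i ≤ i1) (hi1 : i1 ≤ R.n) (hk : i1 ≤ k)
    (hbB : b < p.B₁) (hbx : R.m + x ≤ b) (hc : 2 * K * q2 c ≤ 1) (hx : 40 * K ^ 6 * q2 x ≤ 1)
    (hq : K * q2 R.q ≤ 1)
    (h1 : min (R.C.rf i) (R.rI i + b) + R.m + c + x + 3 * R.C.μ ≤ R.C.R i1 b)
    (hy : R.rI i + R.m + c + x ≤ R.C.rk i + y)
    (ha : R.C.a i1 + y ≤ R.C.a (k + 1)) (hh : R.C.a (k + 1) ≤ R.h)
    (hm' : min (R.C.rf i) (R.rI i + b) + R.m + 2 * c ≤ R.C.R i b + m') :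
    prE (two R.Q (R.XZ i b)) (H118.sbad R.C K i i1 k b m') ≤ 3 * ε := by
  have hK0 : 0 < K := by linarith
  have hpw : ∀ j ≤ 6, K ^ j ≤ K ^ 6 := fun j hj => pow_le_pow_right₀ hK hj
  have hq0 := q2_pos x
  have hε : 0 ≤ ε := (colp_nonneg R.Q _ _).trans hg.time
  have hn := R.C.R_le_rf5 i1 b
  have hn' := R.C.R_le_rk5 i1 b
  have hQF := h.pth.leF i1 (by omega)
  rcases Nat.lt_or_ge (R.rI i + b) (R.C.rf i) with hreg | hreg
  · -- the line
    rw [Nat.min_eq_right hreg.le] at h1 hm'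
    have hline := hg.line (by omega)
    have hL : prE (two R.Q (R.XZ i b)) (fun q =>
        |R.κ q.fst - (((R.C.F i1 q.snd).ka + R.C.s i1 q.snd * (R.C.F i1 q.snd).al) +
          (-(R.C.F i1 q.snd).al) * R.tW q.fst)| ≤ q2 (R.rI i + R.m)) ≤ ε :=
      two_line5 R.Q (R.XZ i b) (fun (u : ℝ × ℝ) (v : ℝ × ℝ) => |v.2 - (u.1 + u.2 * v.1)| ≤
        q2 (R.rI i + R.m)) (fun ω => (R.tW ω, R.κ ω))
        (fun ω => ((R.C.F i1 ω).ka + R.C.s i1 ω * (R.C.F i1 ω).al, -(R.C.F i1 ω).al))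
        (fun s => hline s)
    refine (prE_mono5' _ fun q hq' hbad => ?_).trans (hL.trans (by linarith))
    obtain ⟨s0, s1⟩ := H118.two_supp hq'
    by_contra hcon
    push Not at hcon
    refine hbad ⟨h.ok _ s0, h.ok _ s1, ?_⟩
    have hX : R.XZ i b q.fst = R.XZ i b q.snd := q.eq
    obtain ⟨hl, hT⟩ := XZ_l h hX
    have hZ : R.Z i q.fst = R.Z i q.snd := (Prod.mk.inj hX).1
    have o0 := h.ok _ s0
    have o1 := h.ok _ s1
    have hxk : R.rI i + R.m + c + x ≤ R.C.rk i1 := by omega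
    have hx2 : 2 * K ^ 2 * q2 x ≤ 1 := by
      have := hpw 2 (by norm_num)
      nlinarith
    have hcN := cN_copies h hK hi hi1 hq hx2 (by omega : x ≤ R.C.rk i1) s0 s1 hZ
    -- kappa at the time `tW`
    have hkW : |R.κ q.fst - R.kL i1 q.fst (R.tW q.fst)| ≤ K * q2 (R.C.rk i1) :=
      (h.agW _ s0 i1 hi1).ka
    have hkk : q2 (R.rI i + R.m) - K * q2 (R.C.rk i1) ≤
        |R.kL i1 q.snd (R.tW q.fst) - R.kL i1 q.fst (R.tW q.fst)| := by
      have e1 : ((R.C.F i1 q.snd).ka + R.C.s i1 q.snd * (R.C.F i1 q.snd).al) +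
          (-(R.C.F i1 q.snd).al) * R.tW q.fst = R.kL i1 q.snd (R.tW q.fst) := by
        unfold kL
        ring
      rw [e1] at hcon
      have e2 := abs_sub_abs_le_abs_sub (R.κ q.fst - R.kL i1 q.snd (R.tW q.fst))
        (R.κ q.fst - R.kL i1 q.fst (R.tW q.fst))
      rw [show (R.κ q.fst - R.kL i1 q.snd (R.tW q.fst)) -
        (R.κ q.fst - R.kL i1 q.fst (R.tW q.fst)) =
        -(R.kL i1 q.snd (R.tW q.fst) - R.kL i1 q.fst (R.tW q.fst)) by ring, abs_neg] at e2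
      linarith
    have ha1 : R.C.a i1 ≤ R.h := by omega
    have htW : |R.tW q.fst - R.C.s i1 q.fst| ≤ q2 (R.C.a i1) := by
      unfold tW Pth.s
      rw [h.Ct]
      exact rd_sub ha1 _
    have hk0 : |R.kL i1 q.fst (R.tW q.fst)| ≤ 2 * K := by
      have g2 := o0.k1 i1
      have g3 := o0.a1 i1
      have g4 : |(R.tW q.fst - R.C.s i1 q.fst) * (R.C.F i1 q.fst).al| ≤ K := by
        rw [abs_mul]
        have g5 : |R.tW q.fst - R.C.s i1 q.fst| * |(R.C.F i1 q.fst).al| ≤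
            q2 (R.C.a i1) * |(R.C.F i1 q.fst).al| := by gcongr
        have g6 : q2 (R.C.a i1) * |(R.C.F i1 q.fst).al| ≤ K := by
          rw [mul_comm]
          exact g3
        exact g5.trans g6
      unfold kL
      rw [abs_le] at g2 g4 ⊢
      constructor <;> linarith
    have hquot := quot_ge5 hK (o0.n1 i1) (o1.n1 i1) (o1.n2 i1) hk0 hkk hcN
    have hD : q2 (R.rI i + R.m + c) ≤ |R.C.nk i1 q.snd (R.tW q.fst) -
        R.C.nk i1 q.fst (R.tW q.fst)| := by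
      have e3 : R.kL i1 q.snd (R.tW q.fst) / (R.C.F i1 q.snd).cN (R.C.l q.snd) (R.C.s i1 q.snd) -
          R.kL i1 q.fst (R.tW q.fst) / (R.C.F i1 q.fst).cN (R.C.l q.fst) (R.C.s i1 q.fst) =
          R.C.nk i1 q.snd (R.tW q.fst) - R.C.nk i1 q.fst (R.tW q.fst) := rfl
      rw [e3] at hquot
      set Z0 := |R.C.nk i1 q.snd (R.tW q.fst) - R.C.nk i1 q.fst (R.tW q.fst)| with hZ0
      -- sizes
      have g1 : q2 (R.C.rk i1) ≤ q2 (R.rI i + R.m) * q2 x := by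
        rw [← q2_add]
        exact q2_le (by omega)
      have g2 : q2 (R.C.rf i) ≤ q2 (R.rI i + R.m) * q2 x := by
        rw [← q2_add]
        exact q2_le (by omega)
      have hQ := q2_pos (R.rI i + R.m)
      set Q0 := q2 (R.rI i + R.m) with hQ0
      have g3 : K * q2 (R.C.rk i1) + 2 * K ^ 4 * (6 * K ^ 2 * q2 (R.C.rf i) +
          2 * K * q2 (R.C.rk i1)) ≤ 17 * K ^ 6 * (Q0 * q2 x) := by
        have k1 := hpw 1 (by norm_num)
        have k5 := hpw 5 (by norm_num)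
        rw [pow_one] at k1
        have hQx : 0 ≤ Q0 * q2 x := by positivity
        calc K * q2 (R.C.rk i1) + 2 * K ^ 4 * (6 * K ^ 2 * q2 (R.C.rf i) +
              2 * K * q2 (R.C.rk i1))
            ≤ K * (Q0 * q2 x) + 2 * K ^ 4 * (6 * K ^ 2 * (Q0 * q2 x) + 2 * K * (Q0 * q2 x)) := by
              gcongr
          _ = (K + 12 * K ^ 6 + 4 * K ^ 5) * (Q0 * q2 x) := by ring
          _ ≤ 17 * K ^ 6 * (Q0 * q2 x) := by
              refine mul_le_mul_of_nonneg_right ?_ hQx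
              linarith
      have g4 : 17 * K ^ 6 * (Q0 * q2 x) ≤ Q0 / 2 := by
        have : 40 * K ^ 6 * q2 x * Q0 ≤ 1 * Q0 := mul_le_mul_of_nonneg_right hx hQ.le
        have h5 : 0 ≤ K ^ 6 * (Q0 * q2 x) := by positivity
        nlinarith
      have g5 : Q0 / 2 ≤ K * Z0 := by linarith
      have g6 : K * (Q0 * q2 c) ≤ Q0 / 2 := by
        have : 2 * K * q2 c * Q0 ≤ 1 * Q0 := mul_le_mul_of_nonneg_right hc hQ.le
        nlinarith
      rw [q2_add]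
      exact le_of_mul_le_mul_left (g6.trans g5) hK0
    have hal := R.C.al_copy5 hK o0 o1 hl hT hi
    have hθ : |R.C.s (k + 1) q.fst - R.tW q.fst| ≤ q2 (R.C.a i1) * q2 y := by
      rw [← q2_add]
      have g1 : |R.tW q.fst - R.C.s (k + 1) q.fst| ≤ q2 (R.C.a (k + 1)) := by
        unfold tW Pth.s
        rw [h.Ct]
        exact rd_sub hh _
      rw [abs_sub_comm]
      exact g1.trans (q2_le ha)
    have hmm : K * q2 c + 8 * K ^ 4 * q2 x ≤ 1 := by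
      have := hpw 4 (by norm_num)
      nlinarith
    have hfin := R.C.difR_kapT (b := b) hK o0 o1 hl hal hk hθ hxk
      (by omega : R.rI i + R.m + c + x ≤ R.C.rk i + y) hmm hD
    exact (R.C.difK_iff (i := i) (m1 := m')).2 (R.C.difR_mono5 (by omega) hfin)
  · -- the own slope
    rw [Nat.min_eq_left hreg] at h1 hm'
    have hphi := hg.phi (by have := h.pth.m1; omega) (by omega)
    have hL := (R.C.pr_phi R.Q (R.XZ i b) (R.C.rf i + R.m)).trans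
      (mul_le_mul_of_nonneg_left hphi (by norm_num : (0:ℝ) ≤ 3))
    refine (prE_mono5' _ fun q hq' hbad => ?_).trans hL
    obtain ⟨s0, s1⟩ := H118.two_supp hq'
    by_contra hcon
    refine hbad ⟨h.ok _ s0, h.ok _ s1, ?_⟩
    obtain ⟨hl, hT⟩ := XZ_l h q.eq
    have hmm : K * q2 c + 8 * K ^ 4 * q2 x ≤ 1 := by
      have := hpw 4 (by norm_num)
      nlinarith
    have hfin := R.C.difR_phi (b := b) (k := k) hK (h.ok _ s0) (h.ok _ s1) hl hk
      (by omega : R.C.rf i + R.m + x + 3 * R.C.μ ≤ R.C.R i1 b) hmm hcon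
    exact (R.C.difK_iff (i := i) (m1 := m')).2 (R.C.difR_mono5 (by omega) hfin)

end Run

end Vale.Agent.P106.U.S3
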