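import Vale.Agent.P106.U.H513.ExtGeo

/-! # P106 / U / H513 : change of the level of a label, boxes and counting (helper513) -/

set_option autoImplicit false

namespace Vale.Agent.P106.U.H513

open Vale.Agent.P127 Vale.Agent.P127.Stk Vale.Agent.P127.U Vale.Agent.P106.W Vale.Agent.P106.K
open Vale.Agent.P122.C2 (fn)

/-- distances in the large block -/
theorem Cl.dn {c : ℝ} {M w : ℕ} {B : Cbx} {l l0 : Ry} (hc : 1 ≤ c) (hM : 1600 * c ^ 4 ≤ M) (hu2 : 0 < B.u2)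
    (h : Cl c M w B l l0) {τ : ℝ} (h0 : 0 ≤ τ) (h1 : τ ≤ 1) :
    (∀ k, |(dn w τ l).y k - (dn w τ l0).y k| ≤ 41 * c ^ 2 / M * (B.u2 / 2 ^ w)) ∧
      (∀ k, |(dn w τ l).s k - (dn w τ l0).s k| ≤ 41 * c ^ 2 / M * (B.u2 / 2 ^ w)) ∧
      |(dn w τ l).z + ∑ k, (dn w τ l).y k * ((dn w τ l).s k - (dn w τ l0).s k) - (dn w τ l0).z| ≤
        3 / M * (B.u2 / 2 ^ w) ^ 2 := by
  have hc2 : 1 ≤ c ^ 2 := one_le_pow₀ hc
  have hc4 : 1 ≤ c ^ 4 := one_le_pow₀ hc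
  have hM0 : (0 : ℝ) < M := by linarith
  have hw : (0 : ℝ) < 2 ^ w := by positivity
  set U := B.u2 / 2 ^ w with hU
  have hU0 : 0 < U := div_pos hu2 hw
  have e1 : B.u2 / (M * 2 ^ w) = U / M := by rw [hU]; field_simp
  have hs : ∀ k, |l.s k - l0.s k| ≤ 40 * c ^ 2 * (U / M) := fun k => by rw [← e1]; exact h.s k
  have hx0 : 0 ≤ c ^ 2 * (U / M) := by positivity
  have hy : ∀ k, |(l.y k - l0.y k) / 2 ^ w| ≤ U / M := fun k => by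
    rw [abs_div, abs_of_pos hw, div_le_iff₀ hw]
    refine (h.y k).trans (le_of_eq ?_)
    rw [hU]; field_simp
  have e3 : 41 * c ^ 2 / M * U = 41 * (c ^ 2 * (U / M)) := by ring
  refine ⟨fun k => ?_, fun k => ?_, ?_⟩
  · have e : (H513.dn w τ l).y k - (H513.dn w τ l0).y k = (l.y k - l0.y k) / 2 ^ w - τ * (l.s k - l0.s k) := by
      simp only [H513.dn]
      ring
    rw [e]
    have t1 := abs_sub ((l.y k - l0.y k) / 2 ^ w) (τ * (l.s k - l0.s k))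
    have t2 : |τ * (l.s k - l0.s k)| ≤ |l.s k - l0.s k| := by
      rw [abs_mul, abs_of_nonneg h0]
      exact mul_le_of_le_one_left (abs_nonneg _) h1
    have t3 : U / M ≤ c ^ 2 * (U / M) := le_mul_of_one_le_left (by positivity) hc2
    linarith [hy k, hs k]
  · refine (hs k).trans ?_
    rw [e3]
    linarith
  · rw [null_dn]
    have t1 := abs_sub ((l.z + ∑ k, l.y k * (l.s k - l0.s k) - l0.z) / 2 ^ w) (τ * (∑ k, (l.s k - l0.s k) ^ 2) / 2)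
    have t2 : |(l.z + ∑ k, l.y k * (l.s k - l0.s k) - l0.z) / 2 ^ w| ≤ 2 / M * U ^ 2 := by
      rw [abs_div, abs_of_pos hw, div_le_iff₀ hw]
      refine h.z.trans (le_of_eq ?_)
      rw [hU]; field_simp
    have t3 : |τ * (∑ k, (l.s k - l0.s k) ^ 2) / 2| ≤ 1 / M * U ^ 2 := by
      have q : ∀ k, (l.s k - l0.s k) ^ 2 ≤ (40 * c ^ 2 * (U / M)) ^ 2 := fun k => by
        rw [← sq_abs]
        exact pow_le_pow_left₀ (abs_nonneg _) (hs k) 2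
      have q1 : (40 * c ^ 2 * (U / M)) ^ 2 ≤ 1 / M * U ^ 2 := by
        have e : (40 * c ^ 2 * (U / M)) ^ 2 = 1 / M * U ^ 2 * (1600 * c ^ 4 / M) := by
          field_simp
          ring
        rw [e]
        have : 1600 * c ^ 4 / M ≤ 1 := by rw [div_le_one hM0]; exact hM
        exact mul_le_of_le_one_right (by positivity) this
      rw [Fin.sum_univ_two, abs_div, abs_mul, abs_of_nonneg h0, abs_two]
      have q2 : 0 ≤ (l.s 0 - l0.s 0) ^ 2 + (l.s 1 - l0.s 1) ^ 2 := by positivity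
      rw [abs_of_nonneg q2]
      have q3 : τ * ((l.s 0 - l0.s 0) ^ 2 + (l.s 1 - l0.s 1) ^ 2) ≤ (l.s 0 - l0.s 0) ^ 2 + (l.s 1 - l0.s 1) ^ 2 :=
        mul_le_of_le_one_left q2 h1
      linarith [q 0, q 1]
    have e4 : 3 / (M : ℝ) * U ^ 2 = 2 / M * U ^ 2 + 1 / M * U ^ 2 := by ring
    linarith

/-- box at the ray `l0`, slab case -/
noncomputable def bxS (w d : ℕ) (τ : ℝ) (B : Cbx) (l0 : Ry) (L θ' : ℝ) : Cbx :=
  ⟨θ', B.u1 / 2 ^ w, B.u2 / 2 ^ (d + w), (dnB w τ B).κ / L, (dnB w τ B).α / L, (dn w τ l0).y, (dn w τ l0).s, (dn w τ l0).z⟩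

/-- box at the ray `l0`, ball case -/
noncomputable def bxB (w : ℕ) (τ : ℝ) (B : Cbx) (l0 : Ry) : Cbx :=
  ⟨0, B.u1 / 2 ^ w, B.u1 / 2 ^ w, 0, 0, (dn w τ l0).y, (dn w τ l0).s, (dn w τ l0).z⟩

/-- numbers -/
structure Nm (c c₁ : ℝ) (d M : ℕ) : Prop where
  hc : 1 ≤ c
  hc₁ : 0 < c₁
  d1 : 64 * c ^ 3 ≤ 2 ^ d
  d2 : 6 * c ≤ c₁ * 2 ^ d
  m1 : 1600 * c ^ 4 ≤ M
  m2 : 41 * c ^ 2 * 2 ^ d ≤ c₁ * M
  m3 : 3 * 4 ^ d ≤ c₁ * M
  m4 : 4 ≤ c₁ * M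

theorem exists_nm {c c₁ : ℝ} (hc : 1 ≤ c) (hc₁ : 0 < c₁) : ∃ d M : ℕ, Nm c c₁ d M := by
  obtain ⟨d, hd⟩ := pow_unbounded_of_one_lt (64 * c ^ 3 + 6 * c / c₁) (one_lt_two : (1 : ℝ) < 2)
  obtain ⟨M, hM⟩ := exists_nat_ge (1600 * c ^ 4 + 41 * c ^ 2 * 2 ^ d / c₁ + 3 * 4 ^ d / c₁ + 4 / c₁)
  have hc0 : 0 < c := by linarith
  have p1 : 0 ≤ 6 * c / c₁ := by positivity
  have p2 : 0 ≤ 64 * c ^ 3 := by positivity
  have p3 : 0 ≤ 1600 * c ^ 4 := by positivity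
  have p4 : 0 ≤ 41 * c ^ 2 * 2 ^ d / c₁ := by positivity
  have p5 : 0 ≤ 3 * 4 ^ d / c₁ := by positivity
  have p6 : 0 ≤ 4 / c₁ := by positivity
  refine ⟨d, M, hc, hc₁, by linarith, ?_, by linarith, ?_, ?_, ?_⟩
  · have : 6 * c / c₁ ≤ 2 ^ d := by linarith
    rw [div_le_iff₀ hc₁] at this
    linarith
  · have : 41 * c ^ 2 * 2 ^ d / c₁ ≤ M := by linarith
    rw [div_le_iff₀ hc₁] at this
    linarith
  · have : 3 * 4 ^ d / c₁ ≤ (M : ℝ) := by linarith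
    rw [div_le_iff₀ hc₁] at this
    linarith
  · have : 4 / c₁ ≤ (M : ℝ) := by linarith
    rw [div_le_iff₀ hc₁] at this
    linarith

/-- the box `A` is good for the ray `l` -/
structure Gd (c₁ : ℝ) (A : Cbx) (l : Ry) : Prop where
  α2 : |A.α| * A.u2 ≤ c₁
  κ2 : |A.κ| * A.u2 ≤ c₁
  inn : Bin c₁ A 0 l

theorem gd_ball {c c₁ : ℝ} {d M w : ℕ} (N : Nm c c₁ d M) {B : Cbx} {l l0 : Ry} (hu2 : 0 < B.u2) (hu1 : 0 < B.u1)
    (hcase : B.u2 ≤ 2 ^ d * B.u1) (hk : keyB M w B l = keyB M w B l0) {τ : ℝ} (h0 : 0 ≤ τ) (h1 : τ ≤ 1) :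
    Gd c₁ (bxB w τ B l0) (dn w τ l) := by
  obtain ⟨hc, hc₁, hd1, hd2, hm1, hm2, hm3, hm4⟩ := N
  have hc2 : 1 ≤ c ^ 2 := one_le_pow₀ hc
  have hc4 : c ^ 2 ≤ c ^ 4 := pow_le_pow_right₀ hc (by norm_num)
  have hM0 : (0 : ℝ) < M := by linarith
  have hw : (0 : ℝ) < 2 ^ w := by positivity
  have hcl := closeB (w := w) hc (by linarith : 80 * c ^ 2 ≤ (M : ℝ)) hu2 hk
  obtain ⟨g1, g2, g3⟩ := hcl.dn hc hm1 hu2 h0 h1
  have hd0 : (0 : ℝ) < 2 ^ d := by positivity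
  set U := B.u2 / 2 ^ w with hU
  set V := B.u1 / 2 ^ w with hV
  have hU0 : 0 < U := div_pos hu2 hw
  have hV0 : 0 < V := div_pos hu1 hw
  have hUV : U ≤ 2 ^ d * V := by
    rw [hU, hV, ← mul_div_assoc]
    exact div_le_div_of_nonneg_right hcase hw.le
  have q1 : 41 * c ^ 2 / M * U ≤ c₁ * V := by
    rw [div_mul_eq_mul_div, div_le_iff₀ hM0]
    calc 41 * c ^ 2 * U ≤ 41 * c ^ 2 * (2 ^ d * V) := mul_le_mul_of_nonneg_left hUV (by positivity)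
      _ = (41 * c ^ 2 * 2 ^ d) * V := by ring
      _ ≤ (c₁ * M) * V := mul_le_mul_of_nonneg_right hm2 hV0.le
      _ = c₁ * V * M := by ring
  have q2 : 3 / M * U ^ 2 ≤ c₁ * V ^ 2 := by
    rw [div_mul_eq_mul_div, div_le_iff₀ hM0]
    have h4 : ((2 : ℝ) ^ d) ^ 2 = 4 ^ d := by rw [← pow_mul, mul_comm, pow_mul]; norm_num
    calc 3 * U ^ 2 ≤ 3 * (2 ^ d * V) ^ 2 := by
          have := pow_le_pow_left₀ hU0.le hUV 2
          linarith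
      _ = (3 * 4 ^ d) * V ^ 2 := by rw [mul_pow, h4]; ring
      _ ≤ (c₁ * M) * V ^ 2 := mul_le_mul_of_nonneg_right hm3 (by positivity)
      _ = c₁ * V ^ 2 * M := by ring
  refine ⟨?_, ?_, ?_, ?_, ?_, ?_, ?_⟩
  · show |(0 : ℝ)| * _ ≤ _
    rw [abs_zero, zero_mul]; exact hc₁.le
  · show |(0 : ℝ)| * _ ≤ _
    rw [abs_zero, zero_mul]; exact hc₁.le
  · intro k
    exact (g1 k).trans q1
  · intro k
    exact (g2 k).trans q1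
  · refine g3.trans (q2.trans ?_)
    exact mul_le_mul_of_nonneg_left (le_max_left _ _) hc₁.le
  · show |fn 0 ((dn w τ l).y - (dn w τ l0).y) + 0 * _ - 0 * _| ≤ c₁ * V
    have e : fn 0 ((dn w τ l).y - (dn w τ l0).y) = (dn w τ l).y 1 - (dn w τ l0).y 1 := by simp [fn]
    rw [e, zero_mul, zero_mul, add_zero, sub_zero]
    exact (g1 1).trans q1
  · show |fn 0 ((dn w τ l).s - (dn w τ l0).s) + 0 * _ / 2 + 2 * 0 * _| ≤ c₁ * V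
    have e : fn 0 ((dn w τ l).s - (dn w τ l0).s) = (dn w τ l).s 1 - (dn w τ l0).s 1 := by simp [fn]
    rw [e, mul_zero, zero_mul, zero_mul, zero_div, add_zero, add_zero]
    exact (g2 1).trans q1

theorem slab_num {c₁ u M L τ : ℝ} {w : ℕ} (hu1 : 0 < u) (hM0 : 0 < M) (hL : 1 / 2 ≤ L) (hm4 : 4 ≤ c₁ * M)
    (h0 : 0 ≤ τ) (h1 : τ ≤ 1) (x y : ℝ) (hx : |x| ≤ u / M) (hy : |y| ≤ u / (M * 2 ^ w)) :
    |(x / 2 ^ w - τ * y) / L| ≤ c₁ * (u / 2 ^ w) := by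
  have hw : (0 : ℝ) < 2 ^ w := by positivity
  have hL0 : 0 < L := by linarith
  have hc₁ : 0 < c₁ := by
    by_contra h
    push Not at h
    nlinarith
  rw [abs_div, abs_of_pos hL0, div_le_iff₀ hL0]
  have t1 := abs_sub (x / 2 ^ w) (τ * y)
  have t2 : |x / 2 ^ w| ≤ u / (M * 2 ^ w) := by
    rw [abs_div, abs_of_pos hw, div_le_iff₀ hw]
    refine hx.trans (le_of_eq ?_)
    field_simp
  have t3 : |τ * y| ≤ u / (M * 2 ^ w) := by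
    rw [abs_mul, abs_of_nonneg h0]
    exact (mul_le_of_le_one_left (abs_nonneg _) h1).trans hy
  have t4 : 2 * (u / (M * 2 ^ w)) ≤ c₁ * (u / 2 ^ w) * (1 / 2) := by
    have e : 2 * (u / (M * 2 ^ w)) = (4 / M) * (u / 2 ^ w) * (1 / 2) := by field_simp; norm_num
    rw [e]
    have h5 : 4 / (M : ℝ) ≤ c₁ := by rw [div_le_iff₀ hM0]; exact hm4
    have h6 : 0 ≤ u / 2 ^ w * (1 / 2) := by positivity
    nlinarith
  have t5 : c₁ * (u / 2 ^ w) * (1 / 2) ≤ c₁ * (u / 2 ^ w) * L := mul_le_mul_of_nonneg_left hL (by positivity)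
  linarith

theorem slab_num1 {c₁ u M L : ℝ} {w : ℕ} (hu1 : 0 < u) (hM0 : 0 < M) (hL : 1 / 2 ≤ L) (hm4 : 4 ≤ c₁ * M)
    (y : ℝ) (hy : |y| ≤ u / (M * 2 ^ w)) : |y / L| ≤ c₁ * (u / 2 ^ w) := by
  have h := slab_num (w := w) (τ := 1) hu1 hM0 hL hm4 zero_le_one le_rfl 0 (-y) (by rw [abs_zero]; positivity)
    (by rwa [abs_neg])
  simpa using h

theorem rec0 (B : Cbx) {L θ' : ℝ} (hL0 : 0 < L) (p' v' : Fin 2 → ℝ) (ω' : ℝ) (n0 : B.nn p' v' 0 = -(L * Real.sin θ'))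
    (n1 : B.nn p' v' 1 = L * Real.cos θ') (y q : Fin 2 → ℝ) (z : ℝ) :
    fn θ' (y - p') + B.κ / L * (z + ∑ k, y k * (q k - v' k) - ω') - B.α / L * ∑ k, (y k - p' k) ^ 2 =
      (B.g0 y q z - B.g0 p' v' ω') / L := by
  rw [B.g0_rec p' v' y q ω' z, eq_div_iff hL0.ne']
  simp only [Fin.sum_univ_two, n0, n1, fn, Pi.sub_apply]
  field_simp
  ring

theorem rec1 (B : Cbx) {L θ' : ℝ} (hL0 : 0 < L) (p' v' : Fin 2 → ℝ) (ω' : ℝ) (n0 : B.nn p' v' 0 = -(L * Real.sin θ'))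
    (n1 : B.nn p' v' 1 = L * Real.cos θ') (y q : Fin 2 → ℝ) (z : ℝ) :
    fn θ' (q - v') + B.κ / L * (∑ k, (q k - v' k) ^ 2) / 2 + 2 * (B.α / L) * (z + ∑ k, p' k * (q k - v' k) - ω') =
      (B.g1 y q z - B.g1 p' v' ω') / L := by
  rw [B.g1_rec p' v' y q ω' z, eq_div_iff hL0.ne']
  simp only [Fin.sum_univ_two, n0, n1, fn, Pi.sub_apply]
  field_simp
  ring

theorem gd_slab' {c c₁ : ℝ} {d M w : ℕ} (N : Nm c c₁ d M) {B : Cbx} {l0 : Ry} (hu2 : 0 < B.u2) (hu2c : B.u2 ≤ 1)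
    (hu1 : 0 < B.u1) (hcase : 2 ^ d * B.u1 ≤ B.u2) (hα : |B.α| * B.u2 ≤ c) (hκ : |B.κ| * B.u2 ≤ c)
    (hin0 : Bin c B 0 l0) : ∃ L θ' : ℝ, (1 / 2 ≤ L ∧ B.nn l0.y l0.s 0 = -(L * Real.sin θ') ∧
      B.nn l0.y l0.s 1 = L * Real.cos θ') ∧ ∀ l : Ry, keyS M w B l = keyS M w B l0 →
      ∀ τ : ℝ, 0 ≤ τ → τ ≤ 1 → Gd c₁ (bxS w d τ B l0 L θ') (dn w τ l) := by
  obtain ⟨hc, hc₁, hd1, hd2, hm1, hm2, hm3, hm4⟩ := N
  have hc0 : 0 < c := by linarith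
  have hc2 : 1 ≤ c ^ 2 := one_le_pow₀ hc
  have hc3 : 1 ≤ c ^ 3 := one_le_pow₀ hc
  have hc4 : c ^ 2 ≤ c ^ 4 := pow_le_pow_right₀ hc (by norm_num)
  have hM0 : (0 : ℝ) < M := by linarith
  have hd0 : (0 : ℝ) < 2 ^ d := by positivity
  have h12 : B.u1 ≤ B.u2 := by
    have : 1 * B.u1 ≤ 2 ^ d * B.u1 := mul_le_mul_of_nonneg_right (by linarith) hu1.le
    linarith
  have hok : Bok c B 0 := ⟨hu1, by positivity, h12.trans (le_mul_of_one_le_left hu2.le hc), hu2c.trans hc, hα, hκ⟩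
  have hcase' : 4 * c * B.u1 ≤ B.u2 / (16 * c ^ 2) := by
    rw [le_div_iff₀ (by positivity)]
    calc 4 * c * B.u1 * (16 * c ^ 2) = (64 * c ^ 3) * B.u1 := by ring
      _ ≤ 2 ^ d * B.u1 := mul_le_mul_of_nonneg_right hd1 hu1.le
      _ ≤ B.u2 := hcase
  obtain ⟨L, θ', hL, n0, n1⟩ := normal hc hok (le_refl _) hcase' hin0
  have hL0 : 0 < L := by linarith
  refine ⟨L, θ', ⟨hL, n0, n1⟩, fun l hk τ h0 h1 => ?_⟩
  have hw : (0 : ℝ) < 2 ^ w := by positivity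
  have hn : 1 / 4 ≤ B.nn l0.y l0.s 0 ^ 2 + B.nn l0.y l0.s 1 ^ 2 := by
    rw [n0, n1]
    have h := Real.sin_sq_add_cos_sq θ'
    have e : (-(L * Real.sin θ')) ^ 2 + (L * Real.cos θ') ^ 2 = L ^ 2 := by
      linear_combination L ^ 2 * h
    rw [e]
    nlinarith
  obtain ⟨hcl, c3, c7⟩ := closeS (w := w) hc (by linarith : 80 * c ^ 2 ≤ (M : ℝ)) hu2 hu1 h12 hα hκ hin0 hn hk
  obtain ⟨g1, g2, g3⟩ := hcl.dn hc hm1 hu2 h0 h1
  set U := B.u2 / 2 ^ w with hU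
  have hU0 : 0 < U := div_pos hu2 hw
  have eu : B.u2 / 2 ^ (d + w) = U / 2 ^ d := by
    rw [hU, pow_add]; field_simp
  have q1 : 41 * c ^ 2 / M * U ≤ c₁ * (U / 2 ^ d) := by
    rw [div_mul_eq_mul_div, div_le_iff₀ hM0]
    have e : c₁ * (U / 2 ^ d) * M = (c₁ * M) * U / 2 ^ d := by ring
    rw [e, le_div_iff₀ hd0]
    calc 41 * c ^ 2 * U * 2 ^ d = (41 * c ^ 2 * 2 ^ d) * U := by ring
      _ ≤ (c₁ * M) * U := mul_le_mul_of_nonneg_right hm2 hU0.le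
  have q2 : 3 / M * U ^ 2 ≤ c₁ * (U / 2 ^ d) ^ 2 := by
    rw [div_mul_eq_mul_div, div_le_iff₀ hM0]
    have h4 : ((2 : ℝ) ^ d) ^ 2 = 4 ^ d := by rw [← pow_mul, mul_comm, pow_mul]; norm_num
    have e : c₁ * (U / 2 ^ d) ^ 2 * M = (c₁ * M) * U ^ 2 / 4 ^ d := by rw [← h4]; field_simp
    rw [e, le_div_iff₀ (by positivity)]
    calc 3 * U ^ 2 * 4 ^ d = (3 * 4 ^ d) * U ^ 2 := by ring
      _ ≤ (c₁ * M) * U ^ 2 := mul_le_mul_of_nonneg_right hm3 (by positivity)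
  have fr : ∀ x : ℝ, |x| * U ≤ 3 * c → |x / L| * (U / 2 ^ d) ≤ c₁ := by
    intro x hx
    rw [abs_div, abs_of_pos hL0]
    have e : |x| / L * (U / 2 ^ d) = (|x| * U) / (L * 2 ^ d) := by field_simp
    rw [e, div_le_iff₀ (by positivity)]
    have : c₁ * 2 ^ d * (1 / 2) ≤ c₁ * 2 ^ d * L := mul_le_mul_of_nonneg_left hL (by positivity)
    linarith
  have hgU : |2 ^ w * B.α| * U ≤ c := by
    rw [abs_mul, abs_of_pos hw, hU]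
    have e : 2 ^ w * |B.α| * (B.u2 / 2 ^ w) = |B.α| * B.u2 := by field_simp
    rw [e]; exact hα
  have hkU : |B.κ - 2 * τ * 2 ^ w * B.α| * U ≤ 3 * c := by
    have t1 := abs_sub B.κ (2 * τ * 2 ^ w * B.α)
    have t2 : |2 * τ * 2 ^ w * B.α| = 2 * τ * |2 ^ w * B.α| := by
      rw [abs_mul, abs_mul, abs_mul, abs_mul, abs_two, abs_of_nonneg h0]; ring
    have t3 : |B.κ| * U ≤ c := by
      refine le_trans (mul_le_mul_of_nonneg_left ?_ (abs_nonneg _)) hκ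
      rw [hU]
      exact div_le_self hu2.le (one_le_pow₀ (by norm_num))
    have t4 : 2 * τ * |2 ^ w * B.α| * U ≤ 2 * c := by
      have : τ * (|2 ^ w * B.α| * U) ≤ 1 * c := mul_le_mul h1 hgU (by positivity) zero_le_one
      linarith
    calc |B.κ - 2 * τ * 2 ^ w * B.α| * U ≤ (|B.κ| + |2 * τ * 2 ^ w * B.α|) * U := mul_le_mul_of_nonneg_right t1 hU0.le
      _ = |B.κ| * U + 2 * τ * |2 ^ w * B.α| * U := by rw [t2]; ring
      _ ≤ 3 * c := by linarith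
  have hV := slab_num (w := w) hu1 hM0 hL hm4 h0 h1
  have hV1 := slab_num1 (w := w) hu1 hM0 hL hm4
  have ey0 := congrFun (nn_dn w τ B l0) 0
  have ey1 := congrFun (nn_dn w τ B l0) 1
  rw [n0] at ey0
  rw [n1] at ey1
  refine ⟨?_, ?_, ?_, ?_, ?_, ?_, ?_⟩
  · show |(dnB w τ B).α / L| * (B.u2 / 2 ^ (d + w)) ≤ c₁
    rw [eu]
    refine fr _ ?_
    show |2 ^ w * B.α| * U ≤ 3 * c
    linarith
  · show |(dnB w τ B).κ / L| * (B.u2 / 2 ^ (d + w)) ≤ c₁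
    rw [eu]
    exact fr _ hkU
  · intro k
    show _ ≤ c₁ * (B.u2 / 2 ^ (d + w))
    rw [eu]
    exact (g1 k).trans q1
  · intro k
    show _ ≤ c₁ * (B.u2 / 2 ^ (d + w))
    rw [eu]
    exact (g2 k).trans q1
  · refine g3.trans (q2.trans ?_)
    show _ ≤ c₁ * max ((B.u2 / 2 ^ (d + w)) ^ 2) 0
    rw [eu]
    exact mul_le_mul_of_nonneg_left (le_max_left _ _) hc₁.le
  · have e := rec0 (dnB w τ B) hL0 (dn w τ l0).y (dn w τ l0).s (dn w τ l0).z ey0 ey1 (dn w τ l).y (dn w τ l).s (dn w τ l).z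
    rw [g0_dn, g0_dn] at e
    have e2 : B.g0 l.y l.s l.z / 2 ^ w - τ * B.g1 l.y l.s l.z - (B.g0 l0.y l0.s l0.z / 2 ^ w - τ * B.g1 l0.y l0.s l0.z) =
        (B.g0 l.y l.s l.z - B.g0 l0.y l0.s l0.z) / 2 ^ w - τ * (B.g1 l.y l.s l.z - B.g1 l0.y l0.s l0.z) := by ring
    rw [e2] at e
    show |fn θ' ((dn w τ l).y - (dn w τ l0).y) + (dnB w τ B).κ / L *
        ((dn w τ l).z + ∑ k, (dn w τ l).y k * ((dn w τ l).s k - (dn w τ l0).s k) - (dn w τ l0).z) -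
        (dnB w τ B).α / L * ∑ k, ((dn w τ l).y k - (dn w τ l0).y k) ^ 2| ≤ c₁ * (B.u1 / 2 ^ w)
    rw [e]
    exact hV _ _ c3 c7
  · have e := rec1 (dnB w τ B) hL0 (dn w τ l0).y (dn w τ l0).s (dn w τ l0).z ey0 ey1 (dn w τ l).y (dn w τ l).s (dn w τ l).z
    rw [g1_dn, g1_dn] at e
    show |fn θ' ((dn w τ l).s - (dn w τ l0).s) + (dnB w τ B).κ / L *
        (∑ k, ((dn w τ l).s k - (dn w τ l0).s k) ^ 2) / 2 + 2 * ((dnB w τ B).α / L) *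
        ((dn w τ l).z + ∑ k, (dn w τ l0).y k * ((dn w τ l).s k - (dn w τ l0).s k) - (dn w τ l0).z)| ≤ c₁ * (B.u1 / 2 ^ w)
    rw [e]
    exact hV1 _ c7

theorem gd_slab {c c₁ : ℝ} {d M w : ℕ} (N : Nm c c₁ d M) {B : Cbx} {l0 : Ry} (hu2 : 0 < B.u2) (hu2c : B.u2 ≤ 1)
    (hu1 : 0 < B.u1) (hcase : 2 ^ d * B.u1 ≤ B.u2) (hα : |B.α| * B.u2 ≤ c) (hκ : |B.κ| * B.u2 ≤ c)
    (hin0 : Bin c B 0 l0) : ∃ L θ' : ℝ, ∀ l : Ry, keyS M w B l = keyS M w B l0 →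
      ∀ τ : ℝ, 0 ≤ τ → τ ≤ 1 → Gd c₁ (bxS w d τ B l0 L θ') (dn w τ l) := by
  obtain ⟨L, θ', -, h⟩ := gd_slab' (w := w) N hu2 hu2c hu1 hcase hα hκ hin0
  exact ⟨L, θ', h⟩

end Vale.Agent.P106.U.H513
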