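import Vale.Agent.P106.U.H513.YMtr
import Vale.Agent.P106.U.H118.HeavyRunM

/-!
# P106 / U / H513 : heavy intervals over a run, mixed letters, strip count included (helper513)

`heavy_reY` : helper118's `heavy_reM` with the hypothesis `hSY` replaced by `YMod` at the young steps (helper513's `y6_re`); one
error `eS η m μ`, `η = 3 ε + 2 c' + ηY`.
-/

set_option autoImplicit false

namespace Vale.Agent.P106.U.H513

open Finset Vale.Agent.P127 Vale.Agent.P127.Stk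
open Vale.Agent.P127.U.CellD (q2)
open Vale.Agent.P106.U.Cell Vale.Agent.P106.U.S3 Vale.Agent.P106.U.H118

variable {Ω : Type} [Fintype Ω] {τ υ : Type} {R : Run Ω τ υ}

lemma eS_eq (η : ℝ) (m μ : ℕ) : eS η m μ = eSK η m μ := rfl

lemma eSK_mono {η η' : ℝ} (h : η ≤ η') (m μ : ℕ) : eSK η m μ ≤ eSK η' m μ := by
  have hl : 0 ≤ Real.log 2 := Real.log_nonneg (by norm_num)
  have hl45 : 0 ≤ Real.log 45 := Real.log_nonneg (by norm_num)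
  have g1 := Real.sqrt_le_sqrt h
  have g2 : 0 ≤ Real.log 45 + (2 * (m : ℝ) + 2 * μ) * Real.log 2 := by positivity
  have g3 := mul_le_mul_of_nonneg_right h g2
  unfold eSK
  linarith

/-- **heavy intervals over a run**, along the indices `f`, mixed letters, `YMod` at the young steps -/
theorem heavy_reY {p : Run.Num} {K c' g' gU : ℝ} (h : R.Ok p K c' g' gU) (hK : 1 ≤ K)
    {f : ℕ → ℕ} (hf : Monotone f) {N : ℕ} (hfs : ∀ i k, i < k → k ≤ N → f i < f k) (hfn : ∀ k ≤ N, f k ≤ R.n)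
    {A0 R0 b : ℕ} {a r : ℕ → ℕ} (hA : ∀ k ≤ N, R.C.a (f k) = A0 + R.m * a k)
    (hR : ∀ k ≤ N, R.C.R (f k) b = R0 + R.m * r k) (hst : ∀ k < N, a (k + 1) = a k ∨ a (k + 1) = a k + 1)
    (hf1 : ∀ k < N, a (k + 1) = a k + 1 → R.C.a (f (k + 1)) = R.C.a (f k + 1))
    {ε δ co ηY : ℝ} {c y z c3 cY Kμ : ℕ} (hxB : b < p.B₁) (hbx : R.m + y ≤ b)
    (hc : 2 * K * q2 c ≤ 1) (hy : 40 * K ^ 6 * q2 y ≤ 1) (hq : K * q2 R.q ≤ 1)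
    (hKμ : 2 * R.m + 2 * c + 1 + y ≤ R.m * Kμ)
    (h3a : (p.s + 1) * R.m + R.m + c + (y + 1) + 4 * R.C.μ ≤ R.m * c3)
    (h3b : (p.s + 1) * R.m + 3 * R.m + 2 * c + 9 * R.C.μ ≤ R.m * c3)
    (hcY : c3 + Kμ ≤ cY) (hz : R.m + c + y ≤ z)
    (hb8 : 8 * R.C.μ ≤ b) (h9 : 9 * R.C.μ ≤ R.C.R (f 0) b)
    (hμ : 40 * K ^ 2 * q2 R.C.μ ≤ (1 / 4 : ℝ) ^ R.m)
    -- the letters
    {σ : Type} (Y : ℕ → Ω → σ) (O : ℕ → Prop)
    (hYO1 : ∀ k ≤ N, O k → Fn R.Q (Y k) (R.C.cell (f k) b))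
    (hYO2 : ∀ k ≤ N, O k → Fn R.Q (R.C.cell (f k) b) (Y k))
    (hYt : ∀ k ≤ N, ¬ O k → Fn R.Q (td R.C (f k)) (Y k))
    (hY0 : 0 ≤ ηY) (hYM : ∀ k < N, a (k + 1) = a k + 1 → ¬ O k → YMod R K b z (f k) (Y k) ηY)
    {u1 u2 : ℕ → ℝ} {ν c0 cE : ℝ}
    (hVO : ∀ k < N, a (k + 1) = a k + 1 → O k → 2 * (R.m * Real.log 2) - u1 (a k) ≤
      Stk.hc R.Q (R.C.VZ (f (k + 1)) b)
        (fun ω => (td R.C (f (k + 1)) ω, (R.C.cell (f k) b ω, R.C.VZ (f k) b ω))))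
    (hVY : ∀ k < N, a (k + 1) = a k + 1 → ¬ O k → 2 * (R.m * Real.log 2) - u1 (a k) ≤
      Stk.hc R.Q (R.C.VZ (f (k + 1)) b) (fun ω => (td R.C (f (k + 1)) ω, (Y k ω, R.C.VZ (f k) b ω))))
    (hu1 : ∀ z, 0 ≤ u1 z) (hu2 : ∀ z, 0 ≤ u2 z)
    (hν : nuK K + Real.log 45 ≤ ν)
    (hNY : ∀ k k2, k < N → a (k + 1) = a k + 1 → k < k2 → k2 ≤ N → a k2 = a k + 1 →
      (k2 = N ∨ a (k2 + 1) = a k2 + 1) → ¬ (O k ∧ O k2) →
      Stk.hc R.Q (fun ω => (Y k ω, R.C.VZ (f k) b ω)) (fun ω => (Y k2 ω, R.C.VZ (f k2) b ω)) ≤ ν + u2 (a k))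
    (hδ0 : 0 ≤ δ) (hδ : eSK (3 * ε + 2 * c' + ηY) R.m R.C.μ + ν ≤ δ * (R.m * Real.log 2)) (hδ1 : δ ≤ 1)
    (hco : 0 ≤ co) (hc0 : nuK K ≤ c0)
    (h0 : ∀ i k, i < k → k ≤ N → ¬ O k →
      Stk.hc R.Q (R.C.cell (f i) b) (fun ω => (Y k ω, R.C.VZ (f k) b ω)) ≤ c0)
    (hcE : 0 ≤ cE)
    (hE : ¬ O N → Stk.hc R.Q (Y N) (fun ω => (R.C.cell (f N) b ω, R.C.VZ (f N) b ω)) ≤ cE)
    {xo : ℕ → ℝ} (hxo : ∀ j, 0 ≤ xo j) {cx : ℝ} (hcx : 0 ≤ cx)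
    (hov : ∀ i i1, R.Good p ε b (f i) → i < i1 → i1 ≤ N → a N + r i < a i + r i1 →
      R.m * Real.log 2 * ((r i1 : ℝ) - r i) ≤
        ∑ j ∈ Ico i i1, xo j + co + R.m * Real.log 2 * cx * ((a i1 : ℝ) - a i) ∨
      ((a i : ℝ) + r i1 - r i - a N) * (R.m * Real.log 2) * (1 - δ) -
          (co + ∑ j ∈ Ico i i1, xo j + R.m * Real.log 2 * cx * ((a i1 : ℝ) - a i)) ≤
        Stk.hc (two R.Q (R.XZ (f i) b)) (fun p => R.C.cell (f i1) b p.snd)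
          (fun p => (R.C.cell (f N) b p.fst, R.C.VZ (f N) b p.fst))) (M1 : ℕ) :
    ∀ i i1, R.Good p ε b (f i) → i < i1 → i1 ≤ N → r i + M1 < r i1 →
      R.m * Real.log 2 * (1 - δ) * ((r i1 : ℝ) - r i) - R.m * Real.log 2 * (3 + 2 + cx) * ((a i1 : ℝ) - a i) -
        ∑ z ∈ Icc (a i) (a i + (r i1 - r i)), (u1 z + u2 z) -
        ((cY : ℝ) * (R.m * Real.log 2) + (c0 + cE + nuK K) + co) -
        ∑ j ∈ Ico i i1, (H833.qc R.Q R.ry (fun i => Zw R (f i)) (fun j ω => fl1 (R.C.a (f j)) (R.C.t ω)) j +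
          xo j) ≤
      H833.psi R.Q R.ry (fun i => Zw R (f i)) (fun k => R.C.cell (f k) b) i1 -
        H833.psi R.Q R.ry (fun i => Zw R (f i)) (fun k => R.C.cell (f k) b) i :=
  heavy_reM h hK hf hfs hfn hA hR hst hf1 hxB hbx hc hy hq hKμ (by omega) (by omega) hb8 h9 hμ Y O hYO1 hYO2 hYt
    hVO hVY hu1 hu2 hν hNY hδ0 (eS := eSK (3 * ε + 2 * c' + ηY) R.m R.C.μ) (eSK_mono (by linarith) _ _) hδ hδ1 hco
    hc0 h0 hcE hE hcY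
    (y6_re h hK hfs hfn hA hR hf1 hxB hbx hc hy hq hKμ h3a h3b hcY hz hb8 h9 hμ Y O hYM)
    hxo hcx hov M1

end Vale.Agent.P106.U.H513
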