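import Vale.Agent.P106.U.H495.RK1

import Vale.Agent.P106.U.H683.FzA

/-!
# P106 / U / H513 : input `NdP` of row [K] (helper513)

* `nd_st` : the cells `mtr` of two young indices are nested up to a bounded number of choices, over `MIC.St`;
* **`ndP`** : `RK.NdP`.
-/

set_option autoImplicit false

namespace Vale.Agent.P106.U.H513

open Finset Vale.Agent.P127 Vale.Agent.P127.Stk Vale.Agent.P127.U Vale.Agent.P106.W Vale.Agent.P106.K
open Vale.Agent.P127.U.CellD (q2 rd)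
open Vale.Agent.P106.U.S3 (Run mt LDk LTh Ob lv IdK)
open Vale.Agent.P106.U.S5 hiding Cst
open Vale.Agent.P106.U.MIC
open Vale.Agent.P106.U.H785.Mtr (Mtd Lt YI)
open Vale.Agent.P106.U.H101 (lc low)
open Vale.Agent.P106.U.H495.RK
open Vale.Agent.P106.U.H652 (Ev3 ev_nat)


section

variable {η : ℝ} {x : ℕ} {σ : S5.Cst} {ε : ℝ} {ρ : Thr} {g : Gv} {m B h : ℕ}

/-- the numbers of the two inputs -/
structure RN (ρ : Thr) (x m B : ℕ) : Prop where
  m1 : 1 ≤ m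
  μB : μS x m ≤ B
  KB : (100 * ρ.K) ^ 20 ≤ (B : ℝ)

theorem ev_RN (ρ : Thr) (x : ℕ) : Ev3 fun m B _ => RN ρ x m B := by
  refine Ev3.of_B ?_
  filter_upwards [ev_nat 1] with m h1
  filter_upwards [ev_nat (μS x m), ev_nat ⌈(100 * ρ.K) ^ 20⌉₊] with B h2 h3
  exact ⟨h1, h2, (Nat.le_ceil _).trans (by exact_mod_cast h3)⟩

variable (s : St η x σ ε ρ g m B h)

/-- the index of a level, margins -/
theorem rk_facts (H : RN ρ x m B) : μS x m ≤ s.R.C.μ ∧ 100 * (s.R.m * B) ≤ s.R.r0 ∧ 8 * μS x m ≤ s.R.m * s.R.b1 := by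
  have run := s.run
  have hm : s.R.m = m := run.hm
  have hP := run.ok.pth
  refine ⟨?_, ?_, ?_⟩
  · rw [run.hμ]
    exact H.μB.trans (Nat.le_mul_of_pos_left B H.m1)
  · rw [hm, run.hr0]
    exact run.rm
  · have h1 := run.cap.low
    have h2 := H.μB
    have h3 : s.R.b1 ≤ s.R.m * s.R.b1 := Nat.le_mul_of_pos_left _ hP.m1
    omega

/-- prefix letters along the record -/
theorem pf_nest {j : ℕ} (hj : j ≤ s.R.n + s.pn.J) {i : ℕ} (hij : i ≤ j) : Fn s.R.Q (s.F.pf i) (s.F.pf j) := by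
  induction j, hij using Nat.le_induction with
  | base => exact fun _ _ _ _ e => e
  | succ j _ ih => exact fun ω ω' h h' e => ih (by omega) ω ω' h h' (s.f2.pfH j (by omega) ω ω' h h' e)

/-- **nestedness** of the cells of two young indices -/
theorem nd_st (hρ : ρ.Ok) (H : RN ρ x m B) {i j : ℕ} (hij : i ≤ j) (hj : j ≤ s.R.n) (hi' : i ∈ YI s.R s.pn s.Vs)
    (hj' : j ∈ YI s.R s.pn s.Vs) :
    Stk.hc s.R.Q ((M s).mtr i (s.R.m * s.R.b1)) ((M s).mtr j (s.R.m * s.R.b1)) ≤ H683.FzA.cM (4 * ρ.K) := by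
  obtain ⟨hμ, hr, hb⟩ := rk_facts s H
  have hK1 := hρ.K1
  have hP := s.run.ok.pth
  have hy : ∀ ω, 0 < s.R.Q.w ω → (M s).Hy (4 * ρ.K) (YI s.R s.pn s.Vs) ω := fun ω hω =>
    H785.Mtr.hy_mt (o := s.o) (o' := s.o') s.run.ok s.f2 hρ.K1 H.KB hr H.μB hμ hω
  have e1 : (M s).μ = μS x m := rfl
  have h1 : 8 * μS x m ≤ s.R.C.rf i := by
    have a1 := s.R.C.hkf i
    have a2 : s.R.r0 ≤ s.R.C.rk i := hP.k0 ▸ s.R.C.hk (Nat.zero_le i)
    have a3 : B ≤ s.R.m * B := Nat.le_mul_of_pos_left B hP.m1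
    have a4 := H.μB
    omega
  have h2 : 8 * (M s).μ ≤ (M s).R i (s.R.m * s.R.b1) := by
    rw [e1]
    unfold H785.Mtr.Mtd.R
    refine le_min ?_ h1
    omega
  have hpf := pf_nest s (j := j) (by omega) hij
  refine H683.FzA.hc_mtr s.R.Q (by linarith) hy hi' hj' hij (by rw [e1]; exact hb) h2 ?_
  exact H683.FzA.hc_lt_mtr s.R.Q (by linarith) hy hi' hj' hij (by rw [e1]; omega) hpf

end

/-- **[ND]** -/
theorem ndP : NdP := by
  intro b _ η _ x δh e3 _ _ _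
  refine ⟨1, one_pos, fun θ _ _ => ⟨1, one_pos, fun δ1 _ _ σ _ _ => ⟨1, one_pos, fun ε _ _ ρ hρ => ?_⟩⟩⟩
  refine ⟨max 0 (H683.FzA.cM (4 * ρ.K)), le_max_left _ _, Suf.of_ev3 fun g _ => ?_⟩
  refine (Ev3.mono (ev_RN ρ x) fun m B h H s w y F => ?_).out
  have f1 := F.lv w le_rfl F.wy
  have f2 := F.lv y F.wy le_rfl
  have h1 : ui s w ≤ ui s y := by
    rcases F.wy.eq_or_lt with e | e
    · rw [e]
    · exact (F.up w y le_rfl e le_rfl).le
  have k1 := f1.kn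
  have k2 := f2.kn
  refine (nd_st s hρ H h1 k2.le ⟨by omega, by rw [f1.lv]; exact f1.V⟩ ⟨by omega, by rw [f2.lv]; exact f2.V⟩).trans
    (le_max_right _ _)

end Vale.Agent.P106.U.H513
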