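import Vale.Agent.P106.U.H513.F1
import Vale.Agent.P106.U.H833.NStep

/-!
# P106 / U / H513 : row [SI], kind 0 : the sums of the two informations over the old windows (helper513)

`N`, `a` : compressed word (levels in blocks along `f`), `G` : pairs `(j, k)` (step, end of a window) of 931 (`Prs`).

* `rdx N a Kr k = nx N a (lvi N a (a k + Kr))` : the a-step of the level `a k + Kr` (the later index of the window).
* `rdx_spec`, `sum_rdx`, `tele_rdx` : 931's lemmas for this index.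
* `f1_kapR`, `f1_phiR` : F1 for this index.
-/

set_option autoImplicit false

namespace Vale.Agent.P106.U.H513

open Finset Vale.Agent.P127 Vale.Agent.P127.Stk Vale.Agent.P106.U.Cell
open Vale.Agent.P127.U.CellD (q2 rd Nb q2_pos q2_add q2_le)
open Vale.Agent.P106.U.H118 (Sdat)
open Vale.Agent.P106.U.H931 (lvi Prs Adm lvi_le_n a_lvi le_lvi nx nx_le le_nx nx_const nx_spec)

section rdx

variable {n : ℕ} {g : ℕ → Prop} {a R : ℕ → ℕ} {K1 Kr Kn L1 L2 : ℕ} {G : Finset (ℕ × ℕ)}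

/-- later index of the window end `k` : the a-step of the level `a k + Kr` -/
noncomputable def rdx (n : ℕ) (a : ℕ → ℕ) (Kr k : ℕ) : ℕ := nx n a (lvi n a (a k + Kr))

theorem rdx_le (n : ℕ) (a : ℕ → ℕ) (Kr k : ℕ) : rdx n a Kr k ≤ n := nx_le n a _

theorem rdx_spec (D : Sdat n g a R) (h0 : 0 < Kr) (hK : Kr < 2 * K1) {j k : ℕ} (hk : k ≤ n) (h : Adm K1 L2 n a j k) :
    k < rdx n a Kr k ∧ a (rdx n a Kr k) = a k + Kr ∧ a (rdx n a Kr k + 1) = a (rdx n a Kr k) + 1 ∧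
      ∃ i1 ≤ n, rdx n a Kr k < i1 ∧ a k + 2 * K1 ≤ a i1 ∧ i1 ≤ j + L2 := by
  obtain ⟨i1, h1, h2, h3⟩ := h
  have h4 := D.am (Nat.zero_le k) hk
  have h5 : a (lvi n a (a k + Kr)) = a k + Kr := a_lvi D (by omega) h1 (by omega)
  have h6 : k ≤ lvi n a (a k + Kr) := le_lvi D hk (Or.inl (by omega))
  have h7 : k ≠ lvi n a (a k + Kr) := fun e => by
    rw [← e] at h5
    omega
  have h8 : lvi n a (a k + Kr) < i1 := by
    by_contra h9
    push Not at h9
    have := D.am h9 (lvi_le_n n a _)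
    omega
  have h9 := le_nx (n := n) (a := a) (lvi_le_n n a (a k + Kr))
  have h10 := nx_const D h9 le_rfl
  have h11 : rdx n a Kr k < i1 := by
    by_contra hc
    push Not at hc
    have := nx_const D h8.le hc
    omega
  have h12 := nx_spec (n := n) (a := a) (j := lvi n a (a k + Kr)) (lt_of_lt_of_le h11 h1)
  refine ⟨?_, ?_, h12, i1, h1, h11, h2, h3⟩
  · unfold rdx
    omega
  · unfold rdx
    rw [h10, h5]

theorem mult_rdx (D : Sdat n g a R) (h0 : 0 < Kr) (hK : Kr < 2 * K1) (h : Prs K1 L1 L2 n a G) (x : ℕ) :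
    (G.filter fun p => rdx n a Kr p.2 = x).card ≤ L1 * L2 := by
  classical
  have h1 : (G.filter fun p => rdx n a Kr p.2 = x).card ≤ (Ico (x - L2) x ×ˢ Icc 1 L1).card := by
    refine Finset.card_le_card_of_injOn (fun p => (p.1, p.2 - p.1)) ?_ ?_
    · intro p hp
      rw [Finset.mem_coe, Finset.mem_filter] at hp
      have e1 := h.lt p hp.1
      have e2 := h.le p hp.1
      obtain ⟨f1, f2, f3, i1, f4, f5, f6, f7⟩ := rdx_spec D h0 hK (h.hn p hp.1) (h.adm p hp.1)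
      rw [hp.2] at f1 f5
      rw [Finset.mem_coe, Finset.mem_product, Finset.mem_Ico, Finset.mem_Icc]
      simp only
      omega
    · intro p hp q hq e
      rw [Finset.mem_coe, Finset.mem_filter] at hp hq
      have e1 := h.lt p hp.1
      have e2 := h.lt q hq.1
      simp only [Prod.mk.injEq] at e
      exact Prod.ext e.1 (by omega)
  rw [Finset.card_product, Nat.card_Ico, Nat.card_Icc] at h1
  refine h1.trans ?_
  rw [Nat.mul_comm]
  exact Nat.mul_le_mul (by omega) (by omega)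

theorem sum_rdx (D : Sdat n g a R) (h0 : 0 < Kr) (hK : Kr < 2 * K1) (h : Prs K1 L1 L2 n a G) (f : ℕ → ℝ)
    (hf : ∀ x ≤ n, 0 ≤ f x) :
    ∑ p ∈ G, f (rdx n a Kr p.2) ≤ ((L1 : ℝ) * L2) * ∑ x ∈ range (n + 1), f x := by
  classical
  have h1 : ∀ p ∈ G, rdx n a Kr p.2 ∈ range (n + 1) := by
    intro p _
    rw [Finset.mem_range]
    have := rdx_le n a Kr p.2
    omega
  rw [← Finset.sum_fiberwise_of_maps_to h1, Finset.mul_sum]
  refine Finset.sum_le_sum fun x hx => ?_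
  rw [Finset.mem_range] at hx
  have h2 : ∑ p ∈ G.filter (fun p => rdx n a Kr p.2 = x), f (rdx n a Kr p.2) =
      ∑ p ∈ G.filter (fun p => rdx n a Kr p.2 = x), f x :=
    Finset.sum_congr rfl fun j hj => by rw [(Finset.mem_filter.1 hj).2]
  rw [h2, Finset.sum_const, nsmul_eq_mul]
  refine mul_le_mul_of_nonneg_right ?_ (hf x (by omega))
  exact_mod_cast mult_rdx D h0 hK h x

/-- telescoping of the informations between `j + 1` and the later index -/
theorem tele_rdx {Ω : Type} [Fintype Ω] (P : Law Ω) {S U : Type*} (D : Sdat n g a R) (hG : Prs K1 L1 L2 n a G)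
    (h0 : 0 < Kr) (h1 : Kn ≤ Kr) (h2 : Kr + Kn ≤ 2 * K1) (h3 : 0 < Kn) (X : Ω → U) (C : ℕ → Ω → S)
    (ν : ℕ → ℝ) {H : ℝ} (hν0 : ∀ i ≤ n, 0 ≤ ν i)
    (hν : ∀ i j, i ≤ n → j ≤ n → a i + Kn ≤ a j → hc P (C i) (C j) ≤ ν i)
    (hH : ∀ i ≤ n, hc P X (C i) ≤ H) :
    ∑ p ∈ G, mi P X (C (rdx n a Kr p.2)) (C (p.1 + 1)) ≤
      L1 * (L2 * H) + (L1 : ℝ) * (L2 + 1) * ∑ x ∈ range (n + 1), ν x := by
  have h := H931.tele_regI P X C a ν n Kn L2 L1 (fun i j h1 h2 => D.am h1 h2) hν0 hν hH G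
    (fun p => p.1 + 1) (fun p => rdx n a Kr p.2) (by
      intro p hp
      obtain ⟨f1, f2, f3, i1, f4, f5, f6, f7⟩ := rdx_spec D h0 (by omega : Kr < 2 * K1) (hG.hn p hp) (hG.adm p hp)
      have e1 := hG.lt p hp
      have e2 := D.am (by omega : p.1 + 1 ≤ p.2) (hG.hn p hp)
      have e3 := hG.hn p hp
      refine ⟨?_, rdx_le n a Kr p.2, ?_, i1, f4, ?_, ?_⟩
      · show p.1 + 1 < n
        omega
      · show a (p.1 + 1) + Kn ≤ a (rdx n a Kr p.2)
        omega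
      · show a (rdx n a Kr p.2) + Kn ≤ a i1
        omega
      · show i1 ≤ p.1 + 1 + L2
        omega) hG.mult
  rw [Finset.sum_add_distrib] at h
  have e1 := hG.sum1 ν hν0
  have e2 := sum_rdx D h0 (by omega : Kr < 2 * K1) hG ν hν0
  linarith

end rdx

section cell

variable {Ω τ : Type} [Fintype Ω] {K : ℝ}

/-- **F1, kappa regime** -/
theorem f1_kapR (P : Law Ω) (C : Pth Ω τ) (h1 : 1 ≤ K) (hok : ∀ ω, 0 < P.w ω → C.Ok K ω) {n b K1 Kr Kn L1 L2 : ℕ}
    {g : ℕ → Prop} {a R : ℕ → ℕ} (D : Sdat n g a R) (hR : Rm5 C n b Kn a) (hKn : 0 < Kn) (hKr : Kn ≤ Kr)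
    (hK1 : Kr + Kn ≤ 2 * K1) {G : Finset (ℕ × ℕ)} (hG : Prs K1 L1 L2 n a G) {U : Type} (Y : Ω → U) {H : ℝ}
    (hH : ∀ x ≤ n, hc P Y (C.cell x b) ≤ H) :
    ∑ q ∈ G, mi P Y (C.cell (rdx n a Kr q.2) b)
        (fun ω => (C.cell (q.1 + 1) b ω, C.T (rdx n a Kr q.2) ω)) ≤
      L1 * (L2 * H) + (L1 : ℝ) * (L2 + 1) * ∑ x ∈ range (n + 1), nuC P C K b x := by
  have hνK := hnu5 P C h1 hok D hR hKn
  refine (Finset.sum_le_sum fun q _ => ?_).trans (tele_rdx P D hG (by omega) hKr hK1 hKn Y (fun x => C.cell x b)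
    (fun x => nuC P C K b x) (fun x _ => nuC_nonneg P C K b x) hνK hH)
  exact H931.mi_cond_fn P Y _ _ (fun ω ω' _ _ e => (Pth.cell_iff.1 e).1)

/-- **F1, phi regime** (letters `Dp (j+1)`, `Th i`) -/
theorem f1_phiR (P : Law Ω) (C : Pth Ω τ) (h1 : 1 ≤ K) (hok : ∀ ω, 0 < P.w ω → C.Ok K ω) {n b K1 Kr Kn L1 L2 : ℕ}
    {g : ℕ → Prop} {a R : ℕ → ℕ} (D : Sdat n g a R) (hR : Rm5 C n b Kn a) (hKn : 0 < Kn) (hKr : Kn ≤ Kr)
    (hK1 : Kr + 2 * Kn ≤ 2 * K1) {G : Finset (ℕ × ℕ)} (hG : Prs K1 L1 L2 n a G)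
    (hφ : ∀ q ∈ G, C.rf (rdx n a Kr q.2) + 4 * C.μ ≤ C.R (rdx n a (Kr + Kn) q.2) b ∧
      C.rf (rdx n a Kr q.2) + 2 * C.μ ≤ C.rk (rdx n a Kr q.2) + b ∧
      C.rf (q.1 + 1) + 2 * C.μ ≤ C.rk (q.1 + 1) + b) {U : Type} (Y : Ω → U) {H : ℝ}
    (hH : ∀ x ≤ n, hc P Y (C.cell x b) ≤ H) :
    ∑ q ∈ G, mi P Y (C.cell (rdx n a Kr q.2) b)
        (fun ω => (H683.Dp C (q.1 + 1) b ω, MIC.Th C b (rdx n a Kr q.2) ω)) ≤
      L1 * (L2 * H) + ((L1 : ℝ) * (2 * L2 + 1) * ∑ x ∈ range (n + 1), nuC P C K b x +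
        (L1 : ℝ) * (L2 + 1) * ∑ x ∈ range (n + 1), nuS P C K b x) := by
  have hνK := hnu5 P C h1 hok D hR hKn
  have s1 := tele_rdx P D hG (Kr := Kr + Kn) (Kn := Kn) (by omega) (by omega) (by omega) hKn Y (fun x => C.cell x b)
    (fun x => nuC P C K b x) (fun x _ => nuC_nonneg P C K b x) hνK hH
  have s2 := sum_rdx D (by omega : 0 < Kr) (by omega : Kr < 2 * K1) hG (fun x => nuC P C K b x)
    (fun x _ => nuC_nonneg P C K b x)
  have s3 := hG.sum1 (fun x => nuS P C K b x) (fun x _ => nuS_nonneg P C K b x)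
  have s4 := sum_rdx D (by omega : 0 < Kr) (by omega : Kr < 2 * K1) hG (fun x => nuS P C K b x)
    (fun x _ => nuS_nonneg P C K b x)
  have hstep : ∀ q ∈ G, mi P Y (C.cell (rdx n a Kr q.2) b)
        (fun ω => (H683.Dp C (q.1 + 1) b ω, MIC.Th C b (rdx n a Kr q.2) ω)) ≤
      mi P Y (C.cell (rdx n a (Kr + Kn) q.2) b) (C.cell (q.1 + 1) b) +
        (nuC P C K b (rdx n a Kr q.2) + nuS P C K b (q.1 + 1) +
          nuS P C K b (rdx n a Kr q.2)) := by
    intro q hq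
    have e1 := hG.lt q hq
    obtain ⟨f1, f2, _, i1, f4, f5, f6, f7⟩ := rdx_spec D (Kr := Kr + Kn) (by omega) (by omega : Kr + Kn < 2 * K1)
      (hG.hn q hq) (hG.adm q hq)
    obtain ⟨g1, g2, _, i2, g4, g5, g6, g7⟩ := rdx_spec D (by omega : 0 < Kr) (by omega : Kr < 2 * K1) (hG.hn q hq)
      (hG.adm q hq)
    obtain ⟨p1, p2, p3⟩ := hφ q hq
    have l1 := rdx_le n a Kr q.2
    have l2 := rdx_le n a (Kr + Kn) q.2
    set i' := rdx n a Kr q.2 with hi'
    set i'' := rdx n a (Kr + Kn) q.2 with hi''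
    have hii : i' ≤ i'' := by
      by_contra hc
      push Not at hc
      have := D.am hc.le l1
      omega
    have hTh : MIC.Th C b i' = H683.Th C i' b := MIC.th_phi (by omega)
    rw [hTh]
    have h := H420.f1_step P C Y (k := q.1 + 1) (i' := i') (i'' := i'') (b := b)
    have n1 := hνK i' i'' l1 l2 (by omega)
    have hrf : C.rf (q.1 + 1) ≤ C.rf i' := C.hf (by omega)
    have n2 := hc_SR5 P C h1 hok (i := q.1 + 1) (j := i'') (b := b) (by omega) (hR.lev i'' l2)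
      (by omega) p3
    have n3 := hc_SR5 P C h1 hok (i := i') (j := i'') (b := b) hii (hR.lev i'' l2) p1 p2
    have h' : mi P Y (C.cell i' b) (fun ω => (H683.Dp C (q.1 + 1) b ω, H683.Th C i' b ω)) ≤
        mi P Y (C.cell i'' b) (C.cell (q.1 + 1) b) +
        (hc P (C.cell i' b) (C.cell i'' b) + hc P (H420.SR C (q.1 + 1) b) (C.cell i'' b) +
          hc P (H420.SR C i' b) (C.cell i'' b)) := h
    linarith
  refine (Finset.sum_le_sum hstep).trans ?_
  rw [Finset.sum_add_distrib, Finset.sum_add_distrib, Finset.sum_add_distrib]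
  have hL1 : (0 : ℝ) ≤ L1 := Nat.cast_nonneg _
  linarith

end cell

end Vale.Agent.P106.U.H513
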