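import Vale.Agent.P106.U.H513.SIo

/-!
# P106 / U / H513 : regrouping of the sums over the windows, any kind (helper513)

For any `M : ℕ → ℕ → ℝ` (index of the record, later index of the record), `M ≥ 0`, any index set `Id` with
`pu (aN R k) → k ∈ Id`:

* **`si_groupE`** : `∑_j ∑_{k ∈ (j, j + L1]} [AdmO] M (f (j + e)) (f (lx k)) ≤ L1 ∑_{d ≤ Lb} ∑_{k ∈ Id} ∑_{i ∈ At' d k} M k i`,
  `e ≤ 1`.
* `adm_at` : what an admissible pair is: `f (lx k) ∈ At' d (f (j + e))`, `d ≤ Lb`.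
-/

set_option autoImplicit false

namespace Vale.Agent.P106.U.H513

open Finset Vale.Agent.P127 Vale.Agent.P127.Stk Vale.Agent.P106.U
open Vale.Agent.P106.U.H118 (Sdat)
open Vale.Agent.P106.U.H931 (Prs)
open Vale.Agent.P106.U.H833 (aN lx AdmO lev_a)
open Vale.Agent.P106.U.S3 (Run At' At)

section

variable {Ω : Type} [Fintype Ω] {τ υ : Type} {R : Run Ω τ υ} {p : Run.Num}

/-- what an admissible pair is -/
theorem adm_at (hP : R.Path p) {f : ℕ → ℕ} (hf : Monotone f) {N : ℕ} (hN : f N ≤ R.n)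
    (hs : ∀ i j, i < j → j ≤ N → f i < f j) {γ : ℕ → Prop} {r : ℕ → ℕ} (D : Sdat N γ (fun i => aN R (f i)) r)
    (hA : ∀ i < N, aN R (f (i + 1)) = aN R (f i) + 1 → R.IsA (f i)) {B Kr Lk L1 L2 Lb : ℕ} (h0 : 0 < Kr) (hLk : Kr < Lk)
    (hLb : L1 + Kr ≤ Lb) (pu : ℕ → Prop)
    (hB : ∀ k i, k ≤ i → i ≤ R.n → pu (aN R k) → aN R i ≤ aN R k + Lb → i ≤ k + B) {j k : ℕ}
    (h : AdmO N (fun i => aN R (f i)) pu L1 L2 Kr Lk j k) (e : ℕ) (he : e ≤ 1) :
    j + e < lx N (fun i => aN R (f i)) Kr k ∧ lx N (fun i => aN R (f i)) Kr k < N ∧ pu (aN R (f (j + e))) ∧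
      aN R (f (j + e)) ≤ aN R (f (lx N (fun i => aN R (f i)) Kr k)) ∧
      aN R (f (lx N (fun i => aN R (f i)) Kr k)) ≤ aN R (f (j + e)) + Lb ∧
      f (lx N (fun i => aN R (f i)) Kr k) ∈ At' R p B
        (aN R (f (lx N (fun i => aN R (f i)) Kr k)) - aN R (f (j + e))) (f (j + e)) := by
  classical
  obtain ⟨a1, a2, ⟨i1, a3, a4, a5, a6⟩, a7⟩ := h
  have a6' : aN R (f k) + Lk + 1 ≤ aN R (f i1) := a6
  obtain ⟨f1, f2, f3, f4⟩ := H833.lx_spec D a4 a3 h0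
    (show (fun i => aN R (f i)) k + Kr + 1 ≤ (fun i => aN R (f i)) i1 by
      show aN R (f k) + Kr + 1 ≤ aN R (f i1)
      omega)
  set i' := lx N (fun i => aN R (f i)) Kr k with hi'
  have f3' : aN R (f i') = aN R (f k) + Kr := f3
  have f4' : aN R (f (i' + 1)) = aN R (f k) + Kr + 1 := f4
  have g1 : aN R (f j) ≤ aN R (f (j + e)) := D.am (Nat.le_add_right _ _) (by omega)
  have g2 : aN R (f (j + e)) ≤ aN R (f k) := D.am (by omega : j + e ≤ k) (by omega)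
  have g3 : aN R (f k) ≤ aN R (f j) + (k - j) := by
    have := D.al (i := j) (j := k) (by omega) (by omega)
    omega
  have g5 : pu (aN R (f (j + e))) := a7 _ g1 (by show aN R (f (j + e)) ≤ aN R (f k) + Lk; omega)
  have g6 : i' < N := by omega
  have k1 := hs (j + e) i' (by omega) g6.le
  have k2 := hf g6.le
  have k3 := hB (f (j + e)) (f i') k1.le (by omega) g5 (by omega)
  have hIs := hA i' g6 (by omega)
  refine ⟨by omega, g6, g5, by omega, by omega, ?_⟩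
  unfold At'
  rw [Finset.mem_filter, Finset.mem_range]
  refine ⟨by omega, k1, k3, by omega, ?_, hIs⟩
  rw [lev_a hP (i := f i') (by omega), lev_a hP (i := f (j + e)) (by omega)]
  have k4 : aN R (f i') = aN R (f (j + e)) + (aN R (f i') - aN R (f (j + e))) := by omega
  have k5 : R.m * aN R (f i') = R.m * (aN R (f (j + e)) + (aN R (f i') - aN R (f (j + e)))) := by
    rw [← k4]
  rw [k5]
  ring

open Classical in
/-- **regrouping**, `e ≤ 1` -/
theorem si_groupE (hP : R.Path p) {f : ℕ → ℕ} (hf : Monotone f) {N : ℕ} (hN : f N ≤ R.n)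
    (hs : ∀ i j, i < j → j ≤ N → f i < f j) {γ : ℕ → Prop} {r : ℕ → ℕ} (D : Sdat N γ (fun i => aN R (f i)) r)
    (hA : ∀ i < N, aN R (f (i + 1)) = aN R (f i) + 1 → R.IsA (f i)) {B Kr Lk L1 L2 Lb : ℕ} (h0 : 0 < Kr) (hLk : Kr < Lk)
    (hLb : L1 + Kr ≤ Lb) (pu : ℕ → Prop)
    (hB : ∀ k i, k ≤ i → i ≤ R.n → pu (aN R k) → aN R i ≤ aN R k + Lb → i ≤ k + B) (e : ℕ) (he : e ≤ 1)
    (Id : Finset ℕ) (hId : ∀ k ≤ R.n, pu (aN R k) → k ∈ Id) (M : ℕ → ℕ → ℝ) (hM : ∀ k i, 0 ≤ M k i) :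
    ∑ j ∈ range N, ∑ k ∈ Ioc j (j + L1), (if AdmO N (fun i => aN R (f i)) pu L1 L2 Kr Lk j k then
        M (f (j + e)) (f (lx N (fun i => aN R (f i)) Kr k)) else 0) ≤
      (L1 : ℝ) * ∑ d ∈ range (Lb + 1), ∑ k ∈ Id, ∑ i ∈ At' R p B d k, M k i := by
  have e1 := sum_pairs5 N L1 (fun j k => AdmO N (fun i => aN R (f i)) pu L1 L2 Kr Lk j k)
      (fun j k => M (f (j + e)) (f (lx N (fun i => aN R (f i)) Kr k))) fun j k hjk => admO_le hjk
  refine e1.le.trans ?_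
  set a : ℕ → ℕ := fun i => aN R (f i) with ha
  set G := (range N ×ˢ range (N + 1)).filter fun q => AdmO N a pu L1 L2 Kr Lk q.1 q.2 with hG
  have hq : ∀ q ∈ G, q.1 + e < lx N a Kr q.2 ∧ lx N a Kr q.2 < N ∧ pu (aN R (f (q.1 + e))) ∧
      aN R (f (q.1 + e)) ≤ aN R (f (lx N a Kr q.2)) ∧ aN R (f (lx N a Kr q.2)) ≤ aN R (f (q.1 + e)) + Lb ∧
      f (lx N a Kr q.2) ∈ At' R p B (aN R (f (lx N a Kr q.2)) - aN R (f (q.1 + e))) (f (q.1 + e)) :=
    fun q hq => adm_at hP hf hN hs D hA h0 hLk hLb pu hB (mem_gO hq) e he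
  have hd : ∀ q ∈ G, a (lx N a Kr q.2) - a (q.1 + e) ∈ range (Lb + 1) := by
    intro q hqG
    obtain ⟨_, _, _, g4, g5, _⟩ := hq q hqG
    rw [Finset.mem_range]
    show aN R (f (lx N a Kr q.2)) - aN R (f (q.1 + e)) < Lb + 1
    omega
  rw [← Finset.sum_fiberwise_of_maps_to hd, Finset.mul_sum]
  refine Finset.sum_le_sum fun d _ => ?_
  set Gd := G.filter fun q => a (lx N a Kr q.2) - a (q.1 + e) = d with hGd
  have hGd' : ∀ q ∈ Gd, q ∈ G ∧ a (lx N a Kr q.2) - a (q.1 + e) = d := fun q hq => Finset.mem_filter.1 hq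
  refine sum_group5 Gd Id (At' R p B d) (fun q => f (q.1 + e)) (fun q => f (lx N a Kr q.2)) M L1 hM ?_ ?_ ?_
  · intro q hqd
    obtain ⟨h1, h2⟩ := hGd' q hqd
    obtain ⟨g1, g2, g3, _⟩ := hq q h1
    have k2 := hf (by omega : q.1 + e ≤ N)
    exact hId _ (k2.trans hN) g3
  · intro q hqd
    obtain ⟨h1, h2⟩ := hGd' q hqd
    obtain ⟨_, _, _, _, _, g6⟩ := hq q h1
    rw [← h2]
    exact g6
  · intro k _
    by_cases hne : (Gd.filter fun q => f (q.1 + e) = k).Nonempty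
    · obtain ⟨q0, hq0⟩ := hne
      rw [Finset.mem_filter] at hq0
      refine le_trans (Finset.card_le_card ?_) ((prs_gO (N := N) (a := a) (pu := pu) (L1 := L1) (L2 := L2) (Kr := Kr)
        (Lk := Lk)).mult (q0.1 + 1))
      intro q hqq
      rw [Finset.mem_filter] at hqq ⊢
      refine ⟨(hGd' q hqq.1).1, ?_⟩
      obtain ⟨g1, g2, _⟩ := hq q (hGd' q hqq.1).1
      obtain ⟨g1', g2', _⟩ := hq q0 (hGd' q0 hq0.1).1
      rcases lt_trichotomy (q.1 + e) (q0.1 + e) with h | h | h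
      · have := hs _ _ h (by omega)
        omega
      · omega
      · have := hs _ _ h (by omega)
        omega
    · rw [Finset.not_nonempty_iff_eq_empty.1 hne]
      exact Nat.zero_le _

end

end Vale.Agent.P106.U.H513
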