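import Vale.Agent.P106.U.H513.SI
import Vale.Agent.P106.U.S3.F2
import Vale.Agent.P106.U.H652.Row

/-!
# P106 / U / H513 : row [SI], kind 0, over the record (helper513)

* `exc_sum` : the exceptional events along `f`.
* `nu_sum` : `∑ (nuC + nuS) ≤ (cNe + cSl) √((N + 1) E)`.
* `si1_G` : the sum of `I1N` over a family of pairs of pure windows.
* `si2_G` : the sum of `I2N` from `F2o.S`.
-/

set_option autoImplicit false

namespace Vale.Agent.P106.U.H513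

open Finset Vale.Agent.P127 Vale.Agent.P127.Stk Vale.Agent.P106.U.Cell
open Vale.Agent.P127.U.CellD (q2 rd Nb q2_pos q2_add q2_le)
open Vale.Agent.P106.U.H118 (Sdat)
open Vale.Agent.P106.U.H931 (lvi Prs Adm nx)
open Vale.Agent.P106.U.H833 (aN RN kN fN lev_a lev_k lev_f lev_R lv_of advT mixed isPhi isKap reg_or phi_same kap_same
  I1N I2N I1N_kap LDk_phi LTh_eq aN_mono)
open Vale.Agent.P106.U.H101 (lc low)
open Vale.Agent.P106.U.S3

section exc

variable {Ω : Type} [Fintype Ω] {τ υ π : Type} {R : Run Ω τ υ} {p : Run.Num} {K c' g' gU : ℝ}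

theorem exc_nonneg (Q : Law Ω) (C : Pth Ω τ) (K : ℝ) (i b : ℕ) : 0 ≤ exc Q C K i b := by
  unfold exc
  have h1 := prE_nonneg Q (C.Bad K i b)
  have h2 := prE_nonneg Q (H420.BadS C K i b)
  have h3 := prE_nonneg Q (H300.BadR C K i b)
  linarith

/-- sum along strictly increasing indices -/
theorem sum_inj5 {f : ℕ → ℕ} {N n : ℕ} (hs : ∀ i j, i < j → j ≤ N → f i < f j) (hN : f N ≤ n) (g : ℕ → ℝ)
    (hg : ∀ k, 0 ≤ g k) : ∑ x ∈ range (N + 1), g (f x) ≤ ∑ k ∈ range (n + 1), g k := by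
  classical
  have inj : ∀ x ∈ range (N + 1), ∀ y ∈ range (N + 1), f x = f y → x = y := by
    intro x hx y hy e
    rw [Finset.mem_range] at hx hy
    rcases lt_trichotomy x y with h | h | h
    · have := hs x y h (by omega)
      omega
    · exact h
    · have := hs y x h (by omega)
      omega
  rw [← Finset.sum_image (f := g) (g := f) inj]
  refine Finset.sum_le_sum_of_subset_of_nonneg ?_ fun k _ _ => hg k
  intro k hk
  obtain ⟨j, hj, rfl⟩ := Finset.mem_image.1 hk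
  rw [Finset.mem_range] at hj ⊢
  rcases (by omega : j < N ∨ j = N) with h | h
  · have := hs j N h le_rfl
    omega
  · rw [h]
    omega

theorem prE_mono5 (P : Law Ω) {E E' : Ω → Prop} (h : ∀ ω, E ω → E' ω) : prE P E ≤ prE P E' := by
  classical
  unfold prE
  refine Finset.sum_le_sum_of_subset_of_nonneg ?_ fun ω _ _ => P.nn ω
  intro ω hω
  rw [Finset.mem_filter] at hω ⊢
  exact ⟨hω.1, h ω hω.2⟩

omit [Fintype Ω] in
theorem Nb_mono5 {n : ℕ} {z e e' : ℝ} (h : Nb n z e) (he : e ≤ e') : Nb n z e' := by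
  obtain ⟨y, h1, h2, h3⟩ := h
  by_contra hn
  have h0 : 0 ≤ e := by linarith
  have hy : |y - z| ≤ e' := by
    rw [abs_le]
    constructor <;> linarith
  have hz : |z - e - z| ≤ e' := by
    rw [abs_le]
    constructor <;> linarith
  exact h3 (Nb.eq hn hy hz)

omit [Fintype Ω] in
theorem BadS_mono5 {C : Pth Ω τ} {K K' : ℝ} (hK : K ≤ K') {i b : ℕ} {ω : Ω} (h : H420.BadS C K i b ω) :
    H420.BadS C K' i b ω :=
  Nb_mono5 h (mul_le_mul_of_nonneg_right hK (q2_pos _).le)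

/-- the defects of the near functions along `f` -/
theorem nu_sum (Q : Law Ω) (C : Pth Ω τ) {f : ℕ → ℕ} (hf : Monotone f) {N n b : ℕ} (hs : ∀ i j, i < j → j ≤ N → f i < f j)
    (hN : f N ≤ n) {K' E : ℝ} (h2 : 640 * K ^ 7 ≤ K') (h3 : 32 * K ^ 5 ≤ K')
    (hE : ∑ k ∈ range (n + 1), exc Q C K' k b ≤ E) :
    ∑ x ∈ range (N + 1), nuC Q (C.re f hf) K b x ≤ cNe K * Real.sqrt ((N + 1) * E) ∧
      ∑ x ∈ range (N + 1), nuS Q (C.re f hf) K b x ≤ cSl K * Real.sqrt ((N + 1) * E) := by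
  have key : ∀ (g : ℕ → ℝ), (∀ x, 0 ≤ g x) → (∀ x, g x ≤ exc Q C K' (f x) b) →
      ∑ x ∈ range (N + 1), Real.sqrt (g x) ≤ Real.sqrt ((N + 1) * E) := by
    intro g g0 g1
    refine (sqrt_sum5 (range (N + 1)) g fun x _ => g0 x).trans (Real.sqrt_le_sqrt ?_)
    rw [card_range]
    push_cast
    refine mul_le_mul_of_nonneg_left ?_ (by positivity)
    exact (Finset.sum_le_sum fun x _ => g1 x).trans
      ((sum_inj5 hs hN (fun k => exc Q C K' k b) fun k => exc_nonneg Q C K' k b).trans hE)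
  constructor
  · unfold nuC
    rw [← Finset.mul_sum]
    refine mul_le_mul_of_nonneg_left (key _ (fun x => prE_nonneg Q _) fun x => ?_) (cNe_nonneg K)
    have e1 : prE Q ((C.re f hf).Bad (640 * K ^ 7) x b) ≤ prE Q (C.Bad K' (f x) b) :=
      prE_mono5 Q fun ω h => Pth.Bad_mono h2 h
    have e2 := prE_nonneg Q (H420.BadS C K' (f x) b)
    have e3 := prE_nonneg Q (H300.BadR C K' (f x) b)
    unfold exc
    linarith
  · unfold nuS
    rw [← Finset.mul_sum]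
    refine mul_le_mul_of_nonneg_left (key _ (fun x => prE_nonneg Q _) fun x => ?_) (cSl_nonneg K)
    have e1 : prE Q (H420.BadS (C.re f hf) (32 * K ^ 5) x b) ≤ prE Q (H420.BadS C K' (f x) b) :=
      prE_mono5 Q fun ω h => BadS_mono5 h3 h
    have e2 := prE_nonneg Q (C.Bad K' (f x) b)
    have e3 := prE_nonneg Q (H300.BadR C K' (f x) b)
    unfold exc
    linarith

end exc

section i1

variable {Ω : Type} [Fintype Ω] {τ υ : Type} {R : Run Ω τ υ} {p : Run.Num} {K c' g' gU : ℝ}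

/-- the path of the cells along `f` follows the word -/
theorem rm5_of (hP : R.Path p) {f : ℕ → ℕ} (hf : Monotone f) {N : ℕ} (hN : f N ≤ R.n) {γ : ℕ → Prop} {x Mu : ℕ}
    (hx : R.m * x ≤ p.B₁) (D : Sdat N γ (fun i => aN R (f i)) (fun i => RN R x (f i)))
    (b8 : 8 * R.C.μ ≤ R.m * x) (r8 : 8 * R.C.μ ≤ R.r0) (hMu : 4 * R.C.μ ≤ R.m * Mu) (hJ : 1 ≤ p.J) :
    Rm5 (R.C.re f hf) N (R.m * x) (p.J * Mu) (fun i => aN R (f i)) where
  lev := by
    intro i hi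
    refine ⟨b8, ?_⟩
    obtain ⟨_, _, _, e⟩ := lv_of hP x hf (t := i) ((hf hi).trans (by omega))
    rw [e]
    show 8 * R.C.μ ≤ _
    omega
  up := by
    intro i j hij hj ha
    obtain ⟨a1, _, _, e1⟩ := lv_of hP x hf (t := i) ((hf (hij.trans hj)).trans (by omega))
    obtain ⟨a2, _, _, e2⟩ := lv_of hP x hf (t := j) ((hf hj).trans (by omega))
    have h1 := advT hP hf hN D hx Mu i j hij hj ha
    rw [a1, a2, e1, e2]
    constructor
    · have h2 : R.m * (aN R (f i) + Mu) ≤ R.m * aN R (f j) := by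
        refine Nat.mul_le_mul_left _ (le_trans ?_ ha)
        have : Mu ≤ p.J * Mu := Nat.le_mul_of_pos_left Mu hJ
        show aN R (f i) + Mu ≤ aN R (f i) + p.J * Mu
        omega
      rw [Nat.mul_add] at h2
      show _ + 2 * R.C.μ ≤ _
      omega
    · have h2 : R.m * (RN R x (f i) + Mu) ≤ R.m * RN R x (f j) := Nat.mul_le_mul_left _ h1
      rw [Nat.mul_add] at h2
      show _ + R.C.μ ≤ _
      omega

/-- **the sum of `I1N` over a family of pairs of pure windows** -/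
theorem si1_G (h : R.Ok p K c' g' gU) {f : ℕ → ℕ} (hf : Monotone f) {N : ℕ} (hN : f N ≤ R.n)
    (hs : ∀ i j, i < j → j ≤ N → f i < f j) (h1 : 1 ≤ K) {x : ℕ} (hx : R.m * x ≤ p.B₁) {γ : ℕ → Prop}
    (D : Sdat N γ (fun i => aN R (f i)) (fun i => RN R x (f i))) {Mu Wd Kr K1 L1 L2 pv : ℕ}
    (b8 : 8 * R.C.μ ≤ R.m * x) (r8 : 8 * R.C.μ ≤ R.r0) (hMu : 4 * R.C.μ ≤ R.m * Mu) (hMu0 : 0 < Mu)
    (hKr : p.J * Mu ≤ Kr) (hK1 : Kr + 2 * (p.J * Mu) ≤ 2 * K1) (hWd : 1 ≤ Wd) (hWd2 : 2 * R.C.μ ≤ R.m * Wd)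
    {K' E : ℝ} (h2 : 640 * K ^ 7 ≤ K') (h3 : 32 * K ^ 5 ≤ K')
    (hE : ∑ k ∈ range (R.n + p.J + 1), exc R.Q R.C K' k (R.m * x) ≤ E)
    {G : Finset (ℕ × ℕ)} (hG : Prs K1 L1 L2 N (fun i => aN R (f i)) G)
    (hmix : ∀ q ∈ G, ∀ t, q.1 ≤ t → t ≤ rdx N (fun i => aN R (f i)) Kr q.2 → ¬ mixed R x Wd (f t)) :
    ∑ q ∈ G, I1N R.Q (R.C.re f hf) (R.m * x) pv q.1 (rdx N (fun i => aN R (f i)) Kr q.2) ≤
      2 * (L1 * (L2 * (pv * Real.log 2))) +
        (L1 : ℝ) * (3 * L2 + 2) * ((cNe K + cSl K) * Real.sqrt ((N + 1) * E)) := by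
  classical
  have hP := h.pth
  have hJ := hP.J1
  set a : ℕ → ℕ := fun i => aN R (f i) with ha
  have hKn : 0 < p.J * Mu := Nat.mul_pos hJ hMu0
  have hR := rm5_of hP hf hN hx D b8 r8 hMu hJ
  have hok : ∀ ω, 0 < R.Q.w ω → (R.C.re f hf).Ok K ω := fun ω hω => Pth.re_ok f hf (h.ok ω hω)
  have hH : ∀ y ≤ N, hc R.Q (fun ω => fl1 (R.m * x + pv) ((R.C.re f hf).l ω).v) ((R.C.re f hf).cell y (R.m * x)) ≤
      pv * Real.log 2 := fun y _ => H420.hc_v R.Q (R.C.re f hf) y (R.m * x) pv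
  obtain ⟨s1, s2⟩ := nu_sum R.Q R.C hf (K := K) (N := N) (n := R.n + p.J) (b := R.m * x) hs (by omega) h2 h3 hE
  -- facts about a pair
  have hpair : ∀ q ∈ G, q.1 < q.2 ∧ q.2 < rdx N a Kr q.2 ∧ rdx N a Kr q.2 ≤ N := by
    intro q hq
    obtain ⟨f1, _⟩ := rdx_spec D (by omega : 0 < Kr) (by omega : Kr < 2 * K1) (hG.hn q hq) (hG.adm q hq)
    exact ⟨hG.lt q hq, f1, rdx_le N a Kr q.2⟩
  have hreg : ∀ q ∈ G, (isPhi R x Wd (f (q.1 + 1)) ∧ isPhi R x Wd (f (rdx N a Kr q.2))) ∨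
      (isKap R x Wd (f (q.1 + 1)) ∧ isKap R x Wd (f (rdx N a Kr q.2))) := by
    intro q hq
    obtain ⟨g1, g2, g3⟩ := hpair q hq
    rcases reg_or (hmix q hq (q.1 + 1) (Nat.le_succ _) (by omega)) with h4 | h4
    · exact Or.inl ⟨h4, phi_same hP hf hN D hWd (by omega : q.1 + 1 ≤ rdx N a Kr q.2) g3 h4
        fun t t1 t2 => hmix q hq t (by omega) t2⟩
    · exact Or.inr ⟨h4, kap_same hP hf hN D hWd (by omega : q.1 + 1 ≤ rdx N a Kr q.2) g3 h4
        fun t t1 t2 => hmix q hq t (by omega) t2⟩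
  have kapn : ∀ y ≤ N, isKap R x Wd (f y) → ¬ (R.C.re f hf).rf y ≤ R.m * x + (R.C.re f hf).rk y := fun y hy h4 =>
    H833.kap_not hP hf ((hf hy).trans hN) h4
  have phin : ∀ y ≤ N, isPhi R x Wd (f y) →
      (R.C.re f hf).rf y + 2 * R.C.μ ≤ (R.C.re f hf).rk y + R.m * x := by
    intro y hy h4
    obtain ⟨_, k1, f1, _⟩ := lv_of hP x hf (t := y) ((hf hy).trans (by omega))
    rw [k1, f1]
    unfold isPhi at h4
    have h5 : R.m * (fN R (f y) + Wd) ≤ R.m * (kN R (f y) + x) := Nat.mul_le_mul_left _ h4.le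
    rw [Nat.mul_add, Nat.mul_add] at h5
    omega
  set Gk := G.filter fun q => isKap R x Wd (f (q.1 + 1)) with hGk
  set Gp := G.filter fun q => ¬ isKap R x Wd (f (q.1 + 1)) with hGp
  have hGk' : Prs K1 L1 L2 N a Gk := prs_sub5 hG (Finset.filter_subset _ _)
  have hGp' : Prs K1 L1 L2 N a Gp := prs_sub5 hG (Finset.filter_subset _ _)
  have hsplit : ∑ q ∈ G, I1N R.Q (R.C.re f hf) (R.m * x) pv q.1 (rdx N a Kr q.2) =
      ∑ q ∈ Gk, I1N R.Q (R.C.re f hf) (R.m * x) pv q.1 (rdx N a Kr q.2) +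
        ∑ q ∈ Gp, I1N R.Q (R.C.re f hf) (R.m * x) pv q.1 (rdx N a Kr q.2) :=
    (Finset.sum_filter_add_sum_filter_not G _ _).symm
  -- kappa regime
  have tk : ∑ q ∈ Gk, I1N R.Q (R.C.re f hf) (R.m * x) pv q.1 (rdx N a Kr q.2) ≤
      L1 * (L2 * (pv * Real.log 2)) + (L1 : ℝ) * (L2 + 1) * ∑ y ∈ range (N + 1), nuC R.Q (R.C.re f hf) K (R.m * x) y := by
    refine le_trans (le_of_eq (Finset.sum_congr rfl fun q hq => ?_)) (f1_kapR R.Q (R.C.re f hf) h1 hok D hR hKn hKr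
      (by omega) hGk' (fun ω => fl1 (R.m * x + pv) ((R.C.re f hf).l ω).v) hH)
    rw [hGk, Finset.mem_filter] at hq
    obtain ⟨g1, g2, g3⟩ := hpair q hq.1
    have h4 : isKap R x Wd (f (q.1 + 1)) ∧ isKap R x Wd (f (rdx N a Kr q.2)) := by
      rcases hreg q hq.1 with h5 | h5
      · exact absurd hq.2 h5.1.not_kap
      · exact h5
    exact (I1N_kap (kapn _ (by omega) h4.1) (kapn _ g3 h4.2)).symm
  -- phi regime
  have hphi : ∀ q ∈ Gp, isPhi R x Wd (f (q.1 + 1)) ∧ isPhi R x Wd (f (rdx N a Kr q.2)) := by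
    intro q hq
    rw [hGp, Finset.mem_filter] at hq
    rcases hreg q hq.1 with h5 | h5
    · exact h5
    · exact absurd h5.1 hq.2
  have tp : ∑ q ∈ Gp, I1N R.Q (R.C.re f hf) (R.m * x) pv q.1 (rdx N a Kr q.2) ≤
      L1 * (L2 * (pv * Real.log 2)) +
        ((L1 : ℝ) * (2 * L2 + 1) * ∑ y ∈ range (N + 1), nuC R.Q (R.C.re f hf) K (R.m * x) y +
        (L1 : ℝ) * (L2 + 1) * ∑ y ∈ range (N + 1), nuS R.Q (R.C.re f hf) K (R.m * x) y) := by
    refine le_trans (le_of_eq (Finset.sum_congr rfl fun q hq => ?_)) (f1_phiR R.Q (R.C.re f hf) h1 hok D hR hKn hKr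
      hK1 hGp' ?_ (fun ω => fl1 (R.m * x + pv) ((R.C.re f hf).l ω).v) hH)
    · have hq' := (Finset.mem_filter.1 hq).1
      obtain ⟨g1, g2, g3⟩ := hpair q hq'
      have h4 := phin _ (by omega : q.1 + 1 ≤ N) (hphi q hq).1
      unfold I1N
      rw [LDk_phi (by omega), LTh_eq]
    · intro q hq
      have hq' := (Finset.mem_filter.1 hq).1
      obtain ⟨g1, g2, g3⟩ := hpair q hq'
      obtain ⟨h4, h5⟩ := hphi q hq
      refine ⟨?_, phin _ g3 h5, phin _ (by omega) h4⟩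
      obtain ⟨_, e2, _⟩ := rdx_spec D (by omega : 0 < Kr) (by omega : Kr < 2 * K1) (hG.hn q hq') (hG.adm q hq')
      obtain ⟨_, e4, _⟩ := rdx_spec D (by omega : 0 < Kr + p.J * Mu) (by omega : Kr + p.J * Mu < 2 * K1)
        (hG.hn q hq') (hG.adm q hq')
      have l2 := rdx_le N a (Kr + p.J * Mu) q.2
      have hii : rdx N a Kr q.2 ≤ rdx N a (Kr + p.J * Mu) q.2 := by
        by_contra hcon
        push Not at hcon
        have := D.am hcon.le g3
        omega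
      have h6 := advT hP hf hN D hx Mu _ _ hii l2 (by
        show a (rdx N a Kr q.2) + p.J * Mu ≤ a (rdx N a (Kr + p.J * Mu) q.2)
        omega)
      obtain ⟨_, _, f1, _⟩ := lv_of hP x hf (t := rdx N a Kr q.2) ((hf g3).trans (by omega))
      obtain ⟨_, _, _, e5⟩ := lv_of hP x hf (t := rdx N a (Kr + p.J * Mu) q.2) ((hf l2).trans (by omega))
      rw [f1, e5]
      rw [h5.RN] at h6
      have h7 : R.m * (fN R (f (rdx N a Kr q.2)) + Mu) ≤ R.m * RN R x (f (rdx N a (Kr + p.J * Mu) q.2)) :=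
        Nat.mul_le_mul_left _ h6
      rw [Nat.mul_add] at h7
      show _ + 4 * R.C.μ ≤ _
      omega
  rw [hsplit]
  have hL1 : (0 : ℝ) ≤ L1 := Nat.cast_nonneg _
  have hL2 : (0 : ℝ) ≤ L2 := Nat.cast_nonneg _
  have w1 : (L1 : ℝ) * (L2 + 1) * ∑ y ∈ range (N + 1), nuC R.Q (R.C.re f hf) K (R.m * x) y +
      (L1 : ℝ) * (2 * L2 + 1) * ∑ y ∈ range (N + 1), nuC R.Q (R.C.re f hf) K (R.m * x) y ≤
      (L1 : ℝ) * (3 * L2 + 2) * (cNe K * Real.sqrt ((N + 1) * E)) := by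
    rw [← add_mul]
    refine le_trans (le_of_eq ?_) (mul_le_mul_of_nonneg_left s1 (by positivity))
    ring
  have w2 : (L1 : ℝ) * (L2 + 1) * ∑ y ∈ range (N + 1), nuS R.Q (R.C.re f hf) K (R.m * x) y ≤
      (L1 : ℝ) * (3 * L2 + 2) * (cSl K * Real.sqrt ((N + 1) * E)) := by
    have e0 : (0 : ℝ) ≤ ∑ y ∈ range (N + 1), nuS R.Q (R.C.re f hf) K (R.m * x) y :=
      Finset.sum_nonneg fun y _ => nuS_nonneg _ _ _ _ _
    refine le_trans (mul_le_mul_of_nonneg_right ?_ e0) (mul_le_mul_of_nonneg_left s2 (by positivity))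
    nlinarith
  have w3 : (L1 : ℝ) * (3 * L2 + 2) * ((cNe K + cSl K) * Real.sqrt ((N + 1) * E)) =
      (L1 : ℝ) * (3 * L2 + 2) * (cNe K * Real.sqrt ((N + 1) * E)) +
      (L1 : ℝ) * (3 * L2 + 2) * (cSl K * Real.sqrt ((N + 1) * E)) := by ring
  linarith

end i1

section i2

/-- regrouping of a sum over pairs with multiplicity `L` -/
theorem sum_group5 {ι : Type*} (G : Finset ι) (I : Finset ℕ) (T : ℕ → Finset ℕ) (u v : ι → ℕ) (M : ℕ → ℕ → ℝ) (L : ℕ)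
    (hM : ∀ k i, 0 ≤ M k i) (hu : ∀ q ∈ G, u q ∈ I) (hv : ∀ q ∈ G, v q ∈ T (u q))
    (hm : ∀ k ∈ I, (G.filter fun q => u q = k).card ≤ L) :
    ∑ q ∈ G, M (u q) (v q) ≤ L * ∑ k ∈ I, ∑ i ∈ T k, M k i := by
  classical
  rw [← Finset.sum_fiberwise_of_maps_to hu, Finset.mul_sum]
  refine Finset.sum_le_sum fun k hk => ?_
  set S := G.filter fun q => u q = k with hS
  have hS' : ∀ q ∈ S, q ∈ G ∧ u q = k := fun q hq => Finset.mem_filter.1 hq
  have e1 : ∑ q ∈ S, M (u q) (v q) = ∑ q ∈ S, M k (v q) :=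
    Finset.sum_congr rfl fun q hq => by rw [(hS' q hq).2]
  have e2 : ∀ q ∈ S, v q ∈ T k := fun q hq => by
    have := hv q (hS' q hq).1
    rwa [(hS' q hq).2] at this
  rw [e1, ← Finset.sum_fiberwise_of_maps_to e2, Finset.mul_sum]
  refine Finset.sum_le_sum fun i _ => ?_
  have e3 : ∑ q ∈ S.filter (fun q => v q = i), M k (v q) = ∑ q ∈ S.filter (fun q => v q = i), M k i :=
    Finset.sum_congr rfl fun q hq => by rw [(Finset.mem_filter.1 hq).2]
  rw [e3, Finset.sum_const, nsmul_eq_mul]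
  refine mul_le_mul_of_nonneg_right ?_ (hM k i)
  exact_mod_cast (Finset.card_le_card (Finset.filter_subset _ _)).trans (hm k hk)

variable {Ω : Type} [Fintype Ω] {τ υ π : Type} {R : Run Ω τ υ} {p : Run.Num}

/-- **the sum of `I2N` over a family of pairs of old windows**, from the field `S` -/
theorem si2_G (hP : R.Path p) {f : ℕ → ℕ} (hf : Monotone f) {N : ℕ} (hN : f N ≤ R.n)
    (hs : ∀ i j, i < j → j ≤ N → f i < f j) {γ : ℕ → Prop} {r : ℕ → ℕ} (D : Sdat N γ (fun i => aN R (f i)) r)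
    (hA : ∀ i < N, aN R (f (i + 1)) = aN R (f i) + 1 → R.IsA (f i))
    {B bS bV μ Kr K1 L1 L2 Lb : ℕ} {F : Pf R π} {Vs Xs : Finset ℕ} {K' : ℝ} {o : Fin 7 → ℝ} {o' : ℕ → ℝ}
    (Fo : F2o R p B bS bV F Vs Xs μ K' o o') (h0 : 0 < Kr) (hK : Kr < 2 * K1) (hLb : L1 + Kr ≤ Lb) (hLbB : Lb ≤ B)
    {G : Finset (ℕ × ℕ)} (hG : Prs K1 L1 L2 N (fun i => aN R (f i)) G)
    (hold : ∀ q ∈ G, lv R (f (q.1 + 1)) ∉ Vs ∧ lv R (f (q.1 + 1)) ∉ Xs)
    (hB : ∀ q ∈ G, f (rdx N (fun i => aN R (f i)) Kr q.2) ≤ f (q.1 + 1) + B) :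
    ∑ q ∈ G, I2N R.Q ((lc R.C μ o).re f hf) (R.m * R.b1) bS q.1 (rdx N (fun i => aN R (f i)) Kr q.2) ≤
      (L1 : ℝ) * ∑ d ∈ range (Lb + 1), F2b R p B μ K' d := by
  classical
  set a : ℕ → ℕ := fun i => aN R (f i) with ha
  have hJ := hP.J1
  -- facts about a pair
  have hq : ∀ q ∈ G, q.1 + 1 ≤ q.2 ∧ q.2 < rdx N a Kr q.2 ∧ rdx N a Kr q.2 < N ∧
      a (rdx N a Kr q.2 + 1) = a (rdx N a Kr q.2) + 1 ∧ a (q.1 + 1) ≤ a (rdx N a Kr q.2) ∧
      a (rdx N a Kr q.2) ≤ a (q.1 + 1) + Lb := by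
    intro q hq
    obtain ⟨f1, f2, f3, i1, f4, f5, f6, f7⟩ := rdx_spec D h0 hK (hG.hn q hq) (hG.adm q hq)
    have g1 := hG.lt q hq
    have g2 := hG.le q hq
    have g3 := hG.hn q hq
    have g4 := D.am (by omega : q.1 + 1 ≤ rdx N a Kr q.2) (by omega)
    have g5 := D.al (i := q.1) (j := q.2) (by omega) g3
    have g6 := D.am (by omega : q.1 ≤ q.1 + 1) (by omega)
    exact ⟨g1, f1, by omega, f3, g4, by omega⟩
  set M : ℕ → ℕ → ℝ := fun k i => mi R.Q (LTh (lc R.C μ o) (R.m * R.b1) i) ((lc R.C μ o).cell k bS)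
    (LDk (lc R.C μ o) (R.m * R.b1) k) with hM
  have hM0 : ∀ k i, 0 ≤ M k i := fun k i => mi_nonneg _ _ _ _
  have e0 : ∑ q ∈ G, I2N R.Q ((lc R.C μ o).re f hf) (R.m * R.b1) bS q.1 (rdx N a Kr q.2) =
      ∑ q ∈ G, M (f (q.1 + 1)) (f (rdx N a Kr q.2)) := rfl
  rw [e0]
  have hd : ∀ q ∈ G, a (rdx N a Kr q.2) - a (q.1 + 1) ∈ range (Lb + 1) := by
    intro q hqG
    obtain ⟨_, _, _, _, g5, g6⟩ := hq q hqG
    rw [Finset.mem_range]
    omega
  rw [← Finset.sum_fiberwise_of_maps_to hd, Finset.mul_sum]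
  refine Finset.sum_le_sum fun d hd' => ?_
  rw [Finset.mem_range] at hd'
  set Gd := G.filter fun q => a (rdx N a Kr q.2) - a (q.1 + 1) = d with hGd
  have hGd' : ∀ q ∈ Gd, q ∈ G ∧ a (rdx N a Kr q.2) - a (q.1 + 1) = d := fun q hq => Finset.mem_filter.1 hq
  refine (sum_group5 Gd (IdO R Vs Xs) (At' R p B d) (fun q => f (q.1 + 1)) (fun q => f (rdx N a Kr q.2)) M L1 hM0
    ?_ ?_ ?_).trans (mul_le_mul_of_nonneg_left (Fo.S d (by omega)) (Nat.cast_nonneg _))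
  · intro q hqd
    obtain ⟨h1, h2⟩ := hGd' q hqd
    obtain ⟨g1, g2, g3, _⟩ := hq q h1
    have k1 := hs q.1 (q.1 + 1) (Nat.lt_succ_self _) (by omega)
    have k2 := hf (by omega : q.1 + 1 ≤ N)
    unfold IdO
    rw [Finset.mem_filter, Finset.mem_Icc]
    exact ⟨⟨by omega, by omega⟩, hold q h1⟩
  · intro q hqd
    obtain ⟨h1, h2⟩ := hGd' q hqd
    obtain ⟨g1, g2, g3, g4, g5, g6⟩ := hq q h1
    have k1 := hs (q.1 + 1) (rdx N a Kr q.2) (by omega) (by omega)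
    have k2 := hf (by omega : rdx N a Kr q.2 ≤ N)
    have k3 := hB q h1
    unfold At'
    rw [Finset.mem_filter, Finset.mem_range]
    refine ⟨by omega, k1, k3, by omega, ?_, hA _ g3 g4⟩
    rw [lev_a hP (i := f (rdx N a Kr q.2)) (by omega), lev_a hP (i := f (q.1 + 1)) (by omega)]
    have k4 : aN R (f (rdx N a Kr q.2)) = aN R (f (q.1 + 1)) + d := by
      have e1 : a (rdx N a Kr q.2) = a (q.1 + 1) + d := by omega
      exact e1
    rw [k4]
    ring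
  · intro k hk
    have hcard : (Gd.filter fun q => f (q.1 + 1) = k).card ≤ L1 := by
      by_cases hne : (Gd.filter fun q => f (q.1 + 1) = k).Nonempty
      · obtain ⟨q0, hq0⟩ := hne
        rw [Finset.mem_filter] at hq0
        refine le_trans (Finset.card_le_card ?_) (hG.mult (q0.1 + 1))
        intro q hqq
        rw [Finset.mem_filter] at hqq ⊢
        refine ⟨(hGd' q hqq.1).1, ?_⟩
        obtain ⟨g1, g2, g3, _⟩ := hq q (hGd' q hqq.1).1
        obtain ⟨g1', g2', g3', _⟩ := hq q0 (hGd' q0 hq0.1).1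
        rcases lt_trichotomy (q.1 + 1) (q0.1 + 1) with h | h | h
        · have := hs _ _ h (by omega)
          omega
        · exact h
        · have := hs _ _ h (by omega)
          omega
      · rw [Finset.not_nonempty_iff_eq_empty.1 hne]
        exact Nat.zero_le _
    exact hcard

end i2

end Vale.Agent.P106.U.H513
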