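import Vale.Agent.P127.U.Defs

/-!
# P106 / U : STRIP, the real-variable count (helper513)

A cell of the base `(x, z)` of size `2^-p × 2^-q` meets the strip `|c0 + c1 x + c2 z + c3 x²| ≤ d` in at most `K 2^m` of its
`2^m × 2^m` subcells, if one of the two gradients (in units of the cell) is at least `M`, the quadratic term is small
and `d ≤ C M 2^-m`.
-/

set_option autoImplicit false

namespace Vale.Agent.P106.U.Str

open Finset Vale.Agent.P127.Stk Vale.Agent.P127.U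

/-- one index and one dependent floor -/
theorem idx_cover {S : Set (ℝ × ℝ)} {m N : ℕ} (e : ℝ × ℝ → ℝ) (f : ℝ × ℝ → ℝ)
    (he : ∀ r ∈ S, 0 ≤ e r ∧ e r < 1)
    (h : ∀ r ∈ S, ∀ r' ∈ S, ⌊(2:ℝ) ^ m * e r⌋ = ⌊(2:ℝ) ^ m * e r'⌋ → |f r - f r'| ≤ N * (1 / 2 : ℝ) ^ m) :
    ∃ U : Finset (ℤ × ℤ), U.card ≤ 2 ^ m * (2 * N + 3) ∧
      ∀ r ∈ S, (⌊(2:ℝ) ^ m * e r⌋, ⌊(2:ℝ) ^ m * f r⌋) ∈ U := by
  classical
  have hb : ∀ j : ℤ, ∃ b : ℝ × ℝ, ∀ r ∈ S, ⌊(2:ℝ) ^ m * e r⌋ = j → b ∈ S ∧ ⌊(2:ℝ) ^ m * e b⌋ = j := by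
    intro j
    by_cases h : ∃ r ∈ S, ⌊(2:ℝ) ^ m * e r⌋ = j
    · obtain ⟨b, hb, hb'⟩ := h
      exact ⟨b, fun _ _ _ => ⟨hb, hb'⟩⟩
    · exact ⟨0, fun r hr hr' => (h ⟨r, hr, hr'⟩).elim⟩
  choose b hb using hb
  have h2 : (0 : ℝ) < 2 ^ m := by positivity
  refine ⟨(Ico (0 : ℤ) (2 ^ m)).biUnion fun j =>
    (Icc (⌊(2:ℝ) ^ m * f (b j)⌋ - (N + 1)) (⌊(2:ℝ) ^ m * f (b j)⌋ + (N + 1))).image fun c => (j, c), ?_, ?_⟩
  · have h1 : ((Ico (0 : ℤ) (2 ^ m)).card : ℕ) = 2 ^ m := by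
      rw [Int.card_Ico]
      have : ((2 : ℤ) ^ m - 0) = ((2 ^ m : ℕ) : ℤ) := by push_cast; ring
      rw [this, Int.toNat_natCast]
    rw [← h1]
    refine card_biUnion_le_card_mul _ _ _ fun j _ => card_image_le.trans (le_of_eq ?_)
    rw [Int.card_Icc]
    omega
  · intro r hr
    obtain ⟨hbS, hbe⟩ := hb _ r hr rfl
    rw [mem_biUnion]
    refine ⟨⌊(2:ℝ) ^ m * e r⌋, ?_, ?_⟩
    · obtain ⟨h3, h4⟩ := he r hr
      rw [mem_Ico]
      constructor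
      · exact Int.floor_nonneg.2 (by positivity)
      · rw [Int.floor_lt]
        push_cast
        nlinarith
    · rw [mem_image]
      refine ⟨⌊(2:ℝ) ^ m * f r⌋, ?_, rfl⟩
      have h5 := h r hr _ hbS hbe.symm
      have h6 : |(2:ℝ) ^ m * f r - (2:ℝ) ^ m * f (b ⌊(2:ℝ) ^ m * e r⌋)| ≤ N := by
        rw [← mul_sub, abs_mul, abs_of_pos h2]
        calc (2 : ℝ) ^ m * _ ≤ 2 ^ m * (N * (1 / 2 : ℝ) ^ m) := mul_le_mul_of_nonneg_left h5 h2.le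
          _ = N := by
              rw [one_div, inv_pow]
              field_simp
      have h7 := Int.floor_le ((2:ℝ) ^ m * f r)
      have h8 := Int.lt_floor_add_one ((2:ℝ) ^ m * f r)
      have h9 := Int.floor_le ((2:ℝ) ^ m * f (b ⌊(2:ℝ) ^ m * e r⌋))
      have h10 := Int.lt_floor_add_one ((2:ℝ) ^ m * f (b ⌊(2:ℝ) ^ m * e r⌋))
      rw [abs_le] at h6
      rw [mem_Icc]
      constructor
      · have : ((⌊(2:ℝ) ^ m * f (b ⌊(2:ℝ) ^ m * e r⌋)⌋ : ℤ) : ℝ) <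
            (((⌊(2:ℝ) ^ m * f r⌋ + N + 1 : ℤ)) : ℝ) := by push_cast; linarith
        have := Int.cast_lt.1 this
        omega
      · have : ((⌊(2:ℝ) ^ m * f r⌋ : ℤ) : ℝ) <
            (((⌊(2:ℝ) ^ m * f (b ⌊(2:ℝ) ^ m * e r⌋)⌋ + N + 1 : ℤ)) : ℝ) := by push_cast; linarith
        have := Int.cast_lt.1 this
        omega

/-- the count in the unit square -/
theorem strip_unit {C : ℝ} (hC : 0 ≤ C) {N : ℕ} (hN : 4 * C + 4 ≤ N) {m : ℕ} {a0 a1 a2 a3 d M : ℝ} (hM : 0 < M)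
    (h1 : M ≤ |a1| ∨ M ≤ |a2|) (h3 : |a3| ≤ M / 8) (hd : d ≤ C * M * (1 / 2 : ℝ) ^ m) :
    ∃ U : Finset (ℤ × ℤ), U.card ≤ 2 ^ m * (2 * N + 3) ∧ ∀ X Z : ℝ, 0 ≤ X → X < 1 → 0 ≤ Z → Z < 1 →
      |a0 + a1 * X + a2 * Z + a3 * X ^ 2| ≤ d → (⌊(2:ℝ) ^ m * X⌋, ⌊(2:ℝ) ^ m * Z⌋) ∈ U := by
  classical
  have h2m : (0 : ℝ) < 2 ^ m := by positivity
  have hm : (0 : ℝ) < (1 / 2 : ℝ) ^ m := by positivity
  have e2 : (1 / 2 : ℝ) ^ m = 1 / 2 ^ m := by rw [div_pow, one_pow]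
  have fl : ∀ u v : ℝ, ⌊(2:ℝ) ^ m * u⌋ = ⌊(2:ℝ) ^ m * v⌋ → |u - v| ≤ (1 / 2 : ℝ) ^ m := by
    intro u v h
    have h1 : |(2:ℝ) ^ m * u - (2:ℝ) ^ m * v| < 1 := Int.abs_sub_lt_one_of_floor_eq_floor h
    rw [← mul_sub, abs_mul, abs_of_pos h2m] at h1
    rw [e2, le_div_iff₀ h2m]
    linarith
  set S : Set (ℝ × ℝ) := {r | 0 ≤ r.1 ∧ r.1 < 1 ∧ 0 ≤ r.2 ∧ r.2 < 1 ∧
    |a0 + a1 * r.1 + a2 * r.2 + a3 * r.1 ^ 2| ≤ d} with hS
  -- difference of two points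
  have dif : ∀ r ∈ S, ∀ r' ∈ S,
      |a1 * (r.1 - r'.1) + a2 * (r.2 - r'.2) + a3 * (r.1 + r'.1) * (r.1 - r'.1)| ≤ 2 * d := by
    rintro r ⟨-, -, -, -, h⟩ r' ⟨-, -, -, -, h'⟩
    have e : a1 * (r.1 - r'.1) + a2 * (r.2 - r'.2) + a3 * (r.1 + r'.1) * (r.1 - r'.1) =
      (a0 + a1 * r.1 + a2 * r.2 + a3 * r.1 ^ 2) - (a0 + a1 * r'.1 + a2 * r'.2 + a3 * r'.1 ^ 2) := by ring
    rw [e]
    exact (abs_sub _ _).trans (by linarith)
  have q3 : ∀ r ∈ S, ∀ r' ∈ S, |a3 * (r.1 + r'.1) * (r.1 - r'.1)| ≤ M / 4 * |r.1 - r'.1| := by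
    rintro r ⟨k1, k2, -, -, -⟩ r' ⟨k3, k4, -, -, -⟩
    rw [abs_mul, abs_mul]
    refine mul_le_mul_of_nonneg_right ?_ (abs_nonneg _)
    have : |r.1 + r'.1| ≤ 2 := by rw [abs_le]; constructor <;> linarith
    calc |a3| * |r.1 + r'.1| ≤ M / 8 * 2 := mul_le_mul h3 this (abs_nonneg _) (by positivity)
      _ = M / 4 := by ring
  have hN' : 4 * C * (1 / 2 : ℝ) ^ m + 4 * (1 / 2 : ℝ) ^ m ≤ N * (1 / 2 : ℝ) ^ m := by
    rw [← add_mul]
    exact mul_le_mul_of_nonneg_right hN hm.le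
  by_cases hcase : |a1| ≤ |a2|
  · -- `Z` is a function of `X`
    have hM2 : M ≤ |a2| := h1.elim (fun h => h.trans hcase) id
    obtain ⟨U, hU, hU'⟩ := idx_cover (S := S) (m := m) (N := N) (fun r => r.1) (fun r => r.2)
      (fun r hr => ⟨hr.1, hr.2.1⟩) (by
        intro r hr r' hr' hf
        have k1 := fl _ _ hf
        have k2 := dif r hr r' hr'
        have k3 := q3 r hr r' hr'
        have k4 : |a2 * (r.2 - r'.2)| ≤ 2 * d + |a1 * (r.1 - r'.1)| + M / 4 * |r.1 - r'.1| := by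
          have e : a2 * (r.2 - r'.2) =
            (a1 * (r.1 - r'.1) + a2 * (r.2 - r'.2) + a3 * (r.1 + r'.1) * (r.1 - r'.1)) -
            a1 * (r.1 - r'.1) - a3 * (r.1 + r'.1) * (r.1 - r'.1) := by ring
          rw [e]
          refine (abs_sub _ _).trans ?_
          have := abs_sub (a1 * (r.1 - r'.1) + a2 * (r.2 - r'.2) + a3 * (r.1 + r'.1) * (r.1 - r'.1))
            (a1 * (r.1 - r'.1))
          linarith
        rw [abs_mul, abs_mul] at k4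
        have a2pos : 0 < |a2| := hM.trans_le hM2
        have k5 : |a2| * |r.2 - r'.2| ≤ |a2| * ((2 * C + 2) * (1 / 2 : ℝ) ^ m) := by
          have c1 : |a1| * |r.1 - r'.1| ≤ |a2| * (1 / 2 : ℝ) ^ m := mul_le_mul hcase k1 (abs_nonneg _) a2pos.le
          have c2 : M / 4 * |r.1 - r'.1| ≤ |a2| / 4 * (1 / 2 : ℝ) ^ m :=
            mul_le_mul (by linarith) k1 (abs_nonneg _) (by positivity)
          have c3 : C * M * (1 / 2 : ℝ) ^ m ≤ C * |a2| * (1 / 2 : ℝ) ^ m :=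
            mul_le_mul_of_nonneg_right (mul_le_mul_of_nonneg_left hM2 hC) hm.le
          have c4 : 0 ≤ |a2| * (1 / 2 : ℝ) ^ m := by positivity
          nlinarith
        have k6 := le_of_mul_le_mul_left k5 a2pos
        show |r.2 - r'.2| ≤ N * (1 / 2 : ℝ) ^ m
        nlinarith [mul_nonneg hC hm.le])
    exact ⟨U, hU, fun X Z g1 g2 g3 g4 g5 => hU' (X, Z) ⟨g1, g2, g3, g4, g5⟩⟩
  · -- `X` is a function of `Z`
    push Not at hcase
    have hM1 : M ≤ |a1| := h1.elim id (fun h => h.trans hcase.le)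
    obtain ⟨U, hU, hU'⟩ := idx_cover (S := S) (m := m) (N := N) (fun r => r.2) (fun r => r.1)
      (fun r hr => ⟨hr.2.2.1, hr.2.2.2.1⟩) (by
        intro r hr r' hr' hf
        have k1 := fl _ _ hf
        have k2 := dif r hr r' hr'
        have k3 := q3 r hr r' hr'
        have k4 : |a1 * (r.1 - r'.1)| ≤ 2 * d + |a2 * (r.2 - r'.2)| + M / 4 * |r.1 - r'.1| := by
          have e : a1 * (r.1 - r'.1) =
            (a1 * (r.1 - r'.1) + a2 * (r.2 - r'.2) + a3 * (r.1 + r'.1) * (r.1 - r'.1)) -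
            a2 * (r.2 - r'.2) - a3 * (r.1 + r'.1) * (r.1 - r'.1) := by ring
          rw [e]
          refine (abs_sub _ _).trans ?_
          have := abs_sub (a1 * (r.1 - r'.1) + a2 * (r.2 - r'.2) + a3 * (r.1 + r'.1) * (r.1 - r'.1))
            (a2 * (r.2 - r'.2))
          linarith
        rw [abs_mul, abs_mul] at k4
        have a1pos : 0 < |a1| := hM.trans_le hM1
        have k5 : |a1| * |r.1 - r'.1| ≤ |a1| * ((4 * C + 2) * (1 / 2 : ℝ) ^ m) := by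
          have c1 : |a2| * |r.2 - r'.2| ≤ |a1| * (1 / 2 : ℝ) ^ m := mul_le_mul hcase.le k1 (abs_nonneg _) a1pos.le
          have c2 : M / 4 * |r.1 - r'.1| ≤ |a1| / 4 * |r.1 - r'.1| :=
            mul_le_mul_of_nonneg_right (by linarith) (abs_nonneg _)
          have c3 : C * M * (1 / 2 : ℝ) ^ m ≤ C * |a1| * (1 / 2 : ℝ) ^ m :=
            mul_le_mul_of_nonneg_right (mul_le_mul_of_nonneg_left hM1 hC) hm.le
          have c4 : 0 ≤ |a1| * (1 / 2 : ℝ) ^ m := by positivity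
          have c5 : 0 ≤ C * |a1| * (1 / 2 : ℝ) ^ m := by positivity
          nlinarith
        have k6 := le_of_mul_le_mul_left k5 a1pos
        show |r.1 - r'.1| ≤ N * (1 / 2 : ℝ) ^ m
        nlinarith [mul_nonneg hC hm.le])
    refine ⟨U.image Prod.swap, card_image_le.trans hU, fun X Z g1 g2 g3 g4 g5 => ?_⟩
    rw [mem_image]
    exact ⟨_, hU' (X, Z) ⟨g1, g2, g3, g4, g5⟩, rfl⟩

/-- **STRIP**, real variable form, in floors -/
theorem strip {C : ℝ} (hC : 0 ≤ C) : ∃ K : ℕ, ∀ (p q m : ℕ) (i j : ℤ) (c0 c1 c2 c3 d x0 M : ℝ), 0 < M →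
    fl1 p x0 = i → (M ≤ |c1 + 2 * c3 * x0| * (1 / 2 : ℝ) ^ p ∨ M ≤ |c2| * (1 / 2 : ℝ) ^ q) →
    |c3| * (1 / 4 : ℝ) ^ p ≤ M / 16 → d ≤ C * M * (1 / 2 : ℝ) ^ m →
    ∃ U : Finset (ℤ × ℤ), U.card ≤ K * 2 ^ m ∧ ∀ x z : ℝ, fl1 p x = i → fl1 q z = j →
      |c0 + c1 * x + c2 * z + c3 * x ^ 2| ≤ d → (fl1 (p + m) x, fl1 (q + m) z) ∈ U := by
  classical
  obtain ⟨N, hN⟩ := exists_nat_ge (4 * (2 * C) + 4)
  refine ⟨2 * N + 3, ?_⟩
  intro p q m i j c0 c1 c2 c3 d x0 M hM hx0 h1 h3 hd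
  have hp : (0 : ℝ) < 2 ^ p := by positivity
  have hq : (0 : ℝ) < 2 ^ q := by positivity
  have hm : (0 : ℝ) < 2 ^ m := by positivity
  have ep : (1 / 2 : ℝ) ^ p = 1 / 2 ^ p := by rw [div_pow, one_pow]
  have eq' : (1 / 2 : ℝ) ^ q = 1 / 2 ^ q := by rw [div_pow, one_pow]
  have e4 : (1 / 4 : ℝ) ^ p = 1 / (2 ^ p * 2 ^ p) := by
    rw [div_pow, one_pow, ← mul_pow]
    norm_num
  set a0 : ℝ := c0 + c1 * (i / 2 ^ p) + c2 * (j / 2 ^ q) + c3 * (i / 2 ^ p) ^ 2 with ha0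
  set a1 : ℝ := (c1 + 2 * c3 * (i / 2 ^ p)) / 2 ^ p with ha1
  set a2 : ℝ := c2 / 2 ^ q with ha2
  set a3 : ℝ := c3 / (2 ^ p * 2 ^ p) with ha3
  have hx : 0 ≤ 2 ^ p * x0 - i ∧ 2 ^ p * x0 - i < 1 := by
    unfold fl1 at hx0
    rw [← hx0]
    exact ⟨by linarith [Int.floor_le ((2:ℝ) ^ p * x0)], by linarith [Int.lt_floor_add_one ((2:ℝ) ^ p * x0)]⟩
  have h3' : |a3| ≤ M / 16 := by
    rw [ha3, abs_div, abs_of_pos (mul_pos hp hp)]
    rw [e4, mul_one_div] at h3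
    exact h3
  have h1' : M / 2 ≤ |a1| ∨ M / 2 ≤ |a2| := by
    rcases h1 with h | h
    · left
      have k1 : |(c1 + 2 * c3 * x0) / 2 ^ p| = |c1 + 2 * c3 * x0| * (1 / 2 : ℝ) ^ p := by
        rw [abs_div, abs_of_pos hp, ep, mul_one_div]
      have k2 : (c1 + 2 * c3 * x0) / 2 ^ p = a1 + 2 * a3 * (2 ^ p * x0 - i) := by
        rw [ha1, ha3]
        field_simp
        ring
      have k3 : |2 * a3 * (2 ^ p * x0 - i)| ≤ M / 8 := by
        rw [abs_mul, abs_mul, abs_two, abs_of_nonneg hx.1]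
        have := mul_le_mul h3' hx.2.le hx.1 (by positivity)
        linarith
      rw [← k1, k2] at h
      have := abs_add_le a1 (2 * a3 * (2 ^ p * x0 - i))
      linarith
    · right
      rw [ha2, abs_div, abs_of_pos hq]
      rw [eq', mul_one_div] at h
      linarith
  obtain ⟨U, hU, hU'⟩ := strip_unit (C := 2 * C) (by linarith) hN (m := m) (a0 := a0) (a1 := a1) (a2 := a2)
    (a3 := a3) (d := d) (M := M / 2) (by linarith) h1' (by linarith) (by linarith)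
  refine ⟨U.image fun u => (u.1 + 2 ^ m * i, u.2 + 2 ^ m * j), ?_, ?_⟩
  · refine card_image_le.trans (hU.trans (le_of_eq ?_))
    ring
  · intro x z hxi hzj hg
    rw [mem_image]
    unfold fl1 at hxi hzj
    have b1 := Int.floor_le ((2:ℝ) ^ p * x)
    have b2 := Int.lt_floor_add_one ((2:ℝ) ^ p * x)
    have b3 := Int.floor_le ((2:ℝ) ^ q * z)
    have b4 := Int.lt_floor_add_one ((2:ℝ) ^ q * z)
    rw [hxi] at b1 b2
    rw [hzj] at b3 b4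
    refine ⟨_, hU' (2 ^ p * x - i) (2 ^ q * z - j) (by linarith) (by linarith) (by linarith) (by linarith) ?_, ?_⟩
    · have e : a0 + a1 * (2 ^ p * x - i) + a2 * (2 ^ q * z - j) + a3 * (2 ^ p * x - i) ^ 2 =
          c0 + c1 * x + c2 * z + c3 * x ^ 2 := by
        rw [ha0, ha1, ha2, ha3]
        field_simp
        ring
      rw [e]
      exact hg
    · have f1 : fl1 (p + m) x = ⌊(2:ℝ) ^ m * (2 ^ p * x - i)⌋ + 2 ^ m * i := by
        unfold fl1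
        rw [show (2:ℝ) ^ (p + m) * x = (2:ℝ) ^ m * (2 ^ p * x - i) + ((2 ^ m * i : ℤ) : ℝ) by
          push_cast; rw [pow_add]; ring, Int.floor_add_intCast]
      have f2 : fl1 (q + m) z = ⌊(2:ℝ) ^ m * (2 ^ q * z - j)⌋ + 2 ^ m * j := by
        unfold fl1
        rw [show (2:ℝ) ^ (q + m) * z = (2:ℝ) ^ m * (2 ^ q * z - j) + ((2 ^ m * j : ℤ) : ℝ) by
          push_cast; rw [pow_add]; ring, Int.floor_add_intCast]
      rw [f1, f2]

end Vale.Agent.P106.U.Str
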