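import Vale.Agent.P106.U.H118.RiseC

/-!
# P106 / U / H513 : the strip count for two paths (helper513)

As helper118's `strip_cell`, `strip_hc` (two states `ω0`, `ω1` with the same ray and the same time to `a i` digits), but the
slab of the copy 0 at the step `k` is the slab of the step `j` of ANY path `D` (young steps: cells with true line digits and a
larger margin).  Relations between the paths: `Cmp C D k j` = same ray, time, margin, offset of `w`, `D.a j = C.a k`.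

* `DifK2`, `SLv2`, `sbad2` : as `DifK`, `SLv`, `sbad`.
* **`strip_cell2`** : the next position of the copy 0 takes at most `9540 2^m` values.
* `vz_card2` : in any case at most `45 4^(m+μ)` values.
* **`strip_hc2`** : entropy form; `strip_hc2_Y` : the same with an equivalent letter `Y` in the place of `D.cell j b`.
-/

set_option autoImplicit false

namespace Vale.Agent.P106.U.H513

open Finset Vale.Agent.P127 Vale.Agent.P127.Stk
open Vale.Agent.P127.U.CellD (q2 rd Nb q2_pos q2_add q2_le rd_err rd_sub)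
open Vale.Agent.P106.U.Cell Vale.Agent.P106.U.H118

variable {Ω τ τ' : Type}

/-- the slab of the copy 0 at the step `k` of `C` is described by the step `j` of `D` -/
structure Cmp (C : Pth Ω τ) (D : Pth Ω τ') (k j : ℕ) : Prop where
  l : D.l = C.l
  t : D.t = C.t
  μ : D.μ = C.μ
  o1 : D.o 1 = C.o 1
  a : D.a j = C.a k

/-- slab of the copy 0, slope as in the cell, written at the time `s_(k+1)` of the copy 0 -/
noncomputable def sF2 (C : Pth Ω τ) (D : Pth Ω τ') (k j b : ℕ) (ω0 : Ω) : Fu :=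
  (D.Fr j b (D.R j b - 3 * D.μ) ω0).sh (C.s (k + 1) ω0 - D.s j ω0)

/-- difference of the slopes at the ray -/
noncomputable def dd1 (C : Pth Ω τ) (D : Pth Ω τ') (i' k j b : ℕ) (ω0 ω1 : Ω) : ℝ :=
  (sG C i' k b ω0 ω1).cV (C.l ω0) (C.s (k + 1) ω0) -
    (sG C i' k b ω0 ω1).cN (C.l ω0) (C.s (k + 1) ω0) / (sF2 C D k j b ω0).cN (C.l ω0) (C.s (k + 1) ω0) *
      (sF2 C D k j b ω0).cV (C.l ω0) (C.s (k + 1) ω0)

/-- difference of the kappas at the ray -/
noncomputable def dd2 (C : Pth Ω τ) (D : Pth Ω τ') (i' k j b : ℕ) (ω0 ω1 : Ω) : ℝ :=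
  (sG C i' k b ω0 ω1).ka -
    (sG C i' k b ω0 ω1).cN (C.l ω0) (C.s (k + 1) ω0) / (sF2 C D k j b ω0).cN (C.l ω0) (C.s (k + 1) ω0) *
      (sF2 C D k j b ω0).ka

/-- the two slabs differ at the ray -/
def DifK2 (C : Pth Ω τ) (D : Pth Ω τ') (i i' k j b m' : ℕ) (ω0 ω1 : Ω) : Prop :=
  q2 (C.R i b + m') ≤ |dd1 C D i' k j b ω0 ω1| ∨ q2 (C.R i b + m') ≤ |dd2 C D i' k j b ω0 ω1| * q2 b

/-- conditions on the levels -/
structure SLv2 (C : Pth Ω τ) (D : Pth Ω τ') (i i' k j b m m' : ℕ) : Prop where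
  ii : i ≤ i'
  ik : i' ≤ k
  am : C.a (k + 1) = C.a k + m
  hb : 8 * C.μ ≤ b
  hR : 9 * C.μ ≤ D.R j b
  hk : C.R i b + m' + 2 * m + 8 * C.μ ≤ D.R j b
  hi : C.a k + C.R i b + m' + 2 * m + 8 * C.μ ≤ C.a i + C.R i' b

section

variable {C : Pth Ω τ} {D : Pth Ω τ'}

theorem Cmp.s {k j : ℕ} (h : Cmp C D k j) (ω : Ω) : D.s j ω = C.s k ω := by
  unfold Pth.s
  rw [h.a, h.t]

/-- **strip count**, two paths -/
theorem strip_cell2 {K : ℝ} (hK : 1 ≤ K) {i i' k j b m m' : ℕ} (hC : Cmp C D k j)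
    (hL : SLv2 C D i i' k j b m m')
    (hμ : 40 * K ^ 2 * q2 C.μ ≤ (1 / 4 : ℝ) ^ m) {E : Type*} (d : E)
    (f : Ω → Ω → E) (hf : ∀ ω0 ω1 ω0' ω1', f ω0 ω1 = f ω0' ω1' →
      C.cell i' b ω1 = C.cell i' b ω1' ∧ td C (k + 1) ω0 = td C (k + 1) ω0' ∧
        D.cell j b ω0 = D.cell j b ω0' ∧ C.VZ k b ω0 = C.VZ k b ω0') :
    ∃ U : Finset (ℤ × ℤ), U.card ≤ 9540 * 2 ^ m ∧ ∀ ω0 ω1, f ω0 ω1 = d → C.l ω0 = C.l ω1 →
      C.T i ω0 = C.T i ω1 → D.Ok K ω0 → C.Ok K ω1 → DifK2 C D i i' k j b m' ω0 ω1 →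
      C.VZ (k + 1) b ω0 ∈ U := by
  classical
  by_cases hex : ∃ ω0 ω1, f ω0 ω1 = d ∧ C.l ω0 = C.l ω1 ∧ C.T i ω0 = C.T i ω1 ∧ D.Ok K ω0 ∧
      C.Ok K ω1 ∧ DifK2 C D i i' k j b m' ω0 ω1
  swap
  · push Not at hex
    exact ⟨∅, by simp, fun ω0 ω1 h1 h2 h3 h4 h5 h6 => absurd h6 (hex ω0 ω1 h1 h2 h3 h4 h5)⟩
  obtain ⟨r0, r1, hd, hl, hTi, hO0, hO1, hDif⟩ := hex
  obtain ⟨hii, hik, ham, hb, hR, hk, hi⟩ := hL
  have hDl := hC.l
  have hDμ := hC.μ
  have hDa := hC.a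
  have hDs := hC.s
  have hak : C.a i ≤ C.a i' := C.ha hii
  have hak2 : C.a i' ≤ C.a k := C.ha hik
  have hR' : 8 * C.μ ≤ C.R i' b := by omega
  -- the scales
  set α := q2 (C.a k) with hα
  set β := q2 b with hβ
  have hS : Sc K α β (q2 (b - C.μ)) (q2 (b - 2 * C.μ)) (q2 C.μ) := by
    refine ⟨hK, q2_pos _, q2_pos _, q2_pos _, q2_pos _, q2_pos _, ?_, ?_, ?_, ?_⟩
    · exact pow_le_one₀ (by norm_num) (by norm_num)
    · rw [← q2_add]; congr 1; omega
    · rw [hβ, ← q2_add]; congr 1; omega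
    · rw [pow_two, ← q2_add]; exact q2_le (by omega)
  have hα0 : 0 < α := q2_pos _
  have hβ0 : 0 < β := q2_pos _
  have hε0 : 0 < q2 C.μ := q2_pos _
  have h4m : (1 / 4 : ℝ) ^ m ≤ 1 := pow_le_one₀ (by norm_num) (by norm_num)
  have hε1 : 40 * K ^ 2 * q2 C.μ ≤ 1 := hμ.trans h4m
  have hp : α * β = q2 (C.a k + b) := by rw [hα, hβ, ← q2_add]
  have hq : α * β ^ 2 = q2 (C.a k + 2 * b) := by
    rw [hα, hβ, pow_two, ← q2_add, ← q2_add]; congr 1; omega
  -- the reference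
  set s := C.s (k + 1) r0 with hs
  set F := sF2 C D k j b r0 with hF
  set G := sG C i' k b r0 r1 with hG
  set lr := C.l r0 with hlr
  set A := lr.v - rd b lr.v with hA
  set B := lr.w - C.ro 1 (b - C.μ) lr.w with hB
  set X0 := q2 (C.a k + b + (C.R i b + m')) with hX0
  have hAb : |A| ≤ β := by
    rw [hA, abs_sub_comm]; exact rd_err _ _
  have hBb : |B| ≤ q2 (b - C.μ) := by
    rw [hB, abs_sub_comm]; exact ro_err _ _ _
  have hδ : |s - C.s k r0| ≤ α := rd_sub (C.ha (Nat.le_succ k)) _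
  -- coefficient bounds
  have hFcN : F.cN lr s = (D.F j r0).cN lr (C.s k r0) := by
    rw [← hDs]; exact sh_cN _ _ _ _
  have hGcN : G.cN lr s = (C.F i' r1).cN lr (C.s i' r1) := sh_cN _ _ _ _
  have o1 : 1 ≤ K * (D.F j r0).cN lr (C.s k r0) := by
    have := hO0.n1 j
    rwa [hDs, hDl] at this
  have n1 : 1 ≤ K * F.cN lr s := by rw [hFcN]; exact o1
  have n2 : G.cN lr s ≤ K := by
    rw [hGcN, hl]; exact hO1.n2 i'
  have n3 : 1 ≤ K * G.cN lr s := by
    rw [hGcN, hl]; exact hO1.n1 i'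
  have hFpos : 0 < F.cN lr s := by
    by_contra hcon
    push Not at hcon
    nlinarith
  have hGpos : 0 < G.cN lr s := by
    by_contra hcon
    push Not at hcon
    nlinarith
  set ρ := G.cN lr s / F.cN lr s with hρ
  have hρ0 : 0 ≤ ρ := by positivity
  have hρK : ρ ≤ K ^ 2 := by
    rw [hρ, div_le_iff₀ hFpos]
    nlinarith
  -- the core
  obtain ⟨U, hU, hU'⟩ := strip_core hα0 hβ0 (m := m) hp hq (c1 := dd1 C D i' k j b r0 r1)
    (c2 := dd2 C D i' k j b r0 r1) (c3 := (G.al - ρ * F.al) / 2) (A := A)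
    (Xs := lr.X s) (Zs := C.Zs b s r0) (X0 := X0)
    (e := (X0 / 10 + |dd2 C D i' k j b r0 r1| * (α * β ^ 2) + |(G.al - ρ * F.al) / 2| * (α * β) ^ 2) *
      (1 / 4 : ℝ) ^ m) hAb (q2_pos _) (by
      have e1 : X0 = q2 (C.R i b + m') * (α * β) := by
        rw [hX0, q2_add (C.a k + b), hp]; ring
      rcases hDif with h | h
      · left
        rw [e1]
        exact mul_le_mul_of_nonneg_right h (by positivity)
      · right
        have e2 : |dd2 C D i' k j b r0 r1| * (α * β ^ 2) = (|dd2 C D i' k j b r0 r1| * β) * (α * β) := by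
          ring
        rw [e1, e2]
        exact mul_le_mul_of_nonneg_right h (by positivity)) le_rfl
  refine ⟨U, hU, ?_⟩
  intro ω0 ω1 h1 h2 h3 h4 h5 h6
  obtain ⟨g1, g2, g3, g4⟩ := hf r0 r1 ω0 ω1 (hd.trans h1.symm)
  -- common data
  have hsj : D.s j ω0 = D.s j r0 := (s_congr (cell_T g3)).symm
  have hsk : C.s k ω0 = C.s k r0 := by rw [← hDs, ← hDs]; exact hsj
  have hss : C.s (k + 1) ω0 = s := (s_td g2).symm
  have hs1 : C.s i' ω1 = C.s i' r1 := (s_congr (cell_T g1)).symm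
  set l := C.l ω0 with hlω
  have hDl0 : D.l ω0 = l := by rw [hDl]
  have hDlr : D.l r0 = lr := by rw [hDl]
  have hv : |l.v - lr.v| ≤ β := by
    have := fl1_close (cell_v g3.symm)
    rwa [hDl0, hDlr] at this
  have hva : ∀ x, |D.va j b ω0 x - D.va j b r0 x| ≤ q2 (D.lv j b x) := cell_va g3.symm
  have hw : |l.w - lr.w| ≤ q2 (b - C.μ) := by
    have := hva 1
    simp only [Pth.lv, Pth.va] at this
    rw [← hDμ, ← hDl0, ← hDlr]
    simpa using this
  have hN : |l.N (C.s k r0) - lr.N (C.s k r0)| ≤ α * q2 (b - C.μ) := by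
    have := hva 2
    simp only [Pth.lv, Pth.va] at this
    rw [hα, ← q2_add]
    have e : C.a k + (b - C.μ) = D.a j + b - D.μ := by omega
    rw [e, ← hDs, ← hDl0, ← hDlr]
    simpa [hsj] using this
  have hrv : rd b l.v = rd b lr.v := by
    have := cell_v g3.symm
    rw [hDl0, hDlr] at this
    unfold rd
    rw [this]
  have hrw : C.ro 1 (b - C.μ) l.w = C.ro 1 (b - C.μ) lr.w := by
    have := row_congr g3.symm
    rw [hDl0, hDlr, hDμ] at this
    unfold Pth.ro at this ⊢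
    rwa [hC.o1] at this
  have hVZ1 : fl1 (C.a k + b) (l.X (C.s k r0)) = fl1 (C.a k + b) (lr.X (C.s k r0)) := by
    have := congrArg Prod.fst g4
    simp only [Pth.VZ] at this
    rw [hsk] at this
    exact this.symm
  have hVZ2 : fl1 (C.a k + 2 * b) (C.Zs b (C.s k r0) ω0) = fl1 (C.a k + 2 * b) (C.Zs b (C.s k r0) r0) := by
    have := congrArg Prod.snd g4
    simp only [Pth.VZ] at this
    rw [hsk] at this
    exact this.symm
  have hX : |l.X (C.s k r0) - lr.X (C.s k r0)| ≤ α * β := by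
    rw [hp]; exact fl1_close hVZ1
  have hZ : |(l.Z (C.s k r0) - rd b lr.v * l.X (C.s k r0) - C.ro 1 (b - C.μ) lr.w * l.N (C.s k r0)) -
      (lr.Z (C.s k r0) - rd b lr.v * lr.X (C.s k r0) - C.ro 1 (b - C.μ) lr.w * lr.N (C.s k r0))| ≤
        α * β ^ 2 := by
    rw [hq]
    have := fl1_close hVZ2
    unfold Pth.Zs at this
    rw [hrv, hrw] at this
    exact this
  -- the functional of the cell
  set Φ := D.Fr j b (D.R j b - 3 * D.μ) r0 with hΦ
  have hΦ0 : D.Fr j b (D.R j b - 3 * D.μ) ω0 = Φ := (Fr_congr g3).symm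
  set Ψ := C.Fr i' b (C.R i' b - 3 * C.μ) r1 with hΨ
  have hΨ1 : C.Fr i' b (C.R i' b - 3 * C.μ) ω1 = Ψ := (Fr_congr g1).symm
  have hgd0 : |Φ.gd l (C.s k r0) - Φ.gd lr (C.s k r0)| ≤ q2 (D.R j b + b - 5 * C.μ) := by
    have := hva 5
    have e1 : D.va j b ω0 5 = Φ.gd l (C.s k r0) := by
      rw [← hDs, ← hsj, ← hΦ0, ← hDl0]; rfl
    have e2 : D.va j b r0 5 = Φ.gd lr (C.s k r0) := by
      rw [← hDs, ← hDlr]; rfl
    have e3 : D.lv j b 5 = D.R j b + b - 5 * C.μ := by rw [← hDμ]; rfl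
    rwa [e1, e2, e3] at this
  have hg0 : |Φ.g l (C.s k r0) - Φ.g lr (C.s k r0)| ≤ q2 (C.a k + b + D.R j b - 7 * C.μ) := by
    have := hva 6
    have e1 : D.va j b ω0 6 = Φ.g l (C.s k r0) := by
      rw [← hDs, ← hsj, ← hΦ0, ← hDl0]; rfl
    have e2 : D.va j b r0 6 = Φ.g lr (C.s k r0) := by
      rw [← hDs, ← hDlr]; rfl
    have e3 : D.lv j b 6 = C.a k + b + D.R j b - 7 * C.μ := by rw [← hDμ, ← hDa]; rfl
    rwa [e1, e2, e3] at this
  have hva1 : ∀ x, |C.va i' b ω1 x - C.va i' b r1 x| ≤ q2 (C.lv i' b x) := cell_va g1.symm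
  have hgd1 : |Ψ.gd l (C.s i' r1) - Ψ.gd lr (C.s i' r1)| ≤ q2 (C.R i' b + b - 5 * C.μ) := by
    have := hva1 5
    have e1 : C.va i' b ω1 5 = Ψ.gd l (C.s i' r1) := by
      rw [← hs1, ← hΨ1, h2]; rfl
    have e2 : C.va i' b r1 5 = Ψ.gd lr (C.s i' r1) := by
      rw [hl]; rfl
    rwa [e1, e2] at this
  have hg1 : |Ψ.g l (C.s i' r1) - Ψ.g lr (C.s i' r1)| ≤ q2 (C.a i' + b + C.R i' b - 7 * C.μ) := by
    have := hva1 6
    have e1 : C.va i' b ω1 6 = Ψ.g l (C.s i' r1) := by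
      rw [← hs1, ← hΨ1, h2]; rfl
    have e2 : C.va i' b r1 6 = Ψ.g lr (C.s i' r1) := by
      rw [hl]; rfl
    rwa [e1, e2] at this
  -- closeness
  have hcV : |Φ.cV lr (C.s k r0)| ≤ 3 * K * q2 C.μ ^ 2 := by
    have := Fr_norm (C := D) hK (k := j) (b := b) (by rw [hDμ]; exact hR) hO0
    rw [hDs, hDlr, ← hΦ, hDμ] at this
    exact this
  have k1' : |(D.F j r0).ka| ≤ K := hO0.k1 j
  have a1' : |(D.F j r0).al| * q2 (C.a k) ≤ K := by
    have := hO0.a1 j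
    rwa [hDa] at this
  have c1 := close1 hS Φ lr l (C.s k r0) (rv := rd b lr.v) (rw' := C.ro 1 (b - C.μ) lr.w)
    o1 hcV k1' a1' hAb hBb hv hw hX hN hZ (hgd0.trans (by
      rw [hβ, pow_two, ← q2_add, ← q2_add]
      exact q2_le (by omega))) (hg0.trans (by
      rw [hα, hβ, pow_two, ← q2_add, ← q2_add, ← q2_add]
      exact q2_le (by omega)))
  obtain ⟨-, hdw, hdN⟩ := c1
  obtain ⟨k1, k2, k3⟩ := shift1 hS hε1 hδ hAb hBb hv hdw hX hdN hZ
  have hst : s = C.s k r0 + (s - C.s k r0) := by ring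
  have eX : l.X s - lr.X s = (l.X (C.s k r0) - lr.X (C.s k r0)) + (s - C.s k r0) * (l.v - lr.v) := by
    unfold Ray.X; ring
  have eN : l.N s - lr.N s = (l.N (C.s k r0) - lr.N (C.s k r0)) + (s - C.s k r0) * (l.w - lr.w) := by
    unfold Ray.N; ring
  have eZ : C.Zs b s ω0 - C.Zs b s r0 = ((l.Z (C.s k r0) - rd b lr.v * l.X (C.s k r0) -
      C.ro 1 (b - C.μ) lr.w * l.N (C.s k r0)) -
      (lr.Z (C.s k r0) - rd b lr.v * lr.X (C.s k r0) - C.ro 1 (b - C.μ) lr.w * lr.N (C.s k r0))) +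
      (s - C.s k r0) * (((l.v - lr.v) ^ 2 + (l.w - lr.w) ^ 2) / 2 + A * (l.v - lr.v) +
        B * (l.w - lr.w)) := by
    have e1 : C.Zs b s ω0 = l.Z s - rd b lr.v * l.X s - C.ro 1 (b - C.μ) lr.w * l.N s := by
      rw [← hrv, ← hrw]; rfl
    have e2 : C.Zs b s r0 = lr.Z s - rd b lr.v * lr.X s - C.ro 1 (b - C.μ) lr.w * lr.N s := rfl
    rw [e1, e2, hA, hB]
    unfold Ray.Z Ray.X Ray.N
    ring
  rw [← eX] at k1
  rw [← eN] at k2
  rw [← eZ] at k3
  have hmem := hU' (l.X s) (C.Zs b s ω0) k1 k3 ?_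
  · have e1 : C.VZ (k + 1) b ω0 = (fl1 (C.a k + b + m) (l.X s), fl1 (C.a k + 2 * b + m) (C.Zs b s ω0)) := by
      unfold Pth.VZ
      rw [hss, ham]
      have e2 : C.a k + m + b = C.a k + b + m := by omega
      have e3 : C.a k + m + 2 * b = C.a k + 2 * b + m := by omega
      rw [e2, e3]
    rw [e1]
    exact hmem
  -- the strip inequality
  have hEF : |F.g l s - F.g lr s| ≤ 2 * q2 (C.a k + b + D.R j b - 7 * C.μ) := by
    have eF : F.g l s - F.g lr s = (Φ.g l (C.s k r0) - Φ.g lr (C.s k r0)) +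
        (s - C.s k r0) * (Φ.gd l (C.s k r0) - Φ.gd lr (C.s k r0)) := by
      rw [← hDs]
      exact sh_sub Φ l lr (D.s j r0) s
    rw [eF]
    have q1 := mul_bd hδ hgd0
    have q3 : α * q2 (D.R j b + b - 5 * C.μ) ≤ q2 (C.a k + b + D.R j b - 7 * C.μ) := by
      rw [hα, ← q2_add]
      exact q2_le (by omega)
    refine (abs_add_le _ _).trans ?_
    linarith
  have hEG : |G.g l s - G.g lr s| ≤ 2 * q2 (C.a i + b + C.R i' b - 7 * C.μ) := by
    have eG : G.g l s - G.g lr s = _ := sh_sub Ψ l lr (C.s i' r1) s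
    rw [eG]
    have q1 := mul_bd (s_near hii (by omega : i ≤ k + 1) hTi) hgd1
    have q3 : q2 (C.a i) * q2 (C.R i' b + b - 5 * C.μ) ≤ q2 (C.a i + b + C.R i' b - 7 * C.μ) := by
      rw [← q2_add]
      exact q2_le (by omega)
    have q4 : q2 (C.a i' + b + C.R i' b - 7 * C.μ) ≤ q2 (C.a i + b + C.R i' b - 7 * C.μ) :=
      q2_le (by omega)
    refine (abs_add_le _ _).trans ?_
    linarith
  have hX0m : X0 * (1 / 4 : ℝ) ^ m = q2 (C.a k + b + (C.R i b + m') + 2 * m) := by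
    rw [hX0, q2_add (C.a k + b + (C.R i b + m')) (2 * m)]
    congr 1
    unfold q2
    rw [pow_mul]
    norm_num
  have hρF : ρ * F.cN lr s = G.cN lr s := by
    rw [hρ]; field_simp
  have hid := strip_id F G lr l s (rd b lr.v) (C.ro 1 (b - C.μ) lr.w) ρ hρF
  have e1 : C.Zs b s ω0 = l.Z s - rd b lr.v * l.X s - C.ro 1 (b - C.μ) lr.w * l.N s := by
    rw [← hrv, ← hrw]; rfl
  have e2 : C.Zs b s r0 = lr.Z s - rd b lr.v * lr.X s - C.ro 1 (b - C.μ) lr.w * lr.N s := rfl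
  rw [e1, e2]
  have hρ1 : |ρ| ≤ K ^ 2 := by rw [abs_of_nonneg hρ0]; exact hρK
  have hq1 : q2 (C.a k + b + D.R j b - 7 * C.μ) ≤
      q2 (C.a k + b + (C.R i b + m') + 2 * m) * q2 C.μ := by
    rw [← q2_add]; exact q2_le (by omega)
  have hq3 : q2 (C.a i + b + C.R i' b - 7 * C.μ) ≤
      q2 (C.a k + b + (C.R i b + m') + 2 * m) * q2 C.μ := by
    rw [← q2_add]; exact q2_le (by omega)
  have hfin := strip_err (c2 := G.ka - ρ * F.ka) (c3 := (G.al - ρ * F.al) / 2) hK hα0 hβ0 hε0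
    hS.ε1 hS.e (by positivity) h4m hμ (q2_pos _) hX0m hρ1 (hEF.trans (by linarith))
    (hEG.trans (by linarith)) hBb k2
  rw [← hid] at hfin
  exact hfin

/-- the next position takes few values given the cell of the copy 0 -/
theorem vz_card2 {k j b m : ℕ} (hC : Cmp C D k j) (ham : C.a (k + 1) = C.a k + m) (hb : C.μ ≤ b) (r : Ω) :
    ∃ F : Finset (ℤ × ℤ), F.card ≤ 45 * 2 ^ (2 * m + 2 * C.μ) ∧ ∀ ω, td C (k + 1) ω = td C (k + 1) r →
      D.cell j b ω = D.cell j b r → C.VZ k b ω = C.VZ k b r → C.VZ (k + 1) b ω ∈ F := by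
  classical
  set x0 := (C.VZ (k + 1) b r).1 with hx0
  set z0 := (C.VZ (k + 1) b r).2 with hz0
  refine ⟨(Icc (x0 - (2 * 2 ^ m : ℕ)) (x0 + (2 * 2 ^ m : ℕ))) ×ˢ
    (Icc (z0 - (4 * 2 ^ (m + 2 * C.μ) : ℕ)) (z0 + (4 * 2 ^ (m + 2 * C.μ) : ℕ))), ?_, ?_⟩
  · rw [Finset.card_product, Int.card_Icc, Int.card_Icc]
    have e1 : (x0 + (2 * 2 ^ m : ℕ) + 1 - (x0 - (2 * 2 ^ m : ℕ))).toNat = 4 * 2 ^ m + 1 := by
      have : x0 + (2 * 2 ^ m : ℕ) + 1 - (x0 - (2 * 2 ^ m : ℕ)) = ((4 * 2 ^ m + 1 : ℕ) : ℤ) := by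
        push_cast; ring
      rw [this]; rfl
    have e2 : (z0 + (4 * 2 ^ (m + 2 * C.μ) : ℕ) + 1 - (z0 - (4 * 2 ^ (m + 2 * C.μ) : ℕ))).toNat =
        8 * 2 ^ (m + 2 * C.μ) + 1 := by
      have : z0 + (4 * 2 ^ (m + 2 * C.μ) : ℕ) + 1 - (z0 - (4 * 2 ^ (m + 2 * C.μ) : ℕ)) =
          ((8 * 2 ^ (m + 2 * C.μ) + 1 : ℕ) : ℤ) := by
        push_cast; ring
      rw [this]; rfl
    rw [e1, e2]
    have h1 : 1 ≤ 2 ^ m := Nat.one_le_two_pow
    have h2 : 1 ≤ 2 ^ (m + 2 * C.μ) := Nat.one_le_two_pow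
    calc (4 * 2 ^ m + 1) * (8 * 2 ^ (m + 2 * C.μ) + 1)
        ≤ (5 * 2 ^ m) * (9 * 2 ^ (m + 2 * C.μ)) := Nat.mul_le_mul (by omega) (by omega)
      _ = 45 * 2 ^ (2 * m + 2 * C.μ) := by
          rw [show 2 * m + 2 * C.μ = m + (m + 2 * C.μ) by ring, pow_add 2 m (m + 2 * C.μ)]
          ring
  · intro ω hT hc hvz
    have hDl := hC.l
    have hDμ := hC.μ
    have hDs := hC.s
    have hsj : D.s j ω = D.s j r := s_congr (cell_T hc)
    have hsk : C.s k ω = C.s k r := by rw [← hDs, ← hDs]; exact hsj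
    have hss : C.s (k + 1) ω = C.s (k + 1) r := s_td hT
    set s := C.s (k + 1) r with hs
    set l := C.l ω with hl
    set lr := C.l r with hlr
    have hDl0 : D.l ω = l := by rw [hDl]
    have hDlr : D.l r = lr := by rw [hDl]
    have hδ : |s - C.s k r| ≤ q2 (C.a k) := rd_sub (C.ha (Nat.le_succ k)) _
    have hv : |l.v - lr.v| ≤ q2 b := by
      have := fl1_close (cell_v hc)
      rwa [hDl0, hDlr] at this
    have hw : |l.w - lr.w| ≤ q2 (b - C.μ) := by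
      have := cell_va hc 1
      simp only [Pth.lv, Pth.va] at this
      rw [← hDμ, ← hDl0, ← hDlr]
      simpa using this
    have hrv : rd b l.v = rd b lr.v := by
      have := cell_v hc
      rw [hDl0, hDlr] at this
      unfold rd
      rw [this]
    have hrw : C.ro 1 (b - C.μ) l.w = C.ro 1 (b - C.μ) lr.w := by
      have := row_congr hc
      rw [hDl0, hDlr, hDμ] at this
      unfold Pth.ro at this ⊢
      rwa [hC.o1] at this
    have hX : |l.X (C.s k r) - lr.X (C.s k r)| ≤ q2 (C.a k + b) := by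
      have := congrArg Prod.fst hvz
      simp only [Pth.VZ] at this
      rw [hsk] at this
      exact fl1_close this
    have hZ : |C.Zs b (C.s k r) ω - C.Zs b (C.s k r) r| ≤ q2 (C.a k + 2 * b) := by
      have := congrArg Prod.snd hvz
      simp only [Pth.VZ] at this
      rw [hsk] at this
      exact fl1_close this
    have hA : |lr.v - rd b lr.v| ≤ q2 b := by
      rw [abs_sub_comm]; exact rd_err _ _
    have hB : |lr.w - C.ro 1 (b - C.μ) lr.w| ≤ q2 (b - C.μ) := by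
      rw [abs_sub_comm]; exact ro_err _ _ _
    have eX : l.X s - lr.X s = (l.X (C.s k r) - lr.X (C.s k r)) + (s - C.s k r) * (l.v - lr.v) := by
      unfold Ray.X; ring
    have eZ : C.Zs b s ω - C.Zs b s r = (C.Zs b (C.s k r) ω - C.Zs b (C.s k r) r) +
        (s - C.s k r) * (((l.v - lr.v) ^ 2 + (l.w - lr.w) ^ 2) / 2 + (lr.v - rd b lr.v) * (l.v - lr.v) +
          (lr.w - C.ro 1 (b - C.μ) lr.w) * (l.w - lr.w)) := by
      unfold Pth.Zs
      rw [hrv, hrw]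
      unfold Ray.Z Ray.X Ray.N
      ring
    have hb1 : q2 b ≤ q2 (b - C.μ) := q2_le (by omega)
    have hb0 : 0 < q2 b := q2_pos _
    have kX : |l.X s - lr.X s| ≤ ((2 * 2 ^ m : ℕ) : ℝ) * q2 (C.a (k + 1) + b) := by
      rw [eX]
      refine (abs_add_le _ _).trans ?_
      have h1 := mul_bd hδ hv
      rw [← q2_add] at h1
      have h2 : q2 (C.a k + b) = 2 ^ m * q2 (C.a (k + 1) + b) := by
        rw [q2_split (C.a k + b) m, ham]
        congr 2
        omega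
      push_cast
      linarith
    have kZ : |C.Zs b s ω - C.Zs b s r| ≤ ((4 * 2 ^ (m + 2 * C.μ) : ℕ) : ℝ) *
        q2 (C.a (k + 1) + 2 * b) := by
      rw [eZ]
      refine (abs_add_le _ _).trans ?_
      have q1 : |(l.v - lr.v) ^ 2 + (l.w - lr.w) ^ 2| ≤ 2 * q2 (b - C.μ) ^ 2 := by
        have g1 := sq_bd hv
        have g2 := sq_bd hw
        have g3 : q2 b ^ 2 ≤ q2 (b - C.μ) ^ 2 := pow_le_pow_left₀ hb0.le hb1 2
        rw [abs_of_nonneg (by positivity)]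
        linarith
      have q1' : |((l.v - lr.v) ^ 2 + (l.w - lr.w) ^ 2) / 2| ≤ q2 (b - C.μ) ^ 2 := by
        rw [abs_div, abs_of_pos (by norm_num : (0 : ℝ) < 2)]
        linarith
      have q3 : |(lr.v - rd b lr.v) * (l.v - lr.v)| ≤ q2 (b - C.μ) ^ 2 := by
        rw [pow_two]
        exact mul_bd (hA.trans hb1) (hv.trans hb1)
      have q4 : |(lr.w - C.ro 1 (b - C.μ) lr.w) * (l.w - lr.w)| ≤ q2 (b - C.μ) ^ 2 := by
        rw [pow_two]
        exact mul_bd hB hw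
      have q5 := abs4 q1' q3 q4 (abs_zero.le)
      rw [add_zero] at q5
      have q6 := mul_bd hδ q5
      have e1 : q2 (C.a k) * (q2 (b - C.μ) ^ 2 + q2 (b - C.μ) ^ 2 + q2 (b - C.μ) ^ 2 + 0) =
          3 * (q2 (C.a k) * q2 (b - C.μ) ^ 2) := by ring
      rw [e1] at q6
      have e2 : q2 (C.a k) * q2 (b - C.μ) ^ 2 = 2 ^ (m + 2 * C.μ) * q2 (C.a (k + 1) + 2 * b) := by
        rw [pow_two, ← q2_add, ← q2_add, q2_split _ (m + 2 * C.μ), ham]
        congr 2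
        omega
      have e3 : q2 (C.a k + 2 * b) ≤ q2 (C.a k) * q2 (b - C.μ) ^ 2 := by
        rw [pow_two, ← q2_add, ← q2_add]
        exact q2_le (by omega)
      rw [e2] at q6 e3
      push_cast
      linarith
    have b1 := fl1_bd kX
    have b2 := fl1_bd kZ
    rw [abs_le] at b1 b2
    have f1 : (C.VZ (k + 1) b ω).1 = fl1 (C.a (k + 1) + b) (l.X s) := by
      unfold Pth.VZ; rw [hss]
    have f2 : (C.VZ (k + 1) b ω).2 = fl1 (C.a (k + 1) + 2 * b) (C.Zs b s ω) := by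
      unfold Pth.VZ; rw [hss]
    have f3 : x0 = fl1 (C.a (k + 1) + b) (lr.X s) := rfl
    have f4 : z0 = fl1 (C.a (k + 1) + 2 * b) (C.Zs b s r) := rfl
    rw [Finset.mem_product, Finset.mem_Icc, Finset.mem_Icc, f1, f2, f3, f4]
    refine ⟨⟨?_, ?_⟩, ?_, ?_⟩
    · linarith [b1.1]
    · linarith [b1.2]
    · linarith [b2.1]
    · linarith [b2.2]

end

section

variable {χ σ : Type} [Fintype Ω] (P : Law Ω) (C : Pth Ω τ) (D : Pth Ω τ')

/-- the exceptional event of the strip -/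
def sbad2 (K : ℝ) (i i' k j b m' : ℕ) (ω0 ω1 : Ω) : Prop :=
  ¬ (D.Ok K ω0 ∧ C.Ok K ω1 ∧ DifK2 C D i i' k j b m' ω0 ω1)

/-- **strip count**, two paths, entropy form -/
theorem strip_hc2 {K : ℝ} (hK : 1 ≤ K) {i i' k j b m m' : ℕ} (hC : Cmp C D k j)
    (hL : SLv2 C D i i' k j b m m')
    (hμ : 40 * K ^ 2 * q2 C.μ ≤ (1 / 4 : ℝ) ^ m) (X : Ω → χ)
    (hX : ∀ ω ω', 0 < P.w ω → 0 < P.w ω' → X ω = X ω' → C.l ω = C.l ω' ∧ C.T i ω = C.T i ω') :
    hc (two P X) (fun p => C.VZ (k + 1) b p.fst)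
      (fun p => (C.cell i' b p.snd, (td C (k + 1) p.fst, (D.cell j b p.fst, C.VZ k b p.fst)))) ≤
    Real.log (9540 * 2 ^ m : ℕ) +
      (2 * Real.sqrt (prE (two P X) (fun p => sbad2 C D K i i' k j b m' p.fst p.snd)) +
      prE (two P X) (fun p => sbad2 C D K i i' k j b m' p.fst p.snd) *
        Real.log (45 * 2 ^ (2 * m + 2 * C.μ) : ℕ)) := by
  refine hc_exc_loc (two P X) _ _ (fun p => sbad2 C D K i i' k j b m' p.fst p.snd) _ _ ?_ ?_ ?_ ?_
  · have : 1 ≤ 2 ^ (2 * m + 2 * C.μ) := Nat.one_le_two_pow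
    omega
  · have : 1 ≤ 2 ^ m := Nat.one_le_two_pow
    omega
  · intro y
    obtain ⟨U, hU, hU'⟩ := strip_cell2 hK hC hL hμ y
      (fun ω0 ω1 => (C.cell i' b ω1, (td C (k + 1) ω0, (D.cell j b ω0, C.VZ k b ω0))))
      (fun ω0 ω1 ω0' ω1' e => by
        simp only [Prod.mk.injEq] at e
        exact ⟨e.1, e.2.1, e.2.2.1, e.2.2.2⟩)
    refine ⟨U, hU, fun p hp hb e => ?_⟩
    have h1 := hX _ _ (two_supp hp).1 (two_supp hp).2 p.eq
    unfold sbad2 at hb
    rw [not_not] at hb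
    exact hU' p.fst p.snd e h1.1 h1.2 hb.1 hb.2.1 hb.2.2
  · intro p _
    obtain ⟨F, hF, hF'⟩ := vz_card2 hC (b := b) hL.am (by have := hL.hb; omega) p.fst
    refine ⟨F, hF, fun p' _ e => ?_⟩
    simp only [Prod.mk.injEq] at e
    exact hF' p'.fst e.2.1 e.2.2.1 e.2.2.2

/-- error of one step of RISE -/
noncomputable def eS (η : ℝ) (m μ : ℕ) : ℝ :=
  Real.log 9540 + 2 * Real.sqrt η + η * (Real.log 45 + (2 * m + 2 * μ) * Real.log 2)

/-- **strip count**, two paths, any letter `Y` which determines the cell of the copy 0 -/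
theorem strip_hc2_Y {K : ℝ} (hK : 1 ≤ K) {i i' k j b m m' : ℕ} (hC : Cmp C D k j)
    (hL : SLv2 C D i i' k j b m m')
    (hμ : 40 * K ^ 2 * q2 C.μ ≤ (1 / 4 : ℝ) ^ m) (X : Ω → χ)
    (hX : ∀ ω ω', 0 < P.w ω → 0 < P.w ω' → X ω = X ω' → C.l ω = C.l ω' ∧ C.T i ω = C.T i ω')
    (Y : Ω → σ) (hY : Fn P (D.cell j b) Y) {η : ℝ}
    (hη : prE (two P X) (fun p => sbad2 C D K i i' k j b m' p.fst p.snd) ≤ η) :
    hc (two P X) (fun p => C.VZ (k + 1) b p.fst)
      (fun p => (C.cell i' b p.snd, (td C (k + 1) p.fst, (Y p.fst, C.VZ k b p.fst)))) ≤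
    m * Real.log 2 + eS η m C.μ := by
  have h1 : hc (two P X) (fun p => C.VZ (k + 1) b p.fst)
      (fun p => (C.cell i' b p.snd, (td C (k + 1) p.fst, (Y p.fst, C.VZ k b p.fst)))) ≤
      hc (two P X) (fun p => C.VZ (k + 1) b p.fst)
      (fun p => (C.cell i' b p.snd, (td C (k + 1) p.fst, (D.cell j b p.fst, C.VZ k b p.fst)))) := by
    refine hc_mono_right (two P X) _ fun p q hp hq e => ?_
    simp only [Prod.mk.injEq] at e ⊢
    exact ⟨e.1, e.2.1, hY _ _ (two_supp hp).1 (two_supp hq).1 e.2.2.1, e.2.2.2⟩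
  refine h1.trans ((strip_hc2 P C D hK hC hL hμ X hX).trans ?_)
  have hp0 : 0 ≤ prE (two P X) (fun p => sbad2 C D K i i' k j b m' p.fst p.snd) := prE_nonneg _ _
  have g1 := Real.sqrt_le_sqrt hη
  have g2 : 0 ≤ Real.log (45 * 2 ^ (2 * m + 2 * C.μ) : ℕ) := Real.log_nonneg (by
    have : 1 ≤ 45 * 2 ^ (2 * m + 2 * C.μ) := by
      have : 1 ≤ 2 ^ (2 * m + 2 * C.μ) := Nat.one_le_two_pow
      omega
    exact_mod_cast this)
  have g3 := mul_le_mul_of_nonneg_right hη g2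
  have e1 : Real.log (9540 * 2 ^ m : ℕ) = Real.log 9540 + m * Real.log 2 := by
    push_cast
    rw [Real.log_mul (by norm_num) (by positivity), Real.log_pow]
  have e2 : Real.log (45 * 2 ^ (2 * m + 2 * C.μ) : ℕ) =
      Real.log 45 + (2 * m + 2 * C.μ) * Real.log 2 := by
    push_cast
    rw [Real.log_mul (by norm_num) (by positivity), Real.log_pow]
    push_cast
    ring
  unfold eS
  rw [e2] at g3 ⊢
  rw [e1]
  linarith

end

end Vale.Agent.P106.U.H513
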